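import Vale.Agent.P073.H471.Stage

/-!
# P073: the product of a locally finite family of homeomorphisms supported in cubes
(general version of 471's stage)
-/

open Set Metric Topology Filter
open scoped ENNReal NNReal

namespace Vale.Agent.P073.H851

open _root_.P073 _root_.P073.Net
open Vale.Agent.P073.St (V)
open Vale.Agent.P073.H471 (Cubes norm_sub_le_of_right eVariationOn_le_of_local var_le_len
  germ_dichotomy)

variable {ι : Type*} {Λ : Set V} {z : ι → V} {σ : ι → ℝ}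

/-- the product of the family `Ξ` -/
structure IsSt (W : Cubes Λ z σ) (Ξ : ι → ConHomeo (univ : Set V) (univ : Set V))
    (T : ConHomeo Λ Λ) : Prop where
  idX : ∀ i x, σ i ≤ ‖x - z i‖ → (Ξ i).toFun x = x
  eq : ∀ i, ∀ y ∈ closedBall (z i) (σ i), T.toFun y = (Ξ i).toFun y
  inv_eq : ∀ i, ∀ y ∈ closedBall (z i) (σ i), T.invFun y = (Ξ i).invFun y
  off : ∀ y, (∀ i, y ∉ ball (z i) (σ i)) → T.toFun y = y ∧ T.invFun y = y
  mem : ∀ i, ∀ y ∈ ball (z i) (σ i), T.toFun y ∈ ball (z i) (σ i) ∧ T.invFun y ∈ ball (z i) (σ i)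

theorem exists_isSt (hΛ : IsOpen Λ) (W : Cubes Λ z σ)
    (Ξ : ι → ConHomeo (univ : Set V) (univ : Set V))
    (hid : ∀ i x, σ i ≤ ‖x - z i‖ → (Ξ i).toFun x = x) : ∃ T : ConHomeo Λ Λ, IsSt W Ξ T := by
  have hidi : ∀ i x, σ i ≤ ‖x - z i‖ → (Ξ i).invFun x = x := by
    intro i x hx
    have h1 := hid i x hx
    have h2 := (Ξ i).left_inv (mem_univ x)
    rwa [h1] at h2
  have hmem : ∀ i x, ‖x - z i‖ < σ i → ‖(Ξ i).toFun x - z i‖ < σ i := by
    intro i x hx
    by_contra hn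
    push Not at hn
    have h1 := hid i _ hn
    have h2 := (Ξ i).injOn (mem_univ _) (mem_univ _) h1
    rw [h2] at hn
    linarith
  obtain ⟨T, h1, h2, h3, h4⟩ := exists_glue_ambient hΛ Ξ
    (fun i => closedBall (z i) (σ i)) W.sub
    (fun i x hx => hid i x (by
      rw [mem_closedBall, dist_eq_norm, not_le] at hx
      exact hx.le)) W.fin
    (fun i j hij x hx hx' => hid i x (by
      by_contra hlt
      rw [not_le] at hlt
      have h5 : x ∈ ball (z i) (σ i) := by rwa [mem_ball, dist_eq_norm]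
      have h6 : x ∈ closure (ball (z j) (σ j)) := by
        rwa [closure_ball _ (W.pos j).ne']
      obtain ⟨y, hy⟩ := mem_closure_iff.1 h6 _ isOpen_ball h5
      exact disjoint_left.1 (W.disj i j hij) hy.1 hy.2))
  have hin : ∀ i, ball (z i) (σ i) ⊆ closedBall (z i) (σ i) := fun i => ball_subset_closedBall
  refine ⟨T, hid, h1, h3, fun y hy => ?_, fun i y hy => ⟨?_, ?_⟩⟩
  · have hy' : ∀ i, σ i ≤ ‖y - z i‖ := fun i => by
      have := hy i
      rwa [mem_ball, dist_eq_norm, not_lt] at this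
    by_cases hex : ∃ i, y ∈ closedBall (z i) (σ i)
    · obtain ⟨i, hi⟩ := hex
      exact ⟨by rw [h1 i y hi]; exact hid i y (hy' i), by rw [h3 i y hi]; exact hidi i y (hy' i)⟩
    · push Not at hex
      exact ⟨h2 y hex, h4 y hex⟩
  · rw [h1 i y (hin i hy), mem_ball, dist_eq_norm]
    rw [mem_ball, dist_eq_norm] at hy
    exact hmem i y hy
  · rw [h3 i y (hin i hy)]
    by_contra hn
    rw [mem_ball, dist_eq_norm, not_lt] at hn
    have h5 := hid i _ hn
    rw [(Ξ i).right_inv (mem_univ y)] at h5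
    rw [← h5] at hn
    rw [mem_ball, dist_eq_norm] at hy
    linarith

/-- local Lipschitz estimate at a point -/
def LocLip (f : V → V) (x : V) (L : ℝ) : Prop :=
  ∃ δ > 0, ∀ y ∈ ball x δ, ∀ y' ∈ ball x δ, ‖f y - f y'‖ ≤ L * ‖y - y'‖

theorem LocLip.mono {f : V → V} {x : V} {L L' : ℝ} (h : LocLip f x L) (hL : L ≤ L') :
    LocLip f x L' := by
  obtain ⟨δ, hδ, h⟩ := h
  exact ⟨δ, hδ, fun y hy y' hy' => (h y hy y' hy').trans (by gcongr)⟩

theorem LocLip.comp {f g : V → V} {x : V} {L L' : ℝ} (hf : LocLip f (g x) L) (hg : LocLip g x L')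
    (hL : 0 ≤ L) (hL' : 0 ≤ L') : LocLip (fun y => f (g y)) x (L * L') := by
  obtain ⟨δ, hδ, h⟩ := hf
  obtain ⟨δ', hδ', h'⟩ := hg
  refine ⟨min δ' (δ / (L' + 1)), by positivity, fun y hy y' hy' => ?_⟩
  have key : ∀ y ∈ ball x (min δ' (δ / (L' + 1))), g y ∈ ball (g x) δ := by
    intro y hy
    rw [mem_ball, dist_eq_norm]
    have h1 := h' y (ball_subset_ball (min_le_left _ _) hy) x (mem_ball_self hδ')
    have h2 : ‖y - x‖ < δ / (L' + 1) := by
      rw [← dist_eq_norm]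
      exact (mem_ball.1 hy).trans_le (min_le_right _ _)
    rw [lt_div_iff₀ (by positivity)] at h2
    nlinarith [norm_nonneg (y - x)]
  refine (h _ (key y hy) _ (key y' hy')).trans ?_
  rw [mul_assoc]
  exact mul_le_mul_of_nonneg_left (h' y (ball_subset_ball (min_le_left _ _) hy) y'
    (ball_subset_ball (min_le_left _ _) hy')) hL

namespace IsSt

variable {W : Cubes Λ z σ} {Ξ : ι → ConHomeo (univ : Set V) (univ : Set V)} {T : ConHomeo Λ Λ}

/-- the map moves points inside their cubes only -/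
theorem mapsTo_cube (H : IsSt W Ξ T) {i : ι} {y : V} (hy : y ∈ closedBall (z i) (σ i)) :
    T.toFun y ∈ closedBall (z i) (σ i) := by
  by_cases h : y ∈ ball (z i) (σ i)
  · exact ball_subset_closedBall (H.mem i y h).1
  · rw [H.eq i y hy]
    rw [mem_ball, dist_eq_norm, not_lt] at h
    rw [H.idX i y h]
    exact hy

/-- and so does the inverse -/
theorem mapsTo_cube_inv (H : IsSt W Ξ T) {i : ι} {y : V} (hy : y ∈ closedBall (z i) (σ i)) :
    T.invFun y ∈ closedBall (z i) (σ i) := by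
  by_cases h : y ∈ ball (z i) (σ i)
  · exact ball_subset_closedBall (H.mem i y h).2
  · have h1 : ∀ j, y ∉ ball (z j) (σ j) := by
      intro j hj
      rcases eq_or_ne i j with rfl | hij
      · exact h hj
      · have h6 : y ∈ closure (ball (z i) (σ i)) := by
          rwa [closure_ball _ (W.pos i).ne']
        obtain ⟨w, hw⟩ := mem_closure_iff.1 h6 _ isOpen_ball hj
        exact disjoint_left.1 (W.disj i j hij) hw.2 hw.1
    rw [(H.off y h1).2]
    exact hy

theorem mem_cube_of (H : IsSt W Ξ T) {i : ι} {y : V} (hy : y ∈ Λ)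
    (h : T.toFun y ∈ closedBall (z i) (σ i)) : y ∈ closedBall (z i) (σ i) := by
  have := H.mapsTo_cube_inv h
  rwa [T.left_inv hy] at this

/-- **Local Lipschitz estimate.** -/
theorem local_lip (H : IsSt W Ξ T) (hΛ : IsOpen Λ) {y : V} (hy : y ∈ Λ) {L : ℝ} (hL : 1 ≤ L)
    (hyL : ∀ i, y ∈ closedBall (z i) (σ i) → LocLip (Ξ i).toFun y L) : LocLip T.toFun y L := by
  obtain ⟨U, hU, hf⟩ := W.fin y hy
  have hev : ∀ᶠ δ in 𝓝[>] (0:ℝ), ball y δ ⊆ Λ ∧ ball y δ ⊆ U ∧
      ∀ i ∈ {i | (closedBall (z i) (σ i) ∩ U).Nonempty}, Disjoint (closedBall (z i) (σ i))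
        (ball y δ) ∨ ∀ x ∈ ball y δ, ∀ x' ∈ ball y δ,
          ‖(Ξ i).toFun x - (Ξ i).toFun x'‖ ≤ L * ‖x - x'‖ := by
    have hsmall : ∀ N ∈ 𝓝 y, ∀ᶠ δ in 𝓝[>] (0:ℝ), ball y δ ⊆ N := by
      intro N hN
      obtain ⟨δ, hδ, hb⟩ := Metric.mem_nhds_iff.1 hN
      filter_upwards [Ioc_mem_nhdsGT hδ] with δ' hδ' using (ball_subset_ball hδ'.2).trans hb
    refine Filter.Eventually.and (hsmall _ (hΛ.mem_nhds hy))
      (Filter.Eventually.and (hsmall _ hU) ?_)
    rw [eventually_all_finite hf]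
    intro i _
    by_cases hyi : y ∈ closedBall (z i) (σ i)
    · obtain ⟨δ, hδ, h⟩ := hyL i hyi
      filter_upwards [hsmall _ (ball_mem_nhds y hδ)] with δ' hδ'
      exact Or.inr fun x hx x' hx' => h x (hδ' hx) x' (hδ' hx')
    · filter_upwards [hsmall _ (isClosed_closedBall.isOpen_compl.mem_nhds hyi)] with δ' hδ'
      exact Or.inl (disjoint_left.2 fun x hx hx' => hδ' hx' hx)
  obtain ⟨δ, ⟨hbΛ, hbU, hball⟩, hδ⟩ := (hev.and self_mem_nhdsWithin).exists
  have hδ : 0 < δ := hδ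
  have hall : ∀ x ∈ ball y δ, ∀ i, x ∈ closedBall (z i) (σ i) → ∀ x ∈ ball y δ, ∀ x' ∈ ball y δ,
      ‖(Ξ i).toFun x - (Ξ i).toFun x'‖ ≤ L * ‖x - x'‖ := by
    intro x hx i hxi
    rcases hball i ⟨x, hxi, hbU hx⟩ with h | h
    · exact absurd hx (disjoint_left.1 h hxi)
    · exact h
  refine ⟨δ, hδ, fun y' hy' y'' hy'' => ?_⟩
  set d := y'' - y' with hd
  have hseg : ∀ t ∈ Icc (0:ℝ) 1, y' + t • d ∈ ball y δ := fun t ht =>
    (convex_ball y δ).add_smul_sub_mem hy' hy'' ht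
  have hcont : ContinuousOn (fun t : ℝ => T.toFun (y' + t • d)) (Icc 0 1) :=
    T.cont.comp (by fun_prop) fun t ht => hbΛ (hseg t ht)
  have key := norm_sub_le_of_right (L := L * ‖d‖) zero_le_one hcont ?_
  · simp only [zero_smul, add_zero, one_smul, sub_zero, mul_one] at key
    rw [hd, add_sub_cancel] at key
    rw [norm_sub_rev, norm_sub_rev y' y'']
    exact key
  intro t ht
  set q := y' + t • d with hq
  have hqb : q ∈ ball y δ := hseg t ⟨ht.1, ht.2.le⟩
  have hadd : ∀ s, y' + (t + s) • d = q + s • d := fun s => by rw [hq]; module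
  simp only [hadd]
  by_cases hex : ∃ i, ∃ δ' > 0, ∀ s ∈ Icc (0:ℝ) δ', q + s • d ∈ closedBall (z i) (σ i)
  · obtain ⟨i, δ', hδ', hin⟩ := hex
    refine ⟨δ', hδ', fun s hs hts => ?_⟩
    have hq2 : q + s • d ∈ ball y δ := by
      rw [← hadd]; exact hseg _ ⟨by linarith [ht.1, hs.1], hts⟩
    have h0 := hin 0 ⟨le_rfl, hδ'.le⟩
    rw [zero_smul, add_zero] at h0
    rw [H.eq i _ (hin s hs), H.eq i q h0]
    refine (hall q hqb i h0 _ hq2 _ hqb).trans (le_of_eq ?_)
    rw [add_sub_cancel_left, norm_smul, Real.norm_of_nonneg hs.1]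
    ring
  · push Not at hex
    have hall2 : ∀ i, ∃ δ' > 0, ∀ s ∈ Ioc (0:ℝ) δ', q + s • d ∉ closedBall (z i) (σ i) := by
      intro i
      rcases germ_dichotomy isClosed_closedBall (convex_closedBall (z i) (σ i)) q d with h | h
      · obtain ⟨δ', hδ', hh⟩ := h
        obtain ⟨s, hs, hn⟩ := hex i δ' hδ'
        exact absurd (hh s hs) hn
      · exact h
    have hq0 : ∀ i, q ∉ ball (z i) (σ i) := by
      intro i hi
      obtain ⟨δ', hδ', hh⟩ := hall2 i
      have h1 : Tendsto (fun s : ℝ => q + s • d) (𝓝[>] 0) (𝓝 (q + (0:ℝ) • d)) := by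
        refine Tendsto.mono_left ?_ nhdsWithin_le_nhds
        exact (continuous_const.add (continuous_id.smul continuous_const)).tendsto 0
      rw [zero_smul, add_zero] at h1
      obtain ⟨s, hs1, hs2⟩ := ((h1.eventually (isOpen_ball.mem_nhds hi)).and
        (Ioc_mem_nhdsGT hδ')).exists
      exact hh s hs2 (ball_subset_closedBall hs1)
    have hfin : ∀ᶠ s in 𝓝[>] (0:ℝ), ∀ i ∈ {i | (closedBall (z i) (σ i) ∩ U).Nonempty},
        q + s • d ∉ closedBall (z i) (σ i) := by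
      rw [eventually_all_finite hf]
      intro i _
      obtain ⟨δ', hδ', hh⟩ := hall2 i
      filter_upwards [Ioc_mem_nhdsGT hδ'] with s hs using hh s hs
    obtain ⟨δ', hδ', hh⟩ := (mem_nhdsGT_iff_exists_Ioc_subset).1 hfin
    refine ⟨δ', hδ', fun s hs hts => ?_⟩
    rcases hs.1.eq_or_lt with h0 | h0
    · rw [← h0, zero_smul, add_zero, sub_self, norm_zero, mul_zero]
    · have hq2 : q + s • d ∈ ball y δ := by
        rw [← hadd]; exact hseg _ ⟨by linarith [ht.1, hs.1], hts⟩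
      have hs3 : ∀ i, q + s • d ∉ ball (z i) (σ i) := by
        intro i hi
        exact hh ⟨h0, hs.2⟩ i ⟨_, ball_subset_closedBall hi, hbU hq2⟩
          (ball_subset_closedBall hi)
      rw [(H.off _ hs3).1, (H.off _ hq0).1, add_sub_cancel_left, norm_smul,
        Real.norm_of_nonneg hs.1]
      nlinarith [mul_nonneg hs.1 (norm_nonneg d)]

end IsSt

/-! ### Curves and segments -/

/-- Lipschitz estimate along a segment -/
theorem seg_lip_of_locLip {f : V → V} {y y' : V} {L : ℝ}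
    (h : ∀ x ∈ segment ℝ y y', LocLip f x L) : ‖f y - f y'‖ ≤ L * ‖y - y'‖ := by
  have hseg : ∀ t ∈ Icc (0:ℝ) 1, y + t • (y' - y) ∈ segment ℝ y y' := fun t ht => by
    rw [segment_eq_image']
    exact ⟨t, ht, rfl⟩
  have hcf : ∀ x ∈ segment ℝ y y', ContinuousAt f x := by
    intro x hx
    obtain ⟨δ, hδ, hL⟩ := h x hx
    rw [Metric.continuousAt_iff]
    intro ε hε
    refine ⟨min δ (ε / (|L| + 1)), by positivity, fun {w} hw => ?_⟩
    rw [dist_eq_norm] at hw ⊢
    have h1 := hL w (mem_ball.2 (by rw [dist_eq_norm]; exact hw.trans_le (min_le_left _ _))) x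
      (mem_ball_self hδ)
    have h2 := hw.trans_le (min_le_right _ _)
    rw [lt_div_iff₀ (by positivity)] at h2
    have h3 : L * ‖w - x‖ ≤ |L| * ‖w - x‖ := by gcongr; exact le_abs_self L
    nlinarith [norm_nonneg (w - x), abs_nonneg L]
  have hcont : ContinuousOn (fun t : ℝ => f (y + t • (y' - y))) (Icc 0 1) := by
    intro t ht
    have h1 : ContinuousAt (fun t : ℝ => y + t • (y' - y)) t := by fun_prop
    have h2 : ContinuousAt f ((fun t : ℝ => y + t • (y' - y)) t) := hcf _ (hseg t ht)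
    have h3 := ContinuousAt.comp (f := fun t : ℝ => y + t • (y' - y)) (g := f) (x := t) h2 h1
    exact h3.continuousWithinAt
  have key := norm_sub_le_of_right (L := L * ‖y' - y‖) zero_le_one hcont ?_
  · simp only [zero_smul, add_zero, one_smul, sub_zero, mul_one, add_sub_cancel] at key
    rw [norm_sub_rev, norm_sub_rev y y']
    exact key
  intro t ht
  have ht1 := hseg t ⟨ht.1, ht.2.le⟩
  obtain ⟨δ, hδ, hδL⟩ := h _ ht1
  refine ⟨δ / 2 / (‖y' - y‖ + 1), by positivity, fun s hs _ => ?_⟩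
  have h1 : y + (t + s) • (y' - y) - (y + t • (y' - y)) = s • (y' - y) := by module
  have h2 := hδL (y + (t + s) • (y' - y)) (by
    rw [mem_ball, dist_eq_norm, h1, norm_smul, Real.norm_of_nonneg hs.1]
    have h3 := hs.2
    rw [le_div_iff₀ (by positivity)] at h3
    nlinarith [norm_nonneg (y' - y), hs.1]) (y + t • (y' - y)) (mem_ball_self hδ)
  rw [h1, norm_smul, Real.norm_of_nonneg hs.1] at h2
  linarith

/-- edge lengths (sup norm) -/
theorem var_le_of_locLip {f : V → V} {γ : ℝ → V} {a b : ℝ} (hab : a ≤ b)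
    (hγ : ContinuousOn γ (Icc a b)) {L : ℝ} (hL : 0 ≤ L)
    (h : ∀ t ∈ Icc a b, LocLip f (γ t) L) :
    var (fun t => f (γ t)) (Icc a b) ≤ ENNReal.ofReal L * var γ (Icc a b) := by
  refine eVariationOn_le_of_local hab fun t ht => ?_
  obtain ⟨δ, hδ, hδL⟩ := h t ht
  obtain ⟨δ', hδ', hh⟩ := Metric.continuousWithinAt_iff.1 (hγ t ht) δ hδ
  refine ⟨δ', hδ', fun s hs s' hs' h1 h2 => ?_⟩
  rw [edist_dist, edist_dist, dist_eq_norm, dist_eq_norm, ← ENNReal.ofReal_mul hL]
  refine ENNReal.ofReal_le_ofReal (hδL _ ?_ _ ?_)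
  · exact mem_ball.2 (hh hs (by rwa [Real.dist_eq]))
  · exact mem_ball.2 (hh hs' (by rwa [Real.dist_eq]))

/-- edge lengths (Euclidean) -/
theorem len_le_of_locLip {f : V → V} {γ : ℝ → V} {a b : ℝ} (hab : a ≤ b)
    (hγ : ContinuousOn γ (Icc a b)) {L : ℝ} (hL : 0 ≤ L)
    (h : ∀ t ∈ Icc a b, LocLip f (γ t) L) :
    len (fun t => f (γ t)) (Icc a b) ≤ ENNReal.ofReal (2 * L) * len γ (Icc a b) := by
  refine (len_le_var _ _).trans ?_
  rw [ENNReal.ofReal_mul (by norm_num), mul_assoc, ENNReal.ofReal_ofNat]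
  gcongr
  refine (var_le_of_locLip hab hγ hL h).trans ?_
  gcongr
  exact var_le_len _ _

end Vale.Agent.P073.H851
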