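import Vale.Agent.P073.H851.Xi
import Vale.Agent.P073.H851.StageG
import Vale.Agent.P073.H726.AlignDefs
import Vale.Agent.P073.H911.Vol
import Vale.Agent.P073.Net.Spec2

/-!
# P073, [TTOT] (block (T4) + Γ): the total target homeomorphism

`g` is 726's aligned homeomorphism; in the cubes `i ∈ J` it is followed by the blow up map `Ξ i` of
[XI], which takes the image of the dyadic cube `C i` of the domain (inside a kept box `D k`, where
the map is affine) onto the middle cube `closedBall (z i) ((1 - k i) σ i)`, diagonally.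
-/

open Set Metric Topology Filter Matrix

namespace Vale.Agent.P073.H851

open _root_.P073 _root_.P073.Net
open Vale.Agent.P073.St (V)
open Vale.Agent.P073.H471 (Cubes)
open Vale.Agent.P073.H726 (AlignG)
open Vale.Agent.P073.H911 (idx hc hc_sub_dyc mem_hc_idx)

/-- the constants attached to an invertible matrix -/
structure LocData (M : M3) (e r0 L : ℝ) : Prop where
  sign : e = 1 ∨ e = -1
  pos : 0 < r0
  le : r0 ≤ 1
  bd : ∀ y : V, r0 * ‖M *ᵥ y‖ ≤ 1 / 4 * ‖y‖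
  ex : ∀ r, r0 / 2 ≤ r → r ≤ r0 → ∀ q : V, ‖q‖ ≤ 1 / 4 →
    ∃ δ : ConHomeo (univ : Set V) univ, LH L δ ∧
      ∀ y : V, ‖y‖ ≤ 7 / 8 → δ.toFun y = r • ((M * SS e) *ᵥ y) + q

theorem exists_locData (M : M3) (hM : M.det ≠ 0) : ∃ e r0 L : ℝ, LocData M e r0 L := by
  obtain ⟨e, he, r0, hr, hr1, hb, h⟩ := loclin M hM
  obtain ⟨L, hL⟩ := h (r0 / 2) (by positivity)
  exact ⟨e, r0, L, he, hr, hr1, hb, hL⟩

theorem LocData.one_le {M : M3} {e r0 L : ℝ} (h : LocData M e r0 L) : 1 ≤ L := by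
  obtain ⟨δ, hδ, -⟩ := h.ex r0 (by linarith [h.pos]) le_rfl 0 (by rw [norm_zero]; norm_num)
  exact hδ.one_le

theorem LocData.abs_sign {M : M3} {e r0 L : ℝ} (h : LocData M e r0 L) : |e| = 1 := by
  rcases h.sign with h | h <;> simp [h]

/-- the kept boxes: `Λ` minus `V₀` is covered by their images -/
structure Kept {K : Type*} (Λ V₀ : Set V) (A : K → M3) (b : K → V) (D : K → Set V) : Prop where
  cpt : ∀ k, IsCompact (D k)
  cover : ∀ y ∈ Λ, y ∉ V₀ → ∃ k, ∃ x ∈ D k, A k *ᵥ x + b k = y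
  disj : ∀ k k', k ≠ k' → ∀ x ∈ D k, ∀ x' ∈ D k', A k *ᵥ x + b k ≠ A k' *ᵥ x' + b k'
  lf : ∀ y ∈ Λ, ∃ U ∈ 𝓝 y, {k | ((fun x => A k *ᵥ x + b k) '' D k ∩ U).Nonempty}.Finite

/-- a connected subset of `Λ` which misses `V₀` is in the image of one kept box -/
theorem Kept.exists_box {K : Type*} {Λ V₀ : Set V} {A : K → M3} {b : K → V}
    {D : K → Set V} (H : Kept Λ V₀ A b D) (hΛ : IsOpen Λ) {S : Set V} (hS : IsPreconnected S)
    (hne : S.Nonempty) (hSΛ : S ⊆ Λ) (hS0 : ∀ y ∈ S, y ∉ V₀) :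
    ∃ k, S ⊆ (fun x => A k *ᵥ x + b k) '' D k := by
  obtain ⟨p, hp⟩ := hne
  obtain ⟨k, x, hx, hxp⟩ := H.cover p (hSΛ hp) (hS0 p hp)
  have hcl : ∀ k, IsClosed ((fun x => A k *ᵥ x + b k) '' D k) := fun k => by
    refine ((H.cpt k).image ?_).isClosed
    have : Continuous fun x : V => A k *ᵥ x :=
      (Matrix.mulVecLin (A k)).continuous_of_finiteDimensional
    exact this.add continuous_const
  refine ⟨k, fun y hy => ?_⟩
  by_contra hn
  have hF : IsClosed ((⋃ k' : {k' // k' ≠ k}, (fun x => A k'.1 *ᵥ x + b k'.1) '' D k'.1) ∪ Λᶜ) := by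
    rw [← isOpen_compl_iff, isOpen_iff_mem_nhds]
    intro y hy
    rw [mem_compl_iff, mem_union, not_or, mem_compl_iff, not_not] at hy
    obtain ⟨U, hU, hf⟩ := H.lf y hy.2
    have h1 : ⋂ k' ∈ {k' | ((fun x => A k' *ᵥ x + b k') '' D k' ∩ U).Nonempty} \ {k},
        ((fun x => A k' *ᵥ x + b k') '' D k')ᶜ ∈ 𝓝 y := by
      refine (Filter.biInter_mem (hf.subset sdiff_subset)).2 fun k' hk' => ?_
      refine (hcl k').isOpen_compl.mem_nhds fun h => hy.1 ?_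
      exact mem_iUnion.2 ⟨⟨k', hk'.2⟩, h⟩
    filter_upwards [h1, hU, hΛ.mem_nhds hy.2] with u hu1 hu2 hu3 hn
    rcases hn with h | h
    · obtain ⟨⟨k', hk'⟩, h2⟩ := mem_iUnion.1 h
      exact (mem_iInter₂.1 hu1) k' ⟨⟨u, h2, hu2⟩, hk'⟩ h2
    · exact h hu3
  have hsub : S ⊆ (fun x => A k *ᵥ x + b k) '' D k ∪
      ((⋃ k' : {k' // k' ≠ k}, (fun x => A k'.1 *ᵥ x + b k'.1) '' D k'.1) ∪ Λᶜ) := by
    intro y hy
    obtain ⟨k', x', hx', hxy⟩ := H.cover y (hSΛ hy) (hS0 y hy)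
    rcases eq_or_ne k' k with h | h
    · subst h; exact Or.inl ⟨x', hx', hxy⟩
    · exact Or.inr (Or.inl (mem_iUnion.2 ⟨⟨k', h⟩, x', hx', hxy⟩))
  have h1 := isPreconnected_closed_iff.1 hS _ _ (hcl k) hF hsub ⟨p, hp, x, hx, hxp⟩
    ⟨y, hy, (hsub hy).resolve_left hn⟩
  obtain ⟨u, huS, ⟨x1, hx1, rfl⟩, hu2⟩ := h1
  rcases hu2 with hu2 | hu2
  · obtain ⟨⟨k', hk'⟩, x2, hx2, h2⟩ := mem_iUnion.1 hu2
    exact H.disj k' k hk' x2 hx2 x1 hx1 h2
  · exact hu2 (hSΛ huS)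

theorem dyc_ball (v : V) (n : ℕ) (w : Fin 3 → ℤ) : dyc v n w = closedBall (ctr v n w) (hs n) := by
  have h1 : hs n = H911.hs n := by
    unfold hs H911.hs
    ring
  rw [H911.dyc_eq, h1]
  rfl

theorem hs_pos' (n : ℕ) : 0 < hs n := by unfold hs; positivity

theorem exists_hs {u : ℝ} (h0 : 0 < u) (h1 : u ≤ 1 / 2) : ∃ n : ℕ, hs n ≤ u ∧ u ≤ 2 * hs n := by
  obtain ⟨n, h2, h3⟩ := exists_nat_pow_near_of_lt_one (x := 2 * u) (y := 1 / 2) (by positivity)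
    (by linarith) (by norm_num) (by norm_num)
  rw [div_pow, one_pow, pow_succ] at h2
  rw [div_pow, one_pow] at h3
  refine ⟨n + 1, ?_, ?_⟩
  · unfold hs
    rw [pow_succ]
    have : (1:ℝ) / 2 / (2 ^ n * 2) = 1 / (2 ^ n * 2) / 2 := by ring
    rw [this]
    linarith
  · unfold hs
    rw [pow_succ]
    have : (1:ℝ) / 2 / (2 ^ n * 2) = 1 / 2 ^ n / 4 := by ring
    rw [this]
    linarith

theorem norm_ctr_sub (v : V) (n : ℕ) (x : V) : ‖x - ctr v n (idx v n x)‖ ≤ hs n := by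
  have h1 := hc_sub_dyc v n _ (mem_hc_idx v n x)
  rwa [dyc_ball, mem_closedBall, dist_eq_norm] at h1

theorem mulVec_inj {M : M3} (hM : M.det ≠ 0) {x y : V} (h : M *ᵥ x = M *ᵥ y) : x = y := by
  have hu : IsUnit M := (Matrix.isUnit_iff_isUnit_det M).2 (isUnit_iff_ne_zero.2 hM)
  exact Matrix.mulVec_injective_of_isUnit hu h

/-- A homeomorphism `g` aligned with a family of cubes: the cores `closedBall (c i) (κ₀ σ i)` are
not met by `g V₀`, and `g` is affine near their preimages, with linear parts `M i`. -/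
structure AlignM {ι : Type*} (Λ V₀ X : Set V) (κ₀ : ℝ) (z : ι → V) (σ k : ι → ℝ) (c : ι → V)
    (M : ι → M3) (b : ι → V) (g : V → V) : Prop where
  cz : ∀ i, ‖c i - z i‖ ≤ σ i / 2
  hole : ∀ i, ∀ x ∈ X, 2 * κ₀ * σ i < ‖x - c i‖
  core : ∀ y ∈ Λ, y ∈ V₀ → ∀ i, κ₀ * σ i < ‖g y - c i‖
  mid : ∀ y ∈ Λ, y ∈ V₀ → ∀ i, Disjoint (closedBall (z i) (σ i)) X →
    (1 - k i) * σ i < ‖g y - z i‖
  affcore : ∀ i, ∀ y, g y ∈ closedBall (c i) (κ₀ * σ i) → ∀ᶠ y' in 𝓝 y, g y' = M i *ᵥ y' - b i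
  affmid : ∀ i, Disjoint (closedBall (z i) (σ i)) X → ∃ (M' : M3) (b' : V), ∀ y,
    g y ∈ closedBall (z i) ((1 - k i) * σ i) → ∀ᶠ y' in 𝓝 y, g y' = M' *ᵥ y' - b'
  bd : ∀ i y, ‖M i *ᵥ y‖ ≤ 2 * ‖y‖ ∧ ‖y‖ ≤ 2 * ‖M i *ᵥ y‖

theorem AlignM.mono {ι : Type*} {Λ V₀ X : Set V} {κ₀ κ₁ : ℝ} {z : ι → V} {σ k : ι → ℝ}
    {c : ι → V} {M : ι → M3} {b : ι → V} {g : V → V} (G : AlignM Λ V₀ X κ₀ z σ k c M b g)
    (hσ : ∀ i, 0 < σ i) (hκ : κ₁ ≤ κ₀) : AlignM Λ V₀ X κ₁ z σ k c M b g where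
  cz := G.cz
  hole i x hx := by
    have h1 : κ₁ * σ i ≤ κ₀ * σ i := mul_le_mul_of_nonneg_right hκ (hσ i).le
    linarith [G.hole i x hx]
  core y hy h0 i := (mul_le_mul_of_nonneg_right hκ (hσ i).le).trans_lt (G.core y hy h0 i)
  mid := G.mid
  affcore i y hy := G.affcore i y
    (closedBall_subset_closedBall (mul_le_mul_of_nonneg_right hκ (hσ i).le) hy)
  affmid := G.affmid
  bd := G.bd

/-- 726's alignment -/
theorem exists_alignM {ι : Type*} {Λ V₀ X : Set V} {h : ℝ} {T : V → V} {s : V → ℝ} {z : ι → V}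
    {σ k : ι → ℝ} {ε : ℝ} {c : ι → V} {g : V → V} (G : AlignG Λ V₀ X h T s z σ k ε c g)
    (h0 : 0 ≤ h) (h1 : h ≤ 1) :
    ∃ b : ι → V, AlignM Λ V₀ X (kp 8) z σ k c (fun _ => (1 + h) • (1 : M3)) b g := by
  have hM : ∀ y : V, ((1 + h) • (1 : M3)) *ᵥ y = (1 + h) • y := fun y => by
    rw [Matrix.smul_mulVec, Matrix.one_mulVec]
  have hk : ∀ t : ℝ, kp 8 * t = t / 224 := fun t => by rw [kp_eight]; ring
  choose b hb using G.affcore
  refine ⟨b, G.cz, fun i x hx => ?_, fun y hy h0 i => ?_, G.mid, fun i y hy => ?_,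
    fun i hi => ?_, fun i y => ?_⟩
  · have e : 2 * kp 8 * σ i = σ i / 112 := by rw [kp_eight]; ring
    rw [e]; exact G.hole i x hx
  · rw [hk]; exact G.core y hy h0 i
  · rw [hk] at hy
    simp only [hM]
    exact hb i y hy
  · obtain ⟨w, hw⟩ := G.affmid i hi
    refine ⟨(1 + h) • (1 : M3), w, fun y hy => ?_⟩
    simp only [hM]
    exact hw y hy
  · rw [hM, norm_smul, Real.norm_of_nonneg (by linarith)]
    constructor <;> nlinarith [norm_nonneg y]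

/-- the dyadic cube of the domain attached to a target cube -/
structure CellOf (N : ℕ) (Λ : Set V) (g : V → V) (c : V) (σ : ℝ) (M A : M3) (w' b : V)
    (D : Set V) (r0 : ℝ) (v : V) (n : ℕ) (w : Fin 3 → ℤ) : Prop where
  sub : dyc v n w ⊆ D
  mem : ∀ x ∈ dyc v n w, A *ᵥ x + b ∈ Λ
  le : 2 ^ N * hs n ≤ r0 * σ
  ge : r0 * σ ≤ 2 * (2 ^ N * hs n)
  aff : ∀ x ∈ dyc v n w, ∀ᶠ y in 𝓝 (A *ᵥ x + b), g y = M *ᵥ y - w'
  core : ∀ x ∈ dyc v n w, ‖g (A *ᵥ x + b) - c‖ ≤ 1 / 2 * (kp N * σ)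
  ctrc : ‖g (A *ᵥ ctr v n w + b) - c‖ ≤ 1 / 4 * (kp N * σ)

section cell

variable {ι K : Type*} {Λ V₀ X : Set V} {N : ℕ} {z : ι → V} {σ k : ι → ℝ}
  {c : ι → V} {g : ConHomeo Λ Λ} {M : ι → M3} {b' : ι → V} {A : K → M3} {b : K → V}
  {D : K → Set V} {r0 L : K → ℝ}

/-- **[CI]** -/
theorem exists_cell (hN : 8 ≤ N) (hΛ : IsOpen Λ) (G : AlignM Λ V₀ X (kp N) z σ k c M b' g.toFun)
    (W : Cubes Λ z σ) (hσ1 : ∀ i, σ i ≤ 1) (Kp : Kept Λ V₀ A b D) (hA : ∀ k, (A k).det ≠ 0)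
    (hL : ∀ i k, ∃ e, LocData (M i * A k) e (r0 k) (L k)) (v : V) (i : ι) :
    ∃ (κ : K) (n : ℕ) (w : Fin 3 → ℤ),
      CellOf N Λ g.toFun (c i) (σ i) (M i) (A κ) (b' i) (b κ) (D κ) (r0 κ) v n w := by
  have hσ := W.pos i
  have hp := kp_pos N
  have hp1 := kp_le hN
  have hpN := kp_pow N
  have h2N : (0:ℝ) < 2 ^ N := by positivity
  have hpσ : kp N * σ i ≤ σ i / 224 := by
    calc kp N * σ i ≤ 1 / 224 * σ i := by gcongr
      _ = σ i / 224 := by ring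
  have hp0 : 0 < kp N * σ i := by positivity
  have hBΛ : closedBall (c i) (kp N * σ i) ⊆ Λ := by
    refine Subset.trans (fun y hy => ?_) (W.sub i)
    rw [mem_closedBall, dist_eq_norm] at hy ⊢
    have e1 : y - z i = (y - c i) + (c i - z i) := by abel
    rw [e1]
    exact (norm_add_le _ _).trans (by linarith [G.cz i])
  have hci : c i ∈ closedBall (c i) (kp N * σ i) := mem_closedBall_self hp0.le
  obtain ⟨κ, hκ⟩ := Kp.exists_box hΛ (S := g.invFun '' closedBall (c i) (kp N * σ i))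
    (((convex_closedBall _ _).isPreconnected).image _ (g.cont_inv.mono hBΛ))
    ⟨_, c i, hci, rfl⟩
    (by rintro _ ⟨u, hu, rfl⟩; exact g.mapsTo_inv (hBΛ hu))
    (by
      rintro _ ⟨u, hu, rfl⟩ h0
      have h1 := G.core _ (g.mapsTo_inv (hBΛ hu)) h0 i
      rw [g.right_inv (hBΛ hu)] at h1
      rw [mem_closedBall, dist_eq_norm] at hu
      linarith)
  -- the inverse is affine on the core
  have hMinj : ∀ y y' : V, M i *ᵥ y = M i *ᵥ y' → y = y' := by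
    intro y y' hy
    have h1 := (G.bd i (y - y')).2
    rw [Matrix.mulVec_sub, hy, sub_self, norm_zero, mul_zero] at h1
    exact sub_eq_zero.1 (norm_le_zero_iff.1 h1)
  have hinv : ∀ y : V, M i *ᵥ y - b' i ∈ closedBall (c i) (kp N * σ i) →
      g.invFun (M i *ᵥ y - b' i) = y := by
    intro y hy
    have h1 : g.toFun (g.invFun (M i *ᵥ y - b' i)) = M i *ᵥ y - b' i := g.right_inv (hBΛ hy)
    have h2 := (G.affcore i (g.invFun (M i *ᵥ y - b' i)) (by rw [h1]; exact hy)).self_of_nhds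
    rw [h1] at h2
    have h3 : M i *ᵥ y = M i *ᵥ g.invFun (M i *ᵥ y - b' i) := by
      have := congrArg (fun u => u + b' i) h2
      simpa using this
    exact (hMinj _ _ h3).symm
  have hgp : g.toFun (g.invFun (c i)) = c i := g.right_inv (hBΛ hci)
  have hcp : c i = M i *ᵥ g.invFun (c i) - b' i := by
    have := (G.affcore i (g.invFun (c i)) (by rw [hgp]; exact hci)).self_of_nhds
    rwa [hgp] at this
  obtain ⟨x₀, hx₀, hx₀p⟩ := hκ ⟨c i, hci, rfl⟩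
  have hx₀p : A κ *ᵥ x₀ + b κ = g.invFun (c i) := hx₀p
  obtain ⟨e, LD⟩ := hL i κ
  have hr0 := LD.pos
  obtain ⟨n, hn1, hn2⟩ := exists_hs (u := r0 κ * σ i / 2 ^ N) (by positivity) (by
    rw [div_le_iff₀ h2N]
    have h1 : r0 κ * σ i ≤ 1 * 1 := mul_le_mul LD.le (hσ1 i) hσ.le zero_le_one
    have h2 : (2:ℝ) ≤ 2 ^ N := by
      calc (2:ℝ) = 2 ^ 1 := by norm_num
        _ ≤ 2 ^ N := pow_le_pow_right₀ (by norm_num) (by omega)
    linarith)
  rw [le_div_iff₀ h2N] at hn1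
  rw [div_le_iff₀ h2N] at hn2
  have hs0 := hs_pos' n
  have key : ∀ x : V, M i *ᵥ (A κ *ᵥ x + b κ) - b' i - c i = (M i * A κ) *ᵥ (x - x₀) := by
    intro x
    rw [hcp, ← hx₀p, ← Matrix.mulVec_mulVec, Matrix.mulVec_sub, Matrix.mulVec_sub,
      Matrix.mulVec_add, Matrix.mulVec_add]
    abel
  have key2 : ∀ (x : V) (m : ℝ), 0 ≤ m → ‖x - x₀‖ ≤ m * hs n →
      ‖M i *ᵥ (A κ *ᵥ x + b κ) - b' i - c i‖ ≤ m * (7 / 32) * (kp N * σ i) := by
    intro x m hm hx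
    rw [key]
    have h1 := LD.bd (x - x₀)
    have h2 : r0 κ * ‖(M i * A κ) *ᵥ (x - x₀)‖ ≤ r0 κ * (m * (7 / 32) * (kp N * σ i)) := by
      have h3 : 2 ^ N * (r0 κ * ‖(M i * A κ) *ᵥ (x - x₀)‖) ≤
          2 ^ N * (r0 κ * (m * (7 / 32) * (kp N * σ i))) := by
        calc 2 ^ N * (r0 κ * ‖(M i * A κ) *ᵥ (x - x₀)‖) ≤ 2 ^ N * (1 / 4 * (m * hs n)) := by
              refine mul_le_mul_of_nonneg_left (h1.trans ?_) h2N.le
              gcongr
          _ = m / 4 * (hs n * 2 ^ N) := by ring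
          _ ≤ m / 4 * (r0 κ * σ i) := by gcongr
          _ = (2 ^ N * kp N) * (r0 κ * (m * (7 / 32) * σ i)) := by rw [hpN]; ring
          _ = 2 ^ N * (r0 κ * (m * (7 / 32) * (kp N * σ i))) := by ring
      exact le_of_mul_le_mul_left h3 h2N
    exact le_of_mul_le_mul_left h2 hr0
  have hctr := norm_ctr_sub v n x₀
  have hdyc : ∀ x ∈ dyc v n (idx v n x₀), ‖x - x₀‖ ≤ 2 * hs n := by
    intro x hx
    rw [dyc_ball, mem_closedBall, dist_eq_norm] at hx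
    have e1 : x - x₀ = (x - ctr v n (idx v n x₀)) - (x₀ - ctr v n (idx v n x₀)) := by abel
    rw [e1]
    exact (norm_sub_le _ _).trans (by linarith)
  have hcore : ∀ x ∈ dyc v n (idx v n x₀),
      M i *ᵥ (A κ *ᵥ x + b κ) - b' i ∈ closedBall (c i) (kp N * σ i) ∧
      g.invFun (M i *ᵥ (A κ *ᵥ x + b κ) - b' i) = A κ *ᵥ x + b κ ∧
      g.toFun (A κ *ᵥ x + b κ) = M i *ᵥ (A κ *ᵥ x + b κ) - b' i := by
    intro x hx
    have h1 := key2 x 2 (by norm_num) (hdyc x hx)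
    have h2 : M i *ᵥ (A κ *ᵥ x + b κ) - b' i ∈ closedBall (c i) (kp N * σ i) := by
      rw [mem_closedBall, dist_eq_norm]; linarith
    have h3 := hinv _ h2
    refine ⟨h2, h3, ?_⟩
    have h4 := g.right_inv (hBΛ h2)
    rwa [h3] at h4
  refine ⟨κ, n, idx v n x₀, ⟨fun x hx => ?_, fun x hx => ?_, by linarith, by linarith,
    fun x hx => ?_, fun x hx => ?_, ?_⟩⟩
  · obtain ⟨h2, h3, -⟩ := hcore x hx
    obtain ⟨x', hx', hx2⟩ := hκ ⟨_, h2, h3⟩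
    have hx2 : A κ *ᵥ x' + b κ = A κ *ᵥ x + b κ := hx2
    rwa [← mulVec_inj (hA κ) (add_right_cancel hx2)]
  · obtain ⟨h2, h3, -⟩ := hcore x hx
    rw [← h3]
    exact g.mapsTo_inv (hBΛ h2)
  · obtain ⟨h2, -, h4⟩ := hcore x hx
    exact G.affcore i _ (by rw [h4]; exact h2)
  · obtain ⟨-, -, h4⟩ := hcore x hx
    rw [h4]
    have := key2 x 2 (by norm_num) (hdyc x hx)
    linarith
  · have hmem : ctr v n (idx v n x₀) ∈ dyc v n (idx v n x₀) := by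
      rw [dyc_ball]; exact mem_closedBall_self hs0.le
    obtain ⟨-, -, h4⟩ := hcore _ hmem
    rw [h4]
    have h5 : ‖ctr v n (idx v n x₀) - x₀‖ ≤ 1 * hs n := by
      rw [norm_sub_rev, one_mul]; exact hctr
    have := key2 _ 1 (by norm_num) h5
    linarith

end cell

/-- the blow up map of a target cube with its dyadic cube -/
structure XiOf (N : ℕ) (g : V → V) (z c : V) (σ k : ℝ) (A : M3) (b : V) (e L : ℝ) (v : V)
    (n : ℕ) (w : Fin 3 → ℤ) (Ξ : V → V) : Prop where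
  off : ∀ y, σ ≤ ‖y - z‖ → Ξ y = y
  shell : ∀ y, kp N * σ < ‖y - c‖ → (1 - k) * σ < ‖Ξ y - z‖
  diag : ∀ x ∈ dyc v n w, Ξ (g (A *ᵥ x + b)) =
    z + ((1 - k) * σ / hs n) • (SS e *ᵥ (x - ctr v n w))
  /-- near the boundary of the cube the tangential coordinates do not move -/
  tang : ∀ y j, 15 / 16 * σ ≤ ‖y - z‖ → |y j - z j| ≤ 2 * ‖y - z‖ - σ → Ξ y j = y j
  /-- and all coordinates move away from the centre -/
  grow : ∀ y j, 15 / 16 * σ ≤ ‖y - z‖ → (z j ≤ y j → y j ≤ Ξ y j) ∧ (y j ≤ z j → Ξ y j ≤ y j)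
  lip0 : ∀ y y', kp N * σ ≤ ‖y - c‖ → kp N * σ ≤ ‖y' - c‖ →
    ‖Ξ y - Ξ y'‖ ≤ 28 * 2 ^ N * ‖y - y'‖
  lip : ∀ y y', ‖Ξ y - Ξ y'‖ ≤ 8 * 4 ^ N * L * ‖y - y'‖

theorem CellOf.exists_xi {N : ℕ} (hN : 8 ≤ N) {Λ D : Set V} {σ r0 e L k : ℝ} {g : V → V}
    {c z w' b v : V} {M A : M3} {n : ℕ} {w : Fin 3 → ℤ}
    (H : CellOf N Λ g c σ M A w' b D r0 v n w) (LD : LocData (M * A) e r0 L) (hσ : 0 < σ)
    (hk : 0 < k) (hk1 : k < 1 / 2) (hc : ‖c - z‖ ≤ σ / 2) :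
    ∃ Ξ : ConHomeo (univ : Set V) (univ : Set V), XiOf N g z c σ k A b e L v n w Ξ.toFun := by
  have hs0 := hs_pos' n
  have he := LD.abs_sign
  have hp := kp_pos N
  have hpN := kp_pow N
  have h2N : (0:ℝ) < 2 ^ N := by positivity
  obtain ⟨q, hq⟩ : ∃ q, q = (kp N * σ)⁻¹ • (g (A *ᵥ ctr v n w + b) - c) := ⟨_, rfl⟩
  have hp0 : 0 < kp N * σ := by positivity
  have hq1 : ‖q‖ ≤ 1 / 4 := by
    rw [hq, norm_smul, norm_inv, Real.norm_of_nonneg hp0.le, inv_mul_eq_div,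
      div_le_iff₀ hp0]
    exact H.ctrc
  obtain ⟨δ, hδ, hδ1⟩ := LD.ex (2 ^ N * hs n / σ)
    (by rw [le_div_iff₀ hσ]; linarith [H.ge]) (by rw [div_le_iff₀ hσ]; exact H.le) q hq1
  obtain ⟨Ξ, hΞ⟩ := H851.exists_xi hN hδ hδ1 hσ hk hk1 hc
  refine ⟨Ξ, ⟨hΞ.off, hΞ.shell, fun x hx => ?_, hΞ.tang, hΞ.grow, hΞ.lip0, hΞ.lip⟩⟩
  have hmem : ctr v n w ∈ dyc v n w := by
    rw [dyc_ball]; exact mem_closedBall_self hs0.le
  have e1 := (H.aff x hx).self_of_nhds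
  have e2 := (H.aff _ hmem).self_of_nhds
  have hx' : ‖x - ctr v n w‖ ≤ hs n := by
    rwa [dyc_ball, mem_closedBall, dist_eq_norm] at hx
  have hy : ‖(7 / (8 * hs n)) • (SS e *ᵥ (x - ctr v n w))‖ ≤ 7 / 8 := by
    rw [norm_smul, Real.norm_of_nonneg (by positivity), SS_mulVec_norm he]
    calc 7 / (8 * hs n) * ‖x - ctr v n w‖ ≤ 7 / (8 * hs n) * hs n := by gcongr
      _ = 7 / 8 := by field_simp
  have h2 := hΞ.diag _ hy
  have hone : kp N * σ * (2 ^ N * hs n / σ) * (7 / (8 * hs n)) = 1 := by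
    calc kp N * σ * (2 ^ N * hs n / σ) * (7 / (8 * hs n)) = (2 ^ N * kp N) * (7 / 8) := by
          field_simp
      _ = 1 := by rw [hpN]; norm_num
  have e3 : c + (kp N * σ) • ((2 ^ N * hs n / σ) • ((M * A * SS e) *ᵥ
      ((7 / (8 * hs n)) • (SS e *ᵥ (x - ctr v n w)))) + q) = g (A *ᵥ x + b) := by
    rw [Matrix.mulVec_smul, Matrix.mulVec_mulVec, Matrix.mul_assoc (M * A), SS_mul_self he,
      Matrix.mul_one, hq, smul_add, smul_smul, smul_smul, smul_smul,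
      mul_inv_cancel₀ hp0.ne', one_smul, hone, one_smul, e1, e2, ← Matrix.mulVec_mulVec,
      Matrix.mulVec_sub, Matrix.mulVec_sub, Matrix.mulVec_add, Matrix.mulVec_add]
    abel
  rw [e3] at h2
  rw [h2, smul_smul]
  congr 2
  field_simp

/-! ### The total homeomorphism -/

/-- **[TTOT]** what is known about `Tt = (product of the blow up maps of the cubes in J) ∘ g` -/
structure IsTTot {ι K : Type*} (N : ℕ) (Λ V₀ X : Set V) (z : ι → V) (σ k : ι → ℝ) (c : ι → V)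
    (M : ι → M3) (b' : ι → V) (g : V → V) (J : Set ι) (A : K → M3) (b : K → V) (D : K → Set V)
    (r0 L : K → ℝ) (v : V) (Cg : ℝ) (κ : ι → K) (e : ι → ℝ) (n : ι → ℕ) (w : ι → Fin 3 → ℤ)
    (Ξ : ι → V → V) (Tt : V → V) : Prop where
  /-- the dyadic cube `dyc v (n i) (w i)` is in the kept box `D (κ i)`; its size -/
  cell : ∀ i, CellOf N Λ g (c i) (σ i) (M i) (A (κ i)) (b' i) (b (κ i)) (D (κ i)) (r0 (κ i)) v
    (n i) (w i)
  sign : ∀ i, e i = 1 ∨ e i = -1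
  xi : ∀ i ∈ J, XiOf N g (z i) (c i) (σ i) (k i) (A (κ i)) (b (κ i)) (e i) (L (κ i)) v (n i)
    (w i) (Ξ i)
  eq : ∀ i ∈ J, ∀ y ∈ Λ, g y ∈ closedBall (z i) (σ i) → Tt y = Ξ i (g y)
  /-- `Tt` moves the points `g y` inside their cubes only -/
  cube : ∀ y ∈ Λ, ∀ i, Tt y ∈ closedBall (z i) (σ i) ↔ g y ∈ closedBall (z i) (σ i)
  ball : ∀ y ∈ Λ, ∀ i, Tt y ∈ ball (z i) (σ i) ↔ g y ∈ ball (z i) (σ i)
  off : ∀ y ∈ Λ, (∀ i ∈ J, g y ∉ Metric.ball (z i) (σ i)) → Tt y = g y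
  /-- everything outside the core of a cube of `J` is taken out of the middle cube -/
  shell : ∀ i ∈ J, ∀ y ∈ Λ, kp N * σ i < ‖g y - c i‖ → (1 - k i) * σ i < ‖Tt y - z i‖
  /-- `V₀` misses all middle cubes -/
  V0 : ∀ y ∈ Λ, y ∈ V₀ → ∀ i, (i ∈ J ∨ Disjoint (closedBall (z i) (σ i)) X) →
    (1 - k i) * σ i < ‖Tt y - z i‖
  /-- the dyadic cube is mapped diagonally onto the middle cube -/
  diag : ∀ i ∈ J, ∀ x ∈ dyc v (n i) (w i), Tt (A (κ i) *ᵥ x + b (κ i)) =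
    z i + ((1 - k i) * σ i / hs (n i)) • (SS (e i) *ᵥ (x - ctr v (n i) (w i)))
  /-- and nothing else is mapped to the middle cube -/
  mid : ∀ i ∈ J, ∀ y ∈ Λ, ‖Tt y - z i‖ ≤ (1 - k i) * σ i →
    ∃ x ∈ dyc v (n i) (w i), y = A (κ i) *ᵥ x + b (κ i)
  /-- near the boundary of the cubes the tangential coordinates do not move -/
  tang : ∀ i, ∀ y ∈ Λ, ∀ j, 15 / 16 * σ i ≤ ‖g y - z i‖ → g y ∈ closedBall (z i) (σ i) →
    |g y j - z i j| ≤ 2 * ‖g y - z i‖ - σ i → Tt y j = g y j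
  grow : ∀ i, ∀ y ∈ Λ, ∀ j, 15 / 16 * σ i ≤ ‖g y - z i‖ → g y ∈ closedBall (z i) (σ i) →
    (z i j ≤ g y j → g y j ≤ Tt y j) ∧ (g y j ≤ z i j → Tt y j ≤ g y j)
  /-- local Lipschitz constant off the cores -/
  lip0 : ∀ y ∈ Λ, (∀ i ∈ J, kp N * σ i < ‖g y - c i‖) → LocLip Tt y (28 * 2 ^ N * Cg)
  /-- local Lipschitz constant at the cores -/
  lip : ∀ i ∈ J, ∀ y ∈ Λ, ‖g y - c i‖ ≤ kp N * σ i → LocLip Tt y (8 * 4 ^ N * L (κ i) * Cg)

section ttot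

variable {ι K : Type*} {Λ V₀ X : Set V} {N : ℕ} {z : ι → V} {σ k : ι → ℝ}
  {c : ι → V} {g : ConHomeo Λ Λ} {M : ι → M3} {b' : ι → V} {A : K → M3} {b : K → V}
  {D : K → Set V} {r0 L : K → ℝ}

theorem locLip_of_lip {f : V → V} {C : ℝ} (h : ∀ y y', ‖f y - f y'‖ ≤ C * ‖y - y'‖) (x : V) :
    LocLip f x C := ⟨1, one_pos, fun y _ y' _ => h y y'⟩

/-- **[TTOT]** -/
theorem exists_ttot (hN : 8 ≤ N) (hΛ : IsOpen Λ)
    (G : AlignM Λ V₀ X (kp N) z σ k c M b' g.toFun)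
    (W : Cubes Λ z σ) (hσ1 : ∀ i, σ i ≤ 1) (hk : ∀ i, 0 < k i)
    (hk1 : ∀ i, k i < 1 / 2) (Kp : Kept Λ V₀ A b D) (hA : ∀ k, (A k).det ≠ 0)
    (hL : ∀ i k, ∃ e, LocData (M i * A k) e (r0 k) (L k)) {Cg : ℝ} (hCg : 1 ≤ Cg)
    (hg : ∀ y y', ‖g.toFun y - g.toFun y'‖ ≤ Cg * ‖y - y'‖) (v : V) (J : Set ι) :
    ∃ (κ : ι → K) (e : ι → ℝ) (n : ι → ℕ) (w : ι → Fin 3 → ℤ) (Ξ : ι → V → V)
      (Tt : ConHomeo Λ Λ),
      IsTTot N Λ V₀ X z σ k c M b' g.toFun J A b D r0 L v Cg κ e n w Ξ Tt.toFun := by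
  classical
  choose κ n w hcell using fun i => exists_cell hN hΛ G W hσ1 Kp hA hL v i
  choose e LD using fun i => hL i (κ i)
  choose Ξ₀ hΞ₀ using fun i => (hcell i).exists_xi hN (LD i) (W.pos i) (hk i) (hk1 i) (G.cz i)
  obtain ⟨Ξ, hΞ⟩ : ∃ Ξ : ι → ConHomeo (univ : Set V) (univ : Set V), ∀ i, (i ∈ J → Ξ i = Ξ₀ i) ∧
      (i ∉ J → Ξ i = ConHomeo.refl (IsOpen.conicalSet isOpen_univ)) := by
    refine ⟨fun i => if i ∈ J then Ξ₀ i else ConHomeo.refl (IsOpen.conicalSet isOpen_univ),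
      fun i => ⟨fun hi => if_pos hi, fun hi => if_neg hi⟩⟩
  have hΞ1 : ∀ i ∈ J, XiOf N g.toFun (z i) (c i) (σ i) (k i) (A (κ i)) (b (κ i)) (e i)
      (L (κ i)) v (n i) (w i) (Ξ i).toFun := fun i hi => by rw [(hΞ i).1 hi]; exact hΞ₀ i
  have hΞ2 : ∀ i ∉ J, ∀ y, (Ξ i).toFun y = y := fun i hi y => by rw [(hΞ i).2 hi]; rfl
  obtain ⟨S, hS⟩ := exists_isSt hΛ W Ξ (fun i x hx => by
    by_cases hi : i ∈ J
    · exact (hΞ1 i hi).off x hx
    · exact hΞ2 i hi x)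
  have hpσ : ∀ i, kp N * σ i ≤ σ i / 224 := fun i => by
    have hσ := W.pos i
    calc kp N * σ i ≤ 1 / 224 * σ i := by gcongr; exact kp_le hN
      _ = σ i / 224 := by ring
  have hT : ∀ y, (g.trans S).toFun y = S.toFun (g.toFun y) := fun y => rfl
  have hcube : ∀ y ∈ Λ, ∀ i, (g.trans S).toFun y ∈ closedBall (z i) (σ i) ↔
      g.toFun y ∈ closedBall (z i) (σ i) := fun y hy i =>
    ⟨fun h => hS.mem_cube_of (g.mapsTo hy) h, fun h => hS.mapsTo_cube h⟩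
  have hball : ∀ y ∈ Λ, ∀ i, (g.trans S).toFun y ∈ ball (z i) (σ i) ↔
      g.toFun y ∈ ball (z i) (σ i) := by
    refine fun y hy i => ⟨fun h => ?_, fun h => (hS.mem i _ h).1⟩
    have h1 := (hS.mem i _ h).2
    rwa [hT, S.left_inv (g.mapsTo hy)] at h1
  have hcore : ∀ i y, ‖y - c i‖ ≤ kp N * σ i → y ∈ ball (z i) (σ i) := by
    intro i y hy
    rw [mem_ball, dist_eq_norm]
    have e1 : y - z i = (y - c i) + (c i - z i) := by abel
    rw [e1]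
    exact (norm_add_le _ _).trans_lt (by linarith [G.cz i, W.pos i, hpσ i])
  have hother : ∀ i j, i ≠ j → ∀ y, y ∈ ball (z i) (σ i) → y ∉ closedBall (z j) (σ j) := by
    intro i j hij y hy hy'
    have h6 : y ∈ closure (ball (z j) (σ j)) := by rwa [closure_ball _ (W.pos j).ne']
    obtain ⟨u, hu⟩ := mem_closure_iff.1 h6 _ isOpen_ball hy
    exact disjoint_left.1 (W.disj i j hij) hu.1 hu.2
  have hshell : ∀ i ∈ J, ∀ y ∈ Λ, kp N * σ i < ‖g.toFun y - c i‖ →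
      (1 - k i) * σ i < ‖(g.trans S).toFun y - z i‖ := by
    intro i hi y hy h1
    by_cases h2 : g.toFun y ∈ closedBall (z i) (σ i)
    · rw [hT, hS.eq i _ h2]
      exact (hΞ1 i hi).shell _ h1
    · have h3 : (g.trans S).toFun y ∉ closedBall (z i) (σ i) := fun h => h2 ((hcube y hy i).1 h)
      rw [mem_closedBall, dist_eq_norm, not_le] at h3
      nlinarith [W.pos i, hk i]
  have hdiag : ∀ i ∈ J, ∀ x ∈ dyc v (n i) (w i), (g.trans S).toFun (A (κ i) *ᵥ x + b (κ i)) =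
      z i + ((1 - k i) * σ i / hs (n i)) • (SS (e i) *ᵥ (x - ctr v (n i) (w i))) := by
    intro i hi x hx
    rw [hT, hS.eq i _ (ball_subset_closedBall (hcore i _ ?_)), (hΞ1 i hi).diag x hx]
    have h1 := (hcell i).core x hx
    have h2 : 0 < kp N * σ i := mul_pos (kp_pos N) (W.pos i)
    linarith
  refine ⟨κ, e, n, w, fun i => (Ξ i).toFun, g.trans S, ⟨hcell, fun i => (LD i).sign, hΞ1,
    fun i hi y hy h => by rw [hT, hS.eq i _ h], hcube, hball, fun y hy h1 => ?_, hshell,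
    fun y hy h0 i hi => ?_, hdiag, fun i hi y hy h1 => ?_, fun i y hy j h1 h2 h3 => ?_,
    fun i y hy j h1 h2 => ?_, fun y hy h1 => ?_, fun i hi y hy h1 => ?_⟩⟩
  · -- off the cubes of `J`
    rw [hT]
    by_cases h2 : ∃ i, g.toFun y ∈ closedBall (z i) (σ i)
    · obtain ⟨i, hi⟩ := h2
      rw [hS.eq i _ hi]
      by_cases hiJ : i ∈ J
      · refine (hΞ1 i hiJ).off _ ?_
        have := h1 i hiJ
        rwa [mem_ball, dist_eq_norm, not_lt] at this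
      · exact hΞ2 i hiJ _
    · push Not at h2
      exact (hS.off _ fun i hi => h2 i (ball_subset_closedBall hi)).1
  · -- `V₀`
    by_cases hiJ : i ∈ J
    · exact hshell i hiJ y hy (G.core y hy h0 i)
    · have hX := hi.resolve_left hiJ
      have h1 := G.mid y hy h0 i hX
      by_cases h2 : g.toFun y ∈ closedBall (z i) (σ i)
      · rwa [hT, hS.eq i _ h2, hΞ2 i hiJ]
      · have h3 : (g.trans S).toFun y ∉ closedBall (z i) (σ i) := fun h => h2 ((hcube y hy i).1 h)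
        rw [mem_closedBall, dist_eq_norm, not_le] at h3
        nlinarith [W.pos i, hk i]
  · -- the middle cubes
    have hs0 := hs_pos' (n i)
    have hσ := W.pos i
    have hk0 : 0 < 1 - k i := by linarith [hk1 i]
    obtain ⟨t, ht⟩ : ∃ t, t = (1 - k i) * σ i / hs (n i) := ⟨_, rfl⟩
    have ht0 : 0 < t := by rw [ht]; positivity
    obtain ⟨x, hx⟩ : ∃ x, x = ctr v (n i) (w i) +
        t⁻¹ • (SS (e i) *ᵥ ((g.trans S).toFun y - z i)) := ⟨_, rfl⟩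
    have hx1 : x ∈ dyc v (n i) (w i) := by
      rw [dyc_ball, mem_closedBall, dist_eq_norm, hx, add_sub_cancel_left, norm_smul,
        SS_mulVec_norm (LD i).abs_sign, norm_inv, Real.norm_of_nonneg ht0.le, inv_mul_eq_div,
        div_le_iff₀ ht0, ht]
      calc _ ≤ (1 - k i) * σ i := h1
        _ = hs (n i) * ((1 - k i) * σ i / hs (n i)) := by field_simp
    refine ⟨x, hx1, ?_⟩
    have h2 := hdiag i hi x hx1
    rw [← ht] at h2
    have h3 : (g.trans S).toFun (A (κ i) *ᵥ x + b (κ i)) = (g.trans S).toFun y := by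
      rw [h2, hx, add_sub_cancel_left, Matrix.mulVec_smul, Matrix.mulVec_mulVec,
        SS_mul_self (LD i).abs_sign, Matrix.one_mulVec, smul_smul, mul_inv_cancel₀ ht0.ne',
        one_smul]
      abel
    exact ((g.trans S).injOn ((hcell i).mem x hx1) hy h3).symm
  · -- tangential coordinates
    rw [hT, hS.eq i _ h2]
    by_cases hiJ : i ∈ J
    · exact (hΞ1 i hiJ).tang _ j h1 h3
    · rw [hΞ2 i hiJ]
  · rw [hT, hS.eq i _ h2]
    by_cases hiJ : i ∈ J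
    · exact (hΞ1 i hiJ).grow _ j h1
    · rw [hΞ2 i hiJ]
      exact ⟨fun _ => le_rfl, fun _ => le_rfl⟩
  · -- Lipschitz estimate off the cores
    have h28 : (1:ℝ) ≤ 28 * 2 ^ N := by
      have : (1:ℝ) ≤ 2 ^ N := one_le_pow₀ (by norm_num)
      linarith
    have h2 : LocLip S.toFun (g.toFun y) (28 * 2 ^ N) := by
      refine hS.local_lip hΛ (g.mapsTo hy) h28 fun i hi => ?_
      by_cases hiJ : i ∈ J
      · have h3 := h1 i hiJ
        have h4 : ∀ᶠ u in 𝓝 (g.toFun y), kp N * σ i < ‖u - c i‖ := by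
          have : ContinuousAt (fun u : V => ‖u - c i‖) (g.toFun y) := by fun_prop
          exact this.eventually (lt_mem_nhds h3)
        obtain ⟨δ, hδ, hb⟩ := Metric.eventually_nhds_iff_ball.1 h4
        exact ⟨δ, hδ, fun u hu u' hu' => (hΞ1 i hiJ).lip0 u u' (hb u hu).le (hb u' hu').le⟩
      · refine ⟨1, one_pos, fun u _ u' _ => ?_⟩
        rw [hΞ2 i hiJ, hΞ2 i hiJ]
        exact le_mul_of_one_le_left (norm_nonneg _) h28
    exact h2.comp (locLip_of_lip hg y) (by linarith) (by linarith)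
  · -- Lipschitz estimate at the cores
    have hL1 := (LD i).one_le
    have h8 : (1:ℝ) ≤ 8 * 4 ^ N := by
      have : (1:ℝ) ≤ 4 ^ N := one_le_pow₀ (by norm_num)
      linarith
    have h2 : LocLip S.toFun (g.toFun y) (8 * 4 ^ N * L (κ i)) := by
      refine hS.local_lip hΛ (g.mapsTo hy) (by nlinarith) fun j hj => ?_
      have hij : i = j := by
        by_contra hij
        exact hother i j hij _ (hcore i _ h1) hj
      subst hij
      exact locLip_of_lip (hΞ1 i hi).lip _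
    exact h2.comp (locLip_of_lip hg y) (by positivity) (by linarith)

end ttot

end Vale.Agent.P073.H851
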