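import Vale.Agent.P073.H142.FaceJ
import Vale.Agent.P073.H194.FaceTop3
import Vale.Agent.P073.H236.TopG2
import Vale.Agent.P073.H237.RowE
import Vale.Agent.P073.H880.TopM

/-!
# P073, **[K3-TOP]**: the rows of the drawn faces

* `row_hg`: the estimate of the drawn faces which are not peeled, for any tolerance (`GivRow`);
* `row_giv`: the same with the tolerance `tauF`;
* `row_face`: the field `Last3.face`.
-/

set_option linter.unusedSectionVars false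

open Set Metric Topology Filter
open scoped ENNReal

namespace Vale.Agent.P073.Top880

open _root_.P073 _root_.P073.Net _root_.P073.PA691 _root_.P073.H236 _root_.P073.H579
open _root_.P073.H142 (FStar wcst)
open _root_.P073.H345 (PK tg)
open _root_.P073.H880.RP
open _root_.P073.H429 (ebe eal eal_lt_ebe YB YS YS_p_lt YS_q_lt rT rT_pos)
open Vale.Agent.P073.St (V)
open Vale.Agent.P073.H471 Vale.Agent.P073.H267
open Vale.Agent.P073.H73 (Mesh)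
open Vale.Agent.P073.H193 (Edges edges LAtC)
open Vale.Agent.P073.H304 (Nb In Zmax)
open Vale.Agent.P073.H926
open Vale.Agent.P073.H238.K3
open Vale.Agent.P073.H267.K3
open Vale.Agent.P073.H212.K3 (muT muT_pos muT_le)
open Vale.Agent.P073.H233 (Xp)
open Vale.Agent.P073.H236.Slot (exists_givTolP)

variable {c₀ n δ : ℝ} {j : ℕ} {Ω Λ : Set V} {v w : V} {ρ : V → ℝ} {M : Mesh Ω} {h : ConHomeo Ω Λ}
  {J₀ J : Set (ℕ × (Fin 3 → ℤ))} {P Z : Set M.ι} {K : BoxCx Λ w}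
  {D : KIn3 c₀ n j δ v w ρ M h J₀ J P Z} {C : Cells ρ w K} {C₀ μT : ℝ}
  {Ys : Set M.κ} {sc : Sharp}

section ok

variable {S : Slots D C C₀ μT Ys sc} {N : RTn M C J₀} {X : S1 D C C₀ μT} {Y₂ : S2 X}
  {Y₃ : S3 Y₂ Ys sc} {Y₄ : S4 Y₃} {Y₅ : S5 Y₄}

theorem Ok5.μn (H : Ok5 S N Y₅) (b : pG C J₀) : Y₅.μ b ≤ n / 256 := by
  have h1 := H.μ_le b
  have h2 := D.pos
  linarith

theorem Ok5.μκ (H : Ok5 S N Y₅) (b : pG C J₀) :
    Y₅.μ b * (ebe (D.W C) b.1 - eal (D.W C) b.1) ≤ n / 256 * ((D.G C).uT b.1 / 4) := by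
  rw [H.μ_len b]
  refine le_of_eq ?_
  ring

end ok

/-- **the estimate of the drawn faces which are not peeled**, as a row -/
theorem row_hg (D : KIn3 c₀ n j δ v w ρ M h J₀ J P Z) (C : Cells ρ w K) :
    GivRow D C C₀ μT Ys sc := by
  intro τ hτ
  obtain ⟨S₁, h1⟩ := _root_.Vale.Agent.P073.H236.Slot.row_givNum (C₀ := C₀) (μT := μT) (Ys := Ys)
    (sc := sc) D C hτ
  -- slot (7)
  have k2 : ∀ (b : (edges M).ε → ℝ) (f : ConHomeo Ω Λ), ∃ t : pG C J₀ → ℝ, (∀ b, 0 < t b) ∧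
      ((∀ e, 0 < b e) → ∀ (b' : pG C J₀) k,
        (f.toFun '' M.F k ∩ YK D C b'.1).Nonempty → ∀ e ≤ t b', 16 * e ≤ τ b k) := by
    intro b f
    by_cases hb : ∀ e, 0 < b e
    · obtain ⟨t, t0, ht⟩ := exists_tolYK D C f (hτ b hb)
      exact ⟨t, t0, fun _ => ht⟩
    · exact ⟨fun _ => 1, fun _ => one_pos, fun h => absurd h hb⟩
  choose t5 t50 ht5 using k2
  refine ⟨S₁.inf { Slots.one with
    tol5 := fun {X} _ _ Y₄ _ _ => t5 X.bn Y₄.f5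
    tol50 := fun {X} _ _ Y₄ _ _ b => t50 X.bn Y₄.f5 b }, fun {N X Y₂ Y₃ Y₄} Y₅ H => ?_⟩
  have H1 := H.left
  have H2 := H.right
  obtain ⟨Lam, hG⟩ := h1 H1.toOk4
  obtain ⟨η, η0, hm, hTB⟩ := H.tb
  have G := hG η η0 fun b s hs => ⟨hm b s hs, by
    have e1 := Y₂.Lw.δμ s
    have e2 := Y₂.Lw.δ0 s
    have e3 := hm b s hs
    linarith⟩
  have GN : GivNum Y₄ Lam (τ X.bn) η :=
    { J := G.J
      mu := G.mu
      dP := G.dP
      q := G.q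
      r := G.r
      η0 := G.η0
      ηm := G.ηm
      lam0 := G.lam0
      τ0 := G.τ0
      lip := fun k _ => G.lip k
      θ := G.θ
      ε := G.ε }
  exact Y₅.latC_giv GN (fun b => by rw [H.fat]) hTB (fun b => (H.μ0 b).le) H.μn H.μκ
    fun b k hk => ht5 X.bn Y₄.f5 X.num.b_pos b k hk _ (H2.ε5 b)

/-- **the estimate of the drawn faces which are not peeled**, with the tolerance `tauF` -/
theorem row_giv (D : KIn3 c₀ n j δ v w ρ M h J₀ J P Z) (C : Cells ρ w K) {τ₀ : M.κ → ℝ}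
    (hτ₀ : ∀ k, 0 < τ₀ k) :
    RowP D C C₀ μT Ys sc fun {X _ _ _} Y₅ => GivF (tauF τ₀ X.bn) Y₅ :=
  row_hg D C (tauF τ₀) fun b _ => tauF_pos hτ₀ b

/-- **the row `Last3.face`** -/
theorem row_face (D : KIn3 c₀ n j δ v w ρ M h J₀ J P Z) (C : Cells ρ w K) {ε : M.κ → ℝ}
    (hε : ∀ k, 0 < ε k) {D₀ C₁ C₁' : ℝ} (hD₀ : 1 ≤ D₀)
    (hC₁ : 936 * (8 * (500 * C₀ + 700) + 32 * C₀) + 1 ≤ C₁) (hC₁g : 600 * C₀ + 1 ≤ C₁)
    (hC₁' : 6 * FW31.DK sc.K * (8 * (500 * C₀ + 700) + 32 * C₀) + 1 ≤ C₁') (hC : C₁ ≤ C₁') :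
    RowP D C C₀ μT Ys sc fun Y₅ => FaceF D₀ C₁ C₁' ε Y₅ := by
  obtain ⟨S₀, hS₀⟩ := row_hg (C₀ := C₀) (μT := μT) (Ys := Ys) (sc := sc) D C (tauB M)
    fun b _ => tauB_pos M b
  obtain ⟨x, x0, hx⟩ := exists_ftol M hε
  choose t4 t40 ht4 using fun (X : S1 D C C₀ μT) => exists_givTolP (D := D) (C := C) X.h1
    (tauB_pos M X.bn)
  choose t5 t50 ht5 using fun (b : (edges M).ε → ℝ) (f : ConHomeo Ω Λ) =>
    exists_tolYK D C f (tauB_pos M b)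
  refine ⟨S₀.inf { Slots.one with
    εe := x, εe0 := x0
    tol4 := fun {X} _ _ _ _ => t4 X, tol40 := fun {X} _ _ _ _ s => t40 X s
    tol5 := fun {X} _ _ Y₄ _ _ => t5 X.bn Y₄.f5, tol50 := fun {X} _ _ Y₄ _ _ b => t50 X.bn Y₄.f5 b },
    fun {N X Y₂ Y₃ Y₄} Y₅ H => ?_⟩
  have H1 := H.left
  have H2 := H.right
  have hn := D.pos
  exact Y₅.face_of (fun s => by rw [H.q4]) (fun s => by rw [H.r4]) (fun b => (H.μ0 b).le)
    H.μn H.μκ (tauB_pos M X.bn)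
    (fun s k hk => ht4 X ⟨s, hk.1⟩ k hk _ (H2.ε4 _)) (fun b k hk => ht5 X.bn Y₄.f5 b k hk _
      (H2.ε5 b)) (fun k e he => tauB_le X.num.b_pos k e he) hD₀ (hx X.εe H2.εe) (ag := 100)
    (Cg := 3) (by norm_num) (by norm_num) (cst := fun k => wcst D C X.h1.toFun k) X.wcst_cone
    (hS₀ Y₅ H1) (by rw [H.q]; exact hC₁) (by linarith) (by rw [H.q]; exact hC₁') hC

end Vale.Agent.P073.Top880
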