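import Vale.Agent.P073.H851.TgtB
import Vale.Agent.P073.H726.Chain

/-!
# P073, [TGT]: **`H696.SpecTgt`**
-/

open Set Metric Topology Filter Matrix MeasureTheory
open scoped ENNReal

namespace Vale.Agent.P073.H851

open _root_.P073
open _root_.P073.Net (dyc dyo IsTile SizeFn)
open Vale.Agent.P073.St (V)
open Vale.Agent.P073.AB (Idx)
open Vale.Agent.P073.H471 (Cubes TI zt st cB_eq B_eq cubes_tiles st_pos)
open Vale.Agent.P073.H726 (LBOn)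
open Vale.Agent.P073.H696 (Tgt)

/-- the constants of a matrix -/
theorem exists_const : ∃ (r0 L : M3 → ℝ), ∀ M : M3, 0 < r0 M ∧ r0 M ≤ 1 ∧ 1 ≤ L M ∧
    (M.det ≠ 0 → ∀ M' : M3, (∀ y : V, ‖M' *ᵥ y‖ ≤ 2 * ‖y‖ ∧ ‖y‖ ≤ 2 * ‖M' *ᵥ y‖) →
      ∃ e, LocData (M' * M) e (r0 M) (L M)) := by
  have h : ∀ M : M3, ∃ r0 L : ℝ, 0 < r0 ∧ r0 ≤ 1 ∧ 1 ≤ L ∧
      (M.det ≠ 0 → ∀ M' : M3, (∀ y : V, ‖M' *ᵥ y‖ ≤ 2 * ‖y‖ ∧ ‖y‖ ≤ 2 * ‖M' *ᵥ y‖) →
        ∃ e, LocData (M' * M) e r0 L) := by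
    intro M
    by_cases hM : M.det ≠ 0
    · obtain ⟨r0, L, h1, h2, h3, h4⟩ := exists_locData_det M hM
      exact ⟨r0, L, h1, h2, h3, fun _ => h4⟩
    · exact ⟨1, 1, one_pos, le_rfl, le_rfl, fun h => absurd h hM⟩
  choose r0 L h using h
  exact ⟨r0, L, h⟩

section aux

variable {B : Type} {Λ : Set V} {A : B → M3} {b : B → V} {D D' : B → Set V}

theorem V0_closed (hΛ : IsOpen Λ) (hA : ∀ k, (A k).det ≠ 0) :
    IsClosed (H696.V0 Λ A b D ∪ Λᶜ) := by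
  have h1 : (H696.V0 Λ A b D ∪ Λᶜ)ᶜ = Λ ∩ ⋃ k, afm (A k) (b k) '' interior (D k) := by
    ext y
    rw [mem_compl_iff, mem_union, not_or, mem_compl_iff, not_not, mem_inter_iff, mem_iUnion]
    constructor
    · rintro ⟨h1, h2⟩
      refine ⟨h2, ?_⟩
      by_contra hn
      push Not at hn
      exact h1 ⟨h2, fun k x hx h => hn k ⟨x, hx, h⟩⟩
    · rintro ⟨h1, k, x, hx, h⟩
      exact ⟨fun h0 => h0.2 k x hx h, h1⟩
  rw [← isOpen_compl_iff, h1]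
  exact hΛ.inter (isOpen_iUnion fun k => afm_image_open (hA k) (b k) isOpen_interior)

theorem kept_of (hΛ : IsOpen Λ) (hD : ∀ k, IsCompact (D k))
    (hdis : ∀ k l, k ≠ l → Disjoint ((fun x => A k *ᵥ x + b k) '' D k)
      ((fun x => A l *ᵥ x + b l) '' D l))
    (hlf : ∀ C ⊆ Λ, IsCompact C → {k | ((fun x => A k *ᵥ x + b k) '' D k ∩ C).Nonempty}.Finite) :
    Kept Λ (H696.V0 Λ A b D) A b D where
  cpt := hD
  cover y hy h0 := by
    by_contra hn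
    push Not at hn
    exact h0 ⟨hy, fun k x hx => hn k x (interior_subset hx)⟩
  disj k k' hkk x hx x' hx' h := disjoint_left.1 (hdis k k' hkk) ⟨x, hx, rfl⟩ ⟨x', hx', h.symm⟩
  lf := lf_of_compact hΛ hlf

theorem R_open (hΛ : IsOpen Λ) (hD : ∀ k, IsCompact (D' k) ∧ D' k ⊆ D k)
    (hlf : ∀ C ⊆ Λ, IsCompact C → {k | ((fun x => A k *ᵥ x + b k) '' D k ∩ C).Nonempty}.Finite) :
    IsOpen (Λ \ ⋃ k, (fun x => A k *ᵥ x + b k) '' D' k) := by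
  have h1 : Λ \ ⋃ k, (fun x => A k *ᵥ x + b k) '' D' k =
      ((⋃ k, (fun x => A k *ᵥ x + b k) '' D' k) ∪ Λᶜ)ᶜ := by
    ext y
    rw [mem_compl_iff, mem_union, not_or, mem_compl_iff, not_not]
    exact ⟨fun h => ⟨h.2, h.1⟩, fun h => ⟨h.2, h.1⟩⟩
  rw [h1, isOpen_compl_iff]
  refine isClosed_lf hΛ (fun k => ?_) (lf_of_compact hΛ fun C hC hCc => ?_)
  · exact ((hD k).1.image (continuous_afm (A k) (b k))).isClosed
  · refine (hlf C hC hCc).subset fun k hk => ?_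
    exact hk.mono (inter_subset_inter_left _ (image_mono (hD k).2))

end aux

/-- the weight `(1 / τ)³` is not integrable to zero -/
theorem weight_ne_zero {Λ : Set V} (hΛ : IsOpen Λ) (hne : Λ.Nonempty) {τ : V → ℝ}
    (hτ : Continuous τ) (hp : ∀ y, 0 < τ y ↔ y ∈ Λ) :
    ∫⁻ y in Λ, ENNReal.ofReal (1 / τ y) ^ 3 ≠ 0 := by
  have hm : Measurable fun y => ENNReal.ofReal (1 / τ y) ^ 3 :=
    ((measurable_const.div hτ.measurable).ennreal_ofReal).pow_const 3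
  rw [Ne, lintegral_eq_zero_iff hm]
  intro h
  have h1 : volume.restrict Λ Λ = 0 := by
    refine measure_mono_null (fun y hy => ?_) (ae_iff.1 h)
    have h2 : 0 < ENNReal.ofReal (1 / τ y) ^ 3 := by
      have := (hp y).2 hy
      positivity
    simpa using h2.ne'
  rw [Measure.restrict_apply_self] at h1
  exact (hΛ.measure_pos volume hne).ne' h1

/-- the constants of `exists_const` -/
structure ConstM (r0 L : M3 → ℝ) : Prop where
  pos : ∀ M, 0 < r0 M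
  le : ∀ M, r0 M ≤ 1
  one : ∀ M, 1 ≤ L M
  loc : ∀ M : M3, M.det ≠ 0 →
    ∀ M' : M3, (∀ y : V, ‖M' *ᵥ y‖ ≤ 2 * ‖y‖ ∧ ‖y‖ ≤ 2 * ‖M' *ᵥ y‖) →
      ∃ e, LocData (M' * M) e (r0 M) (L M)

theorem exists_constM : ∃ r0 L : M3 → ℝ, ConstM r0 L := by
  obtain ⟨r0, L, h⟩ := exists_const
  exact ⟨r0, L, fun M => (h M).1, fun M => (h M).2.1, fun M => (h M).2.2.1,
    fun M => (h M).2.2.2⟩

/-- **[TGT-GC]** (239): from a generalised collapse to the total target homeomorphism -/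
theorem exists_tp {B : Type} {Λ X : Set V} {T : V → V} {A : B → M3} {b : B → V} {D : B → Set V}
    {N : ℕ} {C₀ m₀ : ℝ} (hGC : H239.GC N C₀ m₀ Λ (H696.V0 Λ A b D) X T) (hN : 1 ≤ N)
    (hm : m₀ ≤ 2) {N' : ℕ} (hN' : 8 ≤ N') (hκ : 2 * kp N' ≤ 1 / (14 * (N:ℝ)))
    (hA : ∀ k, (A k).det ≠ 0) (hD : ∀ k, IsCompact (D k))
    (hdis : ∀ k l, k ≠ l → Disjoint ((fun x => A k *ᵥ x + b k) '' D k)
      ((fun x => A l *ᵥ x + b l) '' D l))
    (hlf : ∀ C ⊆ Λ, IsCompact C → {k | ((fun x => A k *ᵥ x + b k) '' D k ∩ C).Nonempty}.Finite)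
    {wt : B → ℝ≥0∞} (hwt : ∀ k, wt k ≠ ⊤) {δ : V → ℝ} (hδ : LBOn Λ δ) {ε₀ : ℝ≥0∞}
    (hε₀ : ε₀ ≠ 0) {η ε₁ cρ Cg : ℝ} (hη0 : 0 < η) (hη1 : η < 1 / 2) (hε₁ : 0 < ε₁) (hcρ : 0 < cρ)
    (hcρ1 : cρ ≤ 1) (hCg : 2 * (C₀ + ε₁) ≤ Cg) (hCg1 : 1 ≤ Cg) {r0 L : M3 → ℝ}
    (hrL : ConstM r0 L) (v : V) :
    ∃ (s ρ : V → ℝ) (c : TI ρ (0 : V) → V) (Mi : TI ρ (0 : V) → M3) (bi : TI ρ (0 : V) → V)
      (g : ConHomeo Λ Λ) (κ : TI ρ (0 : V) → B) (e : TI ρ (0 : V) → ℝ) (n : TI ρ (0 : V) → ℕ)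
      (wd : TI ρ (0 : V) → Fin 3 → ℤ) (Ξ : TI ρ (0 : V) → V → V) (Tt : ConHomeo Λ Λ),
      H239.AdaptedN N Λ X T δ (nuS A b D wt) ε₀ s ∧ (∀ y, ρ y = min (s y / 64) cρ) ∧
      H819.AlignN N C₀ m₀ Λ (H696.V0 Λ A b D) X T s (zt ρ 0) (st ρ 0) (fun _ => η) ε₁ c Mi bi
        g.toFun ∧
      TP N' (1 / (14 * (N:ℝ))) Λ (H696.V0 Λ A b D) X T s η c Mi bi g A b D
        (fun k => r0 (A k)) (fun k => L (A k)) v Cg κ e n wd Ξ Tt := by
  have hNr : (1:ℝ) ≤ N := by exact_mod_cast hN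
  have hκ0 : (0:ℝ) < 1 / (14 * (N:ℝ)) := by positivity
  have hκ1 : (1:ℝ) / (14 * (N:ℝ)) ≤ 1 / 14 := by
    apply one_div_le_one_div_of_le (by norm_num)
    linarith
  obtain ⟨s, Ad⟩ := H819.gc_exists_adapted hGC hδ (nuS_lt_top (A := A) (b := b) hD hwt hlf) hε₀
  obtain ⟨ρ, hρd⟩ : ∃ ρ : V → ℝ, ρ = fun y => min (s y / 64) cρ := ⟨_, rfl⟩
  have hρ : SizeFn Λ ρ := by rw [hρd]; exact sizeFn_of_lip Ad.lip Ad.pos Ad.off hcρ hcρ1
  have hρs : ∀ y, ρ y ≤ s y / 64 := fun y => by rw [hρd]; exact min_le_left _ _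
  have hσ16 : ∀ i : TI ρ (0 : V), st ρ 0 i ≤ s (zt ρ 0 i) / 16 := fun i => by
    linarith [st_le hρs i, st_pos i]
  obtain ⟨c, Mi, bi, g, AN⟩ := H819.gc_exists_align hGC hN hm Ad (cubes_tiles hρ (0 : V)) hσ16
    (k := fun _ => η) (fun _ => hη0) (ε := ε₁) hε₁
  have hκ' : ∀ t : ℝ, t / (56 * (N:ℝ)) = 1 / (14 * (N:ℝ)) / 4 * t := fun t => by
    field_simp
    ring
  have hkept := kept_of (A := A) (b := b) hGC.opn hD hdis hlf
  have hC0 : 0 ≤ C₀ + ε₁ := by linarith [hGC.C0]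
  have hg : ∀ y y', ‖g.toFun y - g.toFun y'‖ ≤ Cg * ‖y - y'‖ := by
    intro y y'
    refine (lip_sup_of_eu hC0 AN.lip y y').trans ?_
    gcongr
  obtain ⟨κ, e, n, wd, Ξ, Tt, HT⟩ := exists_ttot (N := N') hN' hGC.opn
    (AN.toAlignM.mono (fun i => st_pos i) (by linarith [kp_pos N'])) (cubes_tiles hρ (0 : V))
    (fun i => st_le_one i) (fun _ => hη0) (fun _ => hη1) hkept hA
    (r0 := fun k => r0 (A k)) (L := fun k => L (A k))
    (fun i k => hrL.loc (A k) (hA k) (Mi i) (AN.bd i)) hCg1 hg v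
    (NearX X s (zt ρ (0 : V)))
  exact ⟨s, ρ, c, Mi, bi, g, κ, e, n, wd, Ξ, Tt, Ad, fun y => by rw [hρd], AN,
    { hρ := hρ
      hρs := hρs
      lips := Ad.lip
      η0 := hη0
      η1 := hη1
      tt := HT
      ΛO := hGC.opn
      κN := hκ
      κ1 := by linarith
      core := AN.core
      hole := AN.hole
      cz := AN.cz
      near := AN.near
      near' := fun y hy i hi => (AN.near' y hy i hi).trans (hκ' _).le
      far := AN.far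
      V0X := hGC.V0X
      kept := hkept
      L1 := fun k => hrL.one (A k)
      Cg1 := hCg1 }⟩

/-- the cost of the active zone, for a general weight -/
theorem cost_le {B : Type} {Λ X : Set V} {T : V → V} {A : B → M3} {b : B → V} {D : B → Set V}
    {α W : B → ℝ≥0∞} {s : V → ℝ} {ε₀ ε₁ : ℝ≥0∞} {Act : Set V}
    (hact : ∀ y ∈ Act, (y ∈ Λ ∧ T y ∈ X) ∨ (y ∈ Λ ∧ T y ∉ X ∧ ∃ x' ∈ X, ‖T y - x'‖ ≤ s (T y)))
    (hvs : nuS A b D (fun k => W k + α k)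
      {y | y ∈ Λ ∧ T y ∉ X ∧ ∃ x' ∈ X, ‖T y - x'‖ ≤ s (T y)} ≤ ε₀)
    (h2 : ∑' k, α k * volume {x | x ∈ D k ∧ afm (A k) (b k) x ∈ {y | y ∈ Λ ∧ T y ∈ X}} ≤ ε₁) :
    ∑' k, α k * volume {x | x ∈ D k ∧ A k *ᵥ x + b k ∈ Act} ≤ ε₁ + ε₀ := by
  have h1 : ∀ k, α k * volume {x | x ∈ D k ∧ A k *ᵥ x + b k ∈ Act} ≤
      α k * volume {x | x ∈ D k ∧ afm (A k) (b k) x ∈ {y | y ∈ Λ ∧ T y ∈ X}} +
      (W k + α k) * volume {x | x ∈ D k ∧ afm (A k) (b k) x ∈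
        {y | y ∈ Λ ∧ T y ∉ X ∧ ∃ x' ∈ X, ‖T y - x'‖ ≤ s (T y)}} := by
    intro k
    refine le_trans (mul_le_mul' le_rfl ((measure_mono ?_).trans (measure_union_le _ _)))
      (le_trans (mul_add _ _ _).le (add_le_add le_rfl (mul_le_mul' le_add_self le_rfl)))
    rintro x ⟨hx, hx2⟩
    rcases hact _ hx2 with h3 | h3
    · exact Or.inl ⟨hx, h3⟩
    · exact Or.inr ⟨hx, h3⟩
  refine (ENNReal.tsum_le_tsum h1).trans ?_
  rw [ENNReal.tsum_add]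
  exact add_le_add h2 ((le_nuS _).trans hvs)

/-- **(L2)** -/
theorem specTgt : H696.SpecTgt := by
  obtain ⟨r0, L, hrL⟩ := exists_constM
  have hL1 : ∀ M, 28 * 4 ^ 9 * 4 * 1 ≤ 28 * 4 ^ 9 * 4 * L M := fun M => by
    have := hrL.one M
    gcongr
  refine ⟨28 * 2 ^ 9 * 4, fun M => 28 * 4 ^ 9 * 4 * L M + 2 * 2 ^ 9 / r0 M, by norm_num,
    fun M => ?_, ?_⟩
  · have h1 := hL1 M
    have h2 : 0 ≤ 2 * 2 ^ 9 / r0 M := by
      have := hrL.pos M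
      positivity
    linarith
  intro Λ hΛ ε hε M₀ hM₀
  have hΛo := hΛ.1
  have hΛb := PK.isBounded_of_domain hΛ
  have hΛne : Λ.Nonempty := hΛ.2.1.nonempty
  have hvol : volume Λ ≠ ⊤ := PK.volume_ne_top_of_domain hΛ
  obtain ⟨vΛ, hvΛ⟩ : ∃ x, x = (volume Λ).toReal := ⟨_, rfl⟩
  have hv0 : 0 ≤ vΛ := by rw [hvΛ]; exact ENNReal.toReal_nonneg
  have hvv : volume Λ = ENNReal.ofReal vΛ := by rw [hvΛ, ENNReal.ofReal_toReal hvol]
  -- the slope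
  obtain ⟨h, hh0, hh1, hh2, hh3⟩ : ∃ h : ℝ, 0 < h ∧ h ≤ 1 / 8 ∧ h ≤ ε ∧
      M₀ * (3 * h * vΛ) ≤ ε / 4 := by
    refine ⟨min (min (1 / 8) ε) (ε / 4 / (3 * M₀ * vΛ + 1)), by positivity,
      (min_le_left _ _).trans (min_le_left _ _), (min_le_left _ _).trans (min_le_right _ _), ?_⟩
    have h1 : min (min (1 / 8) ε) (ε / 4 / (3 * M₀ * vΛ + 1)) ≤ ε / 4 / (3 * M₀ * vΛ + 1) :=
      min_le_right _ _
    have hp : 0 < 3 * M₀ * vΛ + 1 := by positivity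
    calc M₀ * (3 * min (min (1 / 8) ε) (ε / 4 / (3 * M₀ * vΛ + 1)) * vΛ)
        ≤ M₀ * (3 * (ε / 4 / (3 * M₀ * vΛ + 1)) * vΛ) := by gcongr
      _ = ε / 4 * (3 * M₀ * vΛ / (3 * M₀ * vΛ + 1)) := by ring
      _ ≤ ε / 4 * 1 := by
          gcongr
          rw [div_le_one hp]
          linarith
      _ = ε / 4 := by ring
  -- the chain
  obtain ⟨τ, c₁, hc₁, hτ0, hτp, hτc, -, hcoll⟩ := H726.exists_coll hΛo hΛb hh0 hh1
    (ρ := fun _ => ε) (LBOn.of_continuous hΛo continuous_const fun _ _ => hε)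
  obtain ⟨I, hI⟩ : ∃ I, I = ∫⁻ y in Λ, ENNReal.ofReal (1 / τ y) ^ 3 := ⟨_, rfl⟩
  have hI0 : I ≠ 0 := by rw [hI]; exact weight_ne_zero hΛo hΛne hτc hτp
  refine ⟨τ, min (min c₁ 1) (I / 2), ⟨hτc, hτ0, hτp, ?_⟩, ?_⟩
  · exact (lt_min (lt_min (pos_iff_ne_zero.2 hc₁) one_pos) (ENNReal.half_pos hI0)).ne'
  intro B A b D D' α W δt j v hA hD hDΛ hdis hlf hint hα hW hhigh hδt hj
  have hBne : Nonempty B := by
    by_contra hB
    rw [not_nonempty_iff] at hB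
    rw [iUnion_of_empty, sdiff_empty, ← hI] at hint
    have h1 : I ≤ 1 := hint.trans ((min_le_left _ _).trans (min_le_right _ _))
    have h2 : I ≤ I / 2 := hint.trans (min_le_right _ _)
    have h3 : I ≠ ⊤ := (h1.trans_lt ENNReal.one_lt_top).ne
    exact absurd h2 (not_le.2 (ENNReal.half_lt_self hI0 h3))
  have hDc : ∀ k, IsCompact (D k) := fun k => (hD k).1
  -- the collapse
  obtain ⟨T, X, hC, hT⟩ := hcoll (Λ \ ⋃ k, (fun x => A k *ᵥ x + b k) '' D' k)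
    (H696.V0 Λ A b D)
    (R_open hΛo (fun k => ⟨(hD k).2.1, (hD k).2.2.trans interior_subset⟩) hlf) sdiff_subset
    (hint.trans ((min_le_left _ _).trans (min_le_left _ _))) (V0_closed hΛo hA)
    (fun y hy => ⟨hy.1, fun h => by
      obtain ⟨k, x, hx, hxy⟩ := mem_iUnion.1 h
      exact hy.2 k x ((hD k).2.2 hx) hxy⟩)
  have hGC := H239.gc_of_coll hC (m := 2) (by linarith)
  have hWα : ∀ k, W k + α k ≠ ⊤ := fun k => ENNReal.add_ne_top.2 ⟨hW k, hα k⟩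
  have hε2 : ENNReal.ofReal (ε / 2) ≠ 0 := by
    rw [ne_eq, ENNReal.ofReal_eq_zero, not_le]; positivity
  have hη0 : (0:ℝ) < 1 / 2 ^ j := by positivity
  have hη1 : (1:ℝ) / 2 ^ j < 1 / 2 := by
    have : (2:ℝ) ^ 2 ≤ 2 ^ j := pow_le_pow_right₀ (by norm_num) hj
    rw [div_lt_div_iff_of_pos_left one_pos (by positivity) (by norm_num)]
    linarith
  obtain ⟨s, ρ, c, Mi, bi, g, κ, e, n, wd, Ξ, Tt, Ad, -, -, S⟩ := exists_tp hGC (by norm_num)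
    le_rfl (N' := 9) (by norm_num) (by unfold kp; norm_num) hA hDc hdis hlf hWα
    (δ := fun y => min (δt y) ε)
    (hδt.min (LBOn.of_continuous hΛo continuous_const fun _ _ => hε)) hε2 hη0 hη1
    (ε₁ := 7 / 8) (cρ := 1) (Cg := 4) (by norm_num) one_pos le_rfl (by linarith) (by norm_num)
    hrL v
  -- the costs
  have hcostC : ∑' k, W k * volume {x | x ∈ D k ∧ A k *ᵥ x + b k ∈
      CoreT Λ ρ X s g.toFun c (1 / (14 * ((16:ℕ):ℝ)))} ≤ ENNReal.ofReal (2 * ε) := by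
    calc _ ≤ ∑' k, (W k + α k) * volume {x | x ∈ D k ∧ afm (A k) (b k) x ∈
          {y | y ∈ Λ ∧ T y ∉ X ∧ ∃ x' ∈ X, ‖T y - x'‖ ≤ s (T y)}} := by
          refine ENNReal.tsum_le_tsum fun k => mul_le_mul' le_self_add
            (measure_mono fun x hx => ⟨hx.1, S.coreN_sub hx.2⟩)
      _ ≤ _ := (le_nuS _).trans (Ad.vol.trans (ENNReal.ofReal_le_ofReal (by linarith)))
  have hcost : ∑' k, α k * volume {x | x ∈ D k ∧ A k *ᵥ x + b k ∈
      ActS Λ ρ X s g.toFun ∪ ∅} ≤ ENNReal.ofReal (2 * ε) := by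
    rw [union_empty]
    have h2 := sum_cost (A := A) (b := b) hA hDc hdis hM₀ hhigh (measurableSet_collapsed hC)
    have h3 : ENNReal.ofReal M₀ * volume {y | y ∈ Λ ∧ T y ∈ X} ≤ ENNReal.ofReal (ε / 4) := by
      calc _ ≤ ENNReal.ofReal M₀ * (ENNReal.ofReal (3 * h) * volume Λ) := by
            gcongr; exact volume_collapsed hC hvol
        _ = ENNReal.ofReal (M₀ * (3 * h * vΛ)) := by
            rw [hvv, ← ENNReal.ofReal_mul (by positivity), ← ENNReal.ofReal_mul hM₀.le]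
        _ ≤ _ := ENNReal.ofReal_le_ofReal hh3
    refine (cost_le (fun y hy => S.act_sub hy) Ad.vol (h2.trans (add_le_add h3 le_rfl))).trans ?_
    rw [← ENNReal.ofReal_add (by positivity) (by positivity),
      ← ENNReal.ofReal_add (by positivity) (by positivity)]
    exact ENNReal.ofReal_le_ofReal (by linarith)
  obtain ⟨κ', n', w', HTgt⟩ := S.tgt (ε := 2 * ε) (ε₁ := ε) (Zo := ∅)
    (Lc := fun M => 28 * 4 ^ 9 * 4 * L M + 2 * 2 ^ 9 / r0 M) (α := α) (W := W) (δt := δt) hA hDΛ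
    (empty_subset _)
    (fun y hy hX _ => by
      obtain ⟨w, hw⟩ := hC.aff {T y} (by
        rintro _ rfl
        exact ⟨hC.maps hy, hX⟩) isPreconnected_singleton
      have h2 := hw y rfl
      filter_upwards [h2] with y' h4
      rw [h4, h2.self_of_nhds]
      have e1 : ((1 + h) • y' - w) - ((1 + h) • y - w) - (y' - y) = h • (y' - y) := by module
      rw [e1, norm_smul, Real.norm_of_nonneg hC.h0]
      gcongr
      linarith)
    (fun y hy => hT y hy)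
    (fun y hy => ⟨(Ad.close y hy).trans (min_le_left _ _),
      ((Ad.close y hy).trans (min_le_right _ _)).trans (by linarith)⟩) (by linarith)
    (fun k => ⟨hrL.pos _, hrL.le _⟩)
    (fun k => by
      have : 0 ≤ 2 * 2 ^ 9 / r0 (A k) := by
        have := hrL.pos (A k)
        positivity
      linarith)
    (fun k => by
      have := hrL.one (A k)
      have : 0 ≤ 28 * 4 ^ 9 * 4 * L (A k) := by positivity
      linarith) hcost hcostC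
  rw [union_empty] at HTgt
  exact ⟨ρ, _, _, κ', n', w', _, _, _, Tt, HTgt⟩

end Vale.Agent.P073.H851
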