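import Vale.Agent.P073.H267.K3Ex2
import Vale.Agent.P073.H805.Marks2
import Vale.Agent.P073.H212.MuT

/-!
# P073, [K3-TOP], slot (0) of the numbers: the windows

`Jw s = 2048 ω3S`, `Rw s = 131072 ω3S`, `r = 1 / 63`.
-/

set_option linter.unusedSectionVars false

open Set Metric Topology Filter

namespace Vale.Agent.P073.H851

open _root_.P073 _root_.P073.Net _root_.P073.PA691 _root_.P073.H236
open _root_.P073.H345 (PK tg PLev)
open _root_.P073.H429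
open Vale.Agent.P073.St (V)
open Vale.Agent.P073.H471 Vale.Agent.P073.H267 Vale.Agent.P073.H267.K3
open Vale.Agent.P073.H73 (Mesh)
open Vale.Agent.P073.H926
open Vale.Agent.P073.H687
open Vale.Agent.P073.H212.K3 (muT win_muT)

variable {c₀ n δ : ℝ} {j : ℕ} {Ω Λ : Set V} {v w : V} {ρ : V → ℝ} {M : Mesh Ω} {h : ConHomeo Ω Λ}
  {J₀ J : Set (ℕ × (Fin 3 → ℤ))} {P Z : Set M.ι} {K : BoxCx Λ w}

/-- half widths of the gaps -/
noncomputable def Jw (δ : ℝ) (C : Cells ρ w K) (s : K.S) : ℝ := 2048 * ω3S δ C s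

/-- half widths of the windows -/
noncomputable def Rw (δ : ℝ) (C : Cells ρ w K) (s : K.S) : ℝ := 131072 * ω3S δ C s

variable (D : KIn3 c₀ n j δ v w ρ M h J₀ J P Z) (C : Cells ρ w K)

include D

theorem Jw_pos (s : K.S) : 0 < Jw δ C s := by
  have := D.ω3S_pos C s
  unfold Jw; positivity

theorem Jw_lt (s : K.S) : Jw δ C s < Rw δ C s := by
  have := D.ω3S_pos C s
  unfold Jw Rw; linarith

theorem Jw_r (s : K.S) : Jw δ C s ≤ 1 / 63 * (Rw δ C s - Jw δ C s) := by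
  have := D.ω3S_pos C s
  unfold Jw Rw; linarith

theorem Rw_eq (s : K.S) : Rw δ C s = 131072 * ω3S δ C s := rfl

/-- the ends of the related boxes -/
theorem fat_Jw {s : K.S} {l : Fin 3} {b : TBx K} (hb : Vale.Agent.P073.H669.Rel s l b) :
    2048 * ω3T δ C b ≤ Jw δ C s ∧ 31 * ω3T δ C b ≤ Jw δ C s := by
  have h1 := (D.ω3T_le_S C hb).1
  have h2 := D.ω3T_pos C b
  have h3 := D.ω3S_pos C s
  unfold Jw
  constructor <;> linarith

/-- the displacements of ROUND P are smaller than the slabs -/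
theorem om_Jw (s : K.S) {q : K.T} (hq : q = K.sm s ∨ q = K.sp s) {μ : ℝ} (hμ : μ ≤ Jw δ C s) :
    μ + Jw δ C s ≤ (D.G C).om q := by
  have h1 := D.ω3S_om C hq
  have h2 := D.ω3S_pos C s
  unfold Jw at *
  linarith

/-- the windows are paid by the thin bands of the tubes -/
theorem Rw_muT (hδn : 4096 * δ ≤ n * δ3 n) {e : K.G} {s : K.S} (hes : K.edge e ⊆ K.sq s) :
    32 * Rw δ C s ≤ muT D C e / 32 * (ebe (D.W C) e - eal (D.W C) e) :=
  win_muT D C e hδn hes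

/-- **[TOP-W]**: the marks -/
theorem exists_marksW : ∃ Q : K.S → Bool → Finset ℝ, Marks (D.G C) (Jw δ C) (Rw δ C) Q :=
  D.exists_marksN C (by norm_num) (by norm_num) (by norm_num)

/-- **[TOP-W]**, in one statement: the inputs of `exists_s2` which concern the windows -/
theorem exists_win (hδn : 4096 * δ ≤ n * δ3 n) :
    ∃ (J' R : K.S → ℝ) (Q : K.S → Bool → Finset ℝ) (r : ℝ), Marks (D.G C) J' R Q ∧ 0 ≤ r ∧
      r ≤ 1 / 7 ∧ (∀ s, 0 < J' s) ∧ (∀ s, J' s < R s) ∧ (∀ s, J' s ≤ r * (R s - J' s)) ∧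
      (∀ s l (b : TBx K), Vale.Agent.P073.H669.Rel s l b →
        2048 * ω3T δ C b ≤ J' s ∧ 31 * ω3T δ C b ≤ J' s) ∧
      (∀ s, J' s = 2048 * ω3S δ C s) ∧ (∀ s, R s = 131072 * ω3S δ C s) ∧
      (∀ s (q : K.T), q = K.sm s ∨ q = K.sp s → ∀ μ ≤ J' s, μ + J' s ≤ (D.G C).om q) ∧
      ∀ (b : pG C J₀) (s : K.S), K.edge b.1 ⊆ K.sq s →
        32 * R s ≤ muT D C b.1 / 32 * (ebe (D.W C) b.1 - eal (D.W C) b.1) := by
  obtain ⟨Q, hQ⟩ := exists_marksW D C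
  exact ⟨Jw δ C, Rw δ C, Q, 1 / 63, hQ, by norm_num, by norm_num, Jw_pos D C, Jw_lt D C, Jw_r D C,
    fun s l b hb => fat_Jw D C hb, fun _ => rfl, fun _ => rfl,
    fun s q hq μ hμ => om_Jw D C s hq hμ, fun b s hs => Rw_muT D C hδn hs⟩

omit D in
/-- the displacement of the staircases of ROUND P -/
theorem D_le_om {D : KIn3 c₀ n j δ v w ρ M h J₀ J P Z} {C : Cells ρ w K} {C₀ μT : ℝ}
    {X : S1 D C C₀ μT} {Y₂ : S2 X} {Ys : Set M.κ} {sc : Sharp} (Y₃ : S3 Y₂ Ys sc)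
    (hJ : Y₂.J = Jw δ C) (β : Bool) (s : (D.dat C).S₀) {q : K.T}
    (hq : q = K.sm s.1 ∨ q = K.sp s.1) : (Y₃.F β).D s ≤ (D.G C).om q := by
  have h1 := Y₂.muJ s.1
  have h2 := om_Jw D C s.1 hq (μ := Y₂.muP s.1) (by rw [← hJ]; exact h1)
  have h3 : (Y₃.F β).D s = Y₂.muP s.1 + Y₂.J s.1 := rfl
  rw [h3, hJ]
  exact h2

end Vale.Agent.P073.H851
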