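import Vale.Agent.P073.H851.TTot

/-!
# P073, [LOCLIN] with constants which depend only on a bound of the matrix and of its inverse
-/

open Set Metric Topology Filter Matrix

namespace Vale.Agent.P073.H851

open _root_.P073 _root_.P073.Net
open Vale.Agent.P073.St (V)

/-- the conclusion of [LOCLIN] for the range `[r1, r0]` -/
def LocU (M : M3) (e r0 r1 L : ℝ) : Prop :=
  (e = 1 ∨ e = -1) ∧ (∀ y : V, r0 * ‖M *ᵥ y‖ ≤ 1 / 4 * ‖y‖) ∧
    ∀ r, r1 ≤ r → r ≤ r0 → ∀ q : V, ‖q‖ ≤ 1 / 4 →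
    ∃ δ : ConHomeo (univ : Set V) univ, LH L δ ∧
      ∀ y : V, ‖y‖ ≤ 7 / 8 → δ.toFun y = r • ((M * SS e) *ᵥ y) + q

theorem LocU.mono {M : M3} {e r0 r1 L r0' L' : ℝ} (h : LocU M e r0 r1 L) (h0 : r0' ≤ r0)
    (hL : L ≤ L') : LocU M e r0' r1 L' := by
  obtain ⟨he, hb, h⟩ := h
  refine ⟨he, fun y => (mul_le_mul_of_nonneg_right h0 (norm_nonneg _)).trans (hb y),
    fun r h1 h2 q hq => ?_⟩
  obtain ⟨δ, hδ, hd⟩ := h r h1 (h2.trans h0) q hq
  exact ⟨δ, hδ.mono hL, hd⟩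

/-- uniform constants on a set of matrices -/
def UnifOn (S : Set M3) : Prop := ∃ r0 : ℝ, 0 < r0 ∧ r0 ≤ 1 ∧ ∀ r1, 0 < r1 → ∃ L : ℝ, ∀ M ∈ S,
  ∃ e, LocU M e r0 r1 L

theorem UnifOn.union {S S' : Set M3} (h : UnifOn S) (h' : UnifOn S') : UnifOn (S ∪ S') := by
  obtain ⟨r0, hr, hr1, H⟩ := h
  obtain ⟨r0', hr', hr1', H'⟩ := h'
  refine ⟨min r0 r0', lt_min hr hr', (min_le_left _ _).trans hr1, fun r1 hr1 => ?_⟩
  obtain ⟨L, hL⟩ := H r1 hr1
  obtain ⟨L', hL'⟩ := H' r1 hr1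
  refine ⟨max L L', ?_⟩
  rintro M (hM | hM)
  · obtain ⟨e, he⟩ := hL M hM
    exact ⟨e, he.mono (min_le_left _ _) (le_max_left _ _)⟩
  · obtain ⟨e, he⟩ := hL' M hM
    exact ⟨e, he.mono (min_le_right _ _) (le_max_right _ _)⟩

theorem UnifOn.mono {S S' : Set M3} (h : UnifOn S) (hs : S' ⊆ S) : UnifOn S' := by
  obtain ⟨r0, hr, hr1, H⟩ := h
  refine ⟨r0, hr, hr1, fun r1 hr1 => ?_⟩
  obtain ⟨L, hL⟩ := H r1 hr1
  exact ⟨L, fun M hM => hL M (hs hM)⟩

theorem unifOn_empty : UnifOn ∅ := ⟨1, one_pos, le_rfl, fun _ _ => ⟨0, fun _ h => absurd h (by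
  simp)⟩⟩

/-- a matrix with small entries -/
theorem mulVec_le_of_entries {B : M3} {t : ℝ} (ht : 0 ≤ t) (h : ∀ i j, |B i j| ≤ t) (y : V) :
    ‖B *ᵥ y‖ ≤ 3 * t * ‖y‖ := by
  rw [pi_norm_le_iff_of_nonneg (by positivity)]
  intro i
  rw [Matrix.mulVec, dotProduct, Real.norm_eq_abs]
  refine (Finset.abs_sum_le_sum_abs _ _).trans ?_
  calc ∑ j, |B i j * y j| ≤ ∑ _j : Fin 3, t * ‖y‖ := by
        refine Finset.sum_le_sum fun j _ => ?_
        rw [abs_mul]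
        have := norm_le_pi_norm y j
        rw [Real.norm_eq_abs] at this
        exact mul_le_mul (h i j) this (abs_nonneg _) ht
    _ = 3 * t * ‖y‖ := by simp; ring

/-- **uniformity near a matrix** -/
theorem unifOn_nhds (M0 : M3) (hM : M0.det ≠ 0) : ∃ U ∈ 𝓝 M0, UnifOn U := by
  obtain ⟨e, he, r, hr, L, Ψ, hΨ, h1⟩ := exists_good M0 hM
  have he1 : |e| = 1 := by rcases he with h | h <;> simp [h]
  obtain ⟨C, hC, hb⟩ := exists_mulVec_le (M0 * SS e)
  -- the relative error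
  obtain ⟨B, hB⟩ : ∃ B : M3 → M3, B = fun M => M0⁻¹ * M := ⟨_, rfl⟩
  have hB0 : B M0 = 1 := by
    rw [hB]; exact Matrix.nonsing_inv_mul M0 (isUnit_iff_ne_zero.2 hM)
  have hBM : ∀ M, M = M0 * B M := by
    intro M
    rw [hB]
    show M = M0 * (M0⁻¹ * M)
    rw [← Matrix.mul_assoc, Matrix.mul_nonsing_inv M0 (isUnit_iff_ne_zero.2 hM), Matrix.one_mul]
  have hBc : Continuous B := by rw [hB]; exact continuous_const.matrix_mul continuous_id
  have hev : ∀ᶠ M in 𝓝 M0, ∀ i j, |(B M - 1) i j| ≤ 1 / 6 := by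
    rw [eventually_all]
    intro i
    rw [eventually_all]
    intro j
    have h2 : Continuous fun M => |(B M - 1) i j| :=
      ((hBc.sub continuous_const).matrix_elem i j).abs
    have h3 := h2.tendsto M0
    rw [hB0, sub_self, Matrix.zero_apply, abs_zero] at h3
    exact (h3.eventually (gt_mem_nhds (show (0:ℝ) < 1 / 6 by norm_num))).mono fun M hM => hM.le
  refine ⟨_, hev, min (min (1 / 2) (2 / 3 * r)) (1 / (6 * C)), by positivity,
    (min_le_left _ _).trans ((min_le_left _ _).trans (by norm_num)), fun r1 hr1 => ?_⟩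
  obtain ⟨L1, hL1⟩ := exists_contraction hr1
  refine ⟨2 * (L * (2 * L1)), fun M hMU => ⟨e, he, fun y => ?_, fun s hs1 hs0 q hq => ?_⟩⟩
  · have hE : ‖(B M - 1) *ᵥ y‖ ≤ 1 / 2 * ‖y‖ := by
      have := mulVec_le_of_entries (by norm_num) hMU y
      linarith
    have h3 := hb (SS e *ᵥ (B M *ᵥ y))
    rw [Matrix.mulVec_mulVec, Matrix.mul_assoc, SS_mul_self he1, Matrix.mul_one,
      SS_mulVec_norm he1, Matrix.mulVec_mulVec, ← hBM] at h3
    have h4 : ‖B M *ᵥ y‖ ≤ 3 / 2 * ‖y‖ := by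
      have e1 : B M *ᵥ y = y + (B M - 1) *ᵥ y := by
        rw [Matrix.sub_mulVec, Matrix.one_mulVec]; abel
      rw [e1]
      exact (norm_add_le _ _).trans (by linarith)
    calc _ ≤ 1 / (6 * C) * (C * (3 / 2 * ‖y‖)) := by
          refine mul_le_mul (min_le_right _ _) (h3.trans (by gcongr)) (norm_nonneg _)
            (by positivity)
      _ = 1 / 4 * ‖y‖ := by field_simp; ring
  · -- the conjugated error
    obtain ⟨E, hE⟩ : ∃ E : M3, E = SS e * (B M - 1) * SS e := ⟨_, rfl⟩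
    have hEn : ∀ y : V, ‖E *ᵥ y‖ ≤ 1 / 2 * ‖y‖ := by
      intro y
      have h2 := mulVec_le_of_entries (by norm_num) hMU (SS e *ᵥ y)
      rw [SS_mulVec_norm he1] at h2
      rw [hE, ← Matrix.mulVec_mulVec, ← Matrix.mulVec_mulVec, SS_mulVec_norm he1]
      linarith
    have hME : M * SS e = (M0 * SS e) * (1 + E) := by
      rw [hE]
      have h2 : SS e * (B M - 1) * SS e = SS e * B M * SS e - 1 := by
        rw [Matrix.mul_sub, Matrix.sub_mul, Matrix.mul_one, SS_mul_self he1]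
      rw [h2, add_sub_cancel, Matrix.mul_assoc M0, ← Matrix.mul_assoc (SS e),
        ← Matrix.mul_assoc (SS e), SS_mul_self he1, Matrix.one_mul, ← Matrix.mul_assoc, ← hBM]
    have hs2 : s ≤ 1 / 2 := hs0.trans ((min_le_left _ _).trans (min_le_left _ _))
    have hsr : s ≤ 2 / 3 * r := hs0.trans ((min_le_left _ _).trans (min_le_right _ _))
    have hsC : s * (6 * C) ≤ 1 := by
      have := hs0.trans (min_le_right _ _)
      rwa [le_div_iff₀ (by positivity)] at this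
    have hsp : 0 < s := hr1.trans_le hs1
    obtain ⟨Ψ1, hΨ1, h2⟩ := hL1 s hs1 (by linarith)
    obtain ⟨Ψ3, hΨ3, h4⟩ := exists_nid (F := fun y => E *ᵥ y)
      (fun x y => by rw [← Matrix.mulVec_sub]; exact hEn _) (conicalOn_mulVec _)
    obtain ⟨Ψ2, hΨ2, h3⟩ := exists_nid (F := fun _ => q) (fun x y => by
      rw [sub_self, norm_zero]; positivity) (conicalOn_const q (IsOpen.conicalSet isOpen_univ))
    refine ⟨((Ψ1.trans Ψ3).trans Ψ).trans Ψ2, ((hΨ1.trans hΨ3).trans hΨ).trans hΨ2,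
      fun y hy => ?_⟩
    show Ψ2.toFun (Ψ.toFun (Ψ3.toFun (Ψ1.toFun y))) = _
    have hsy : ‖s • y‖ ≤ s * (7 / 8) := by
      rw [norm_smul, Real.norm_of_nonneg hsp.le]; gcongr
    have k1 : Ψ3.toFun (s • y) = (1 + E) *ᵥ (s • y) := by
      rw [h4, Matrix.add_mulVec, Matrix.one_mulVec]
      exact (hEn _).trans (by linarith)
    have k2 : ‖(1 + E) *ᵥ (s • y)‖ ≤ 3 / 2 * (s * (7 / 8)) := by
      rw [Matrix.add_mulVec, Matrix.one_mulVec]
      refine (norm_add_le _ _).trans ?_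
      linarith [hEn (s • y)]
    have k3 := hb ((1 + E) *ᵥ (s • y))
    have k4 : C * ‖(1 + E) *ᵥ (s • y)‖ ≤ C * (3 / 2 * (s * (7 / 8))) := by gcongr
    have k5 : ‖q‖ ≤ (1 - ‖(M0 * SS e) *ᵥ ((1 + E) *ᵥ (s • y))‖) / 2 := by
      linarith
    have k6 : (M0 * SS e) *ᵥ ((1 + E) *ᵥ (s • y)) = s • ((M * SS e) *ᵥ y) := by
      rw [hME, Matrix.mulVec_mulVec, Matrix.mulVec_smul]
    rw [h2 y hy, k1, h1 _ (k2.trans (by linarith)), h3 _ k5, k6]

/-- the matrices with bounds -/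
def bddM (m : ℝ) : Set M3 := {M | (∀ y : V, ‖M *ᵥ y‖ ≤ m * ‖y‖) ∧ ∀ y : V, ‖y‖ ≤ m * ‖M *ᵥ y‖}

theorem det_ne_zero_of_bdd {m : ℝ} {M : M3} (h : M ∈ bddM m) : M.det ≠ 0 := by
  intro h0
  obtain ⟨y, hy, hy0⟩ := Matrix.exists_mulVec_eq_zero_iff.2 h0
  have := h.2 y
  rw [hy0, norm_zero, mul_zero] at this
  exact hy (norm_le_zero_iff.1 this)

theorem isCompact_bddM (m : ℝ) : IsCompact (bddM m) := by
  have hbox : IsCompact {M : M3 | ∀ i j, M i j ∈ Icc (-m) m} := by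
    have h1 : IsCompact (Set.pi (univ : Set (Fin 3)) fun _ => Set.pi (univ : Set (Fin 3))
        fun _ => Icc (-m) m) :=
      isCompact_univ_pi fun i => isCompact_univ_pi fun j => isCompact_Icc
    have h2 : {M : M3 | ∀ i j, M i j ∈ Icc (-m) m} = Set.pi (univ : Set (Fin 3))
        fun _ => Set.pi (univ : Set (Fin 3)) fun _ => Icc (-m) m :=
      Set.ext fun M => ⟨fun h i _ j _ => h i j, fun h i j => h i (mem_univ i) j (mem_univ j)⟩
    rw [h2]
    exact h1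
  refine hbox.of_isClosed_subset ?_ ?_
  · have hc : ∀ y : V, Continuous fun M : M3 => ‖M *ᵥ y‖ := fun y =>
      (continuous_id.matrix_mulVec continuous_const).norm
    have : bddM m = (⋂ y : V, {M | ‖M *ᵥ y‖ ≤ m * ‖y‖}) ∩ ⋂ y : V, {M | ‖y‖ ≤ m * ‖M *ᵥ y‖} := by
      ext M; simp [bddM]
    rw [this]
    exact (isClosed_iInter fun y => isClosed_le (hc y) continuous_const).inter
      (isClosed_iInter fun y => isClosed_le continuous_const ((hc y).const_mul m))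
  · intro M hM i j
    have h1 := hM.1 (Pi.single j 1)
    have h2 := norm_le_pi_norm (M *ᵥ Pi.single j 1) i
    rw [Matrix.mulVec_single_one, Matrix.col_apply, Real.norm_eq_abs] at h2
    have h3 : ‖(Pi.single j 1 : V)‖ ≤ 1 := by
      rw [pi_norm_le_iff_of_nonneg zero_le_one]
      intro l
      rcases eq_or_ne l j with h | h
      · subst h; simp
      · simp [Pi.single_eq_of_ne h]
    have hm : 0 ≤ m := by
      have h4 := (norm_nonneg _).trans h1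
      have h5 : (0:ℝ) < ‖(Pi.single j 1 : V)‖ := by
        rw [norm_pos_iff]
        intro h6
        have := congrFun h6 j
        simp at this
      by_contra hneg
      push Not at hneg
      nlinarith
    have h4 : |M i j| ≤ m := by
      rw [Matrix.mulVec_single_one] at h1
      nlinarith
    exact abs_le.1 h4

/-- **[LOCLIN], uniform**: the constants depend only on the bound `m` -/
theorem exists_locData_unif (m : ℝ) : ∃ r0 L : ℝ, 0 < r0 ∧ ∀ M ∈ bddM m, ∃ e, LocData M e r0 L := by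
  have h : UnifOn (bddM m) := by
    refine (isCompact_bddM m).induction_on (p := UnifOn) unifOn_empty (fun _ _ h h' => h'.mono h)
      (fun _ _ => UnifOn.union) fun M hM => ?_
    obtain ⟨U, hU, h⟩ := unifOn_nhds M (det_ne_zero_of_bdd hM)
    exact ⟨U, mem_nhdsWithin_of_mem_nhds hU, h⟩
  obtain ⟨r0, hr0, hr1, H⟩ := h
  obtain ⟨L, hL⟩ := H (r0 / 2) (by positivity)
  refine ⟨r0, L, hr0, fun M hM => ?_⟩
  obtain ⟨e, he, hb, hd⟩ := hL M hM
  exact ⟨e, ⟨he, hr0, hr1, hb, hd⟩⟩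

theorem mul_mem_bddM {a m : ℝ} (ha : 0 ≤ a) {M A : M3} (hM : M ∈ bddM a) (hA : A ∈ bddM m) :
    M * A ∈ bddM (a * m) := by
  constructor
  · intro y
    rw [← Matrix.mulVec_mulVec]
    refine (hM.1 _).trans ?_
    rw [mul_assoc]
    exact mul_le_mul_of_nonneg_left (hA.1 y) ha
  · intro y
    rw [← Matrix.mulVec_mulVec]
    by_cases hm : 0 ≤ m
    · refine (hA.2 y).trans ?_
      rw [mul_comm a m, mul_assoc]
      exact mul_le_mul_of_nonneg_left (hM.2 _) hm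
    · exfalso
      push Not at hm
      have h1 := hA.1 (fun _ => 1)
      have h2 : (0:ℝ) < ‖(fun _ => 1 : V)‖ := by
        rw [norm_pos_iff]
        intro h
        have := congrFun h 0
        simp at this
      nlinarith [norm_nonneg (A *ᵥ (fun _ => 1 : V))]

/-- **the constants of [TTOT]**: they depend only on the bound `m` of the matrices of the boxes -/
theorem exists_locData_boxes (m : ℝ) : ∃ r0 L : ℝ, 0 < r0 ∧ r0 ≤ 1 ∧ 1 ≤ L ∧
    ∀ (ι K : Type) (M : ι → M3) (A : K → M3),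
      (∀ i y, ‖M i *ᵥ y‖ ≤ 2 * ‖y‖ ∧ ‖y‖ ≤ 2 * ‖M i *ᵥ y‖) → (∀ k, A k ∈ bddM m) →
      ∀ i k, ∃ e, LocData (M i * A k) e r0 L := by
  obtain ⟨r0, L, hr0, h⟩ := exists_locData_unif (2 * m)
  by_cases hne : (bddM (2 * m)).Nonempty
  · obtain ⟨M, hM⟩ := hne
    obtain ⟨e, LD⟩ := h M hM
    exact ⟨r0, L, hr0, LD.le, LD.one_le, fun ι K M A hM hA i k =>
      h _ (mul_mem_bddM (by norm_num) ⟨fun y => (hM i y).1, fun y => (hM i y).2⟩ (hA k))⟩
  · refine ⟨1, 1, one_pos, le_rfl, le_rfl, fun ι K M A hM hA i k => ?_⟩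
    exact absurd ⟨_, mul_mem_bddM (by norm_num) ⟨fun y => (hM i y).1, fun y => (hM i y).2⟩
      (hA k)⟩ hne

/-- one pair of constants for `M * A`, `A` fixed and `M` almost an isometry -/
theorem exists_locData_det (A : M3) (hA : A.det ≠ 0) : ∃ r0 L : ℝ, 0 < r0 ∧ r0 ≤ 1 ∧ 1 ≤ L ∧
    ∀ M : M3, (∀ y : V, ‖M *ᵥ y‖ ≤ 2 * ‖y‖ ∧ ‖y‖ ≤ 2 * ‖M *ᵥ y‖) →
      ∃ e, LocData (M * A) e r0 L := by
  obtain ⟨m, hm⟩ : ∃ m, A ∈ bddM m := by
    obtain ⟨a, ha⟩ : ∃ a : ℝ, ∀ y : V, ‖A *ᵥ y‖ ≤ a * ‖y‖ :=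
      ⟨‖(Matrix.mulVecLin A).toContinuousLinearMap‖,
        fun y => (Matrix.mulVecLin A).toContinuousLinearMap.le_opNorm y⟩
    obtain ⟨b, hb⟩ : ∃ b : ℝ, ∀ y : V, ‖A⁻¹ *ᵥ y‖ ≤ b * ‖y‖ :=
      ⟨‖(Matrix.mulVecLin A⁻¹).toContinuousLinearMap‖,
        fun y => (Matrix.mulVecLin A⁻¹).toContinuousLinearMap.le_opNorm y⟩
    refine ⟨max a b, fun y => ?_, fun y => ?_⟩
    · exact (ha y).trans (mul_le_mul_of_nonneg_right (le_max_left _ _) (norm_nonneg _))
    · have h1 := hb (A *ᵥ y)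
      rw [Matrix.mulVec_mulVec, Matrix.nonsing_inv_mul _ (isUnit_iff_ne_zero.2 hA),
        Matrix.one_mulVec] at h1
      exact h1.trans (mul_le_mul_of_nonneg_right (le_max_right _ _) (norm_nonneg _))
  obtain ⟨r0, L, h1, h2, h3, h4⟩ := exists_locData_boxes m
  refine ⟨r0, L, h1, h2, h3, fun M hM => ?_⟩
  exact h4 Unit Unit (fun _ => M) (fun _ => A) (fun _ => hM) (fun _ => hm) () ()

end Vale.Agent.P073.H851
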