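import Vale.Agent.P073.H851.BoxCellA
import Vale.Agent.P073.AB.Tiles907
import Vale.Agent.P073.H399.Close

/-!
# P073, [BOX-CELL]: the filler on a box with `A = id`
-/

open MeasureTheory Set Filter Topology Metric
open scoped ENNReal

namespace Vale.Agent.P073.H851.BC

open Vale.Agent.P073.St (V)
open Vale.Agent.P073.SQ (ev)
open Vale.Agent.P073.AB
open Vale.Agent.P073.H333 (dvar_one dvar_one_zero)
open Vale.Agent.P073.H732 (conical_diff conical_edge)
open _root_.P073 (ConHomeo ConicalOn)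
open _root_.P073.Net (dyc dyo)
open _root_.P073.Gauge (gam dvar CellHyp CellOut)
open _root_.P073.Gauge.C110 (mem_edge_iff interior_dyc)

/-- the crossing pieces -/
theorem eInt_conjb_le {O O' : Set V} (hO : IsOpen O) (hO' : IsOpen O') {a v : V} {r D : ℝ}
    (hD : 0 ≤ D) (h' : ConHomeo (SM a r D '' O) (SM a r D '' O')) {e' e₂ : Idx × Fin 3}
    (hS : ∀ t ∈ Icc (0:ℝ) 1, SM a r D (gam v e' t) = gam a e₂ t) (he' : edge v e' ⊆ O) :
    eInt v e' (fun x => ENNReal.ofReal
      ‖lineDeriv ℝ (conjb a r hD hO hO' h').toFun x (ev e'.2)‖) ≤ dvar 1 h'.toFun a e₂ 0 := by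
  rw [← dvar_one_zero, dvar_one', dvar_one', ← restrict_Ioo_eq_restrict_Icc]
  apply lintegral_mono_ae
  rw [ae_restrict_iff' measurableSet_Ioo]
  have he₂ : edge a e₂ ⊆ SM a r D '' O := by
    intro y hy
    obtain ⟨t, ht, rfl⟩ := mem_edge_iff.1 hy
    rw [← hS t ht]
    exact ⟨_, he' (mem_edge_gam ht), rfl⟩
  filter_upwards [(conical_diff (conical_edge h' he₂)).countable.ae_notMem volume,
    (conical_diff (conical_edge (conjb a r hD hO hO' h') he')).countable.ae_notMem volume]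
    with t ht1 ht2 htI
  have hd1 : DifferentiableAt ℝ (fun t => h'.toFun (gam a e₂ t)) t := by
    by_contra hn; exact ht1 ⟨htI, hn⟩
  have hd2 : DifferentiableAt ℝ (fun t => (conjb a r hD hO hO' h').toFun (gam v e' t)) t := by
    by_contra hn; exact ht2 ⟨htI, hn⟩
  rw [sub_zero, sub_zero]
  refine ENNReal.ofReal_le_ofReal ((pi_norm_le_iff_of_nonneg (norm_nonneg _)).2 fun j => ?_)
  have h1 := hasDerivAt_pi.1 hd1.hasDerivAt j
  have h2 := hasDerivAt_pi.1 hd2.hasDerivAt j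
  have h3 : HasDerivAt (fun s => sgi (a j) r D (h'.toFun (gam a e₂ s) j))
      (deriv (fun t => (conjb a r hD hO hO' h').toFun (gam v e' t)) t j) t := by
    refine h2.congr_of_eventuallyEq ?_
    filter_upwards [isOpen_Ioo.mem_nhds htI] with u hu
    rw [← hS u (Ioo_subset_Icc_self hu)]
    rfl
  have h4 := abs_deriv_le_of_lip zero_le_one
    (fun x y => by rw [one_mul]; exact abs_sgi_sub_le hD x y) h1 h3
  rw [one_mul] at h4
  rw [Real.norm_eq_abs]
  exact h4.trans (by rw [← Real.norm_eq_abs]; exact norm_le_pi_norm _ j)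

/-- **[BOX-CELL]** -/
theorem boxCell : H605.BoxCell := by
  obtain ⟨C, hC0, hC⟩ := _root_.P073.H399.specCellE 1 1 1 le_rfl one_pos one_pos
  refine ⟨C, hC0, fun b k₁ hk₁ => ?_⟩
  obtain ⟨k₀, κ', hκ'0, hK⟩ := hC k₁ hk₁
  set κ : ℝ := min κ' 1 / 20 with hκ
  have hκ0 : 0 < κ := by
    have := lt_min hκ'0 one_pos
    positivity
  have hκ1 : 20 * κ ≤ κ' := by
    have := min_le_left κ' 1
    rw [hκ]; linarith
  have hκ2 : 20 * κ ≤ 1 := by
    have := min_le_right κ' 1
    rw [hκ]; linarith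
  refine ⟨k₀, κ, hκ0, ?_⟩
  intro O O' g v N m α hO hO' hOb hbN hm1 hm2 hk₁b hCO hclose hl1
  obtain ⟨d, hmd⟩ : ∃ d, m + d = 2 ^ b := ⟨2 ^ b - m, by omega⟩
  have hdm : d = 0 ∨ d + 2 ≤ m := by
    rcases Nat.eq_zero_or_pos b with rfl | hb0
    · left
      simp only [pow_zero] at hm1 hm2 hmd
      omega
    · right
      obtain ⟨b', rfl⟩ : ∃ b', b = b' + 1 := ⟨b - 1, by omega⟩
      rw [pow_succ] at hm1 hm2 hmd
      omega
  have hmpos : 1 ≤ m := by
    have : 0 < 2 ^ b := by positivity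
    omega
  have hD : (0:ℝ) ≤ d / 2 ^ N := D_nonneg N d
  set a : V := pt v N α with ha
  set S : V → V := SM a (1 / 2 ^ N) (d / 2 ^ N) with hS
  have hNM : N + 2 ≤ N - b + k₁ := by omega
  have hNF : N ≤ N - b + k₁ + k₀ := by omega
  have hFp : (0:ℝ) < 2 ^ (N - b + k₁ + k₀) := by positivity
  have hMp : (0:ℝ) < 2 ^ (N - b + k₁) := by positivity
  have hMF : (1:ℝ) / 2 ^ (N - b + k₁ + k₀) ≤ 1 / 2 ^ (N - b + k₁) := by
    apply one_div_le_one_div_of_le hMp
    exact pow_le_pow_right₀ one_le_two (by omega)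
  have hMN : (4:ℝ) / 2 ^ (N - b + k₁) ≤ 1 / 2 ^ N := by
    have h1 : (2:ℝ) ^ (N + 2) ≤ 2 ^ (N - b + k₁) := pow_le_pow_right₀ one_le_two hNM
    rw [pow_add] at h1
    rw [div_le_div_iff₀ hMp (by positivity)]
    linarith
  have hM1 : (1:ℝ) / 2 ^ (N - b + k₁) ≤ 1 / 2 ^ N := by
    refine le_trans ?_ hMN
    gcongr; norm_num
  have hM2 : (2:ℝ) / 2 ^ (N - b + k₁) ≤ 1 / 2 ^ N := by
    refine le_trans ?_ hMN
    gcongr; norm_num
  have hbox0 : H605.sbox v N α m 0 ⊆ O := by
    refine fun x hx => hCO fun i => ?_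
    have h1 := hx i
    have h2 : (0:ℝ) < 4 / 2 ^ (N - b + k₁) := by positivity
    constructor <;> linarith [h1.1, h1.2]
  -- the conjugate
  have hO1 : IsOpen (S '' O) := isOpen_image_SM hD hO
  have hO1' : IsOpen (S '' O') := isOpen_image_SM hD hO'
  have hO1b : Bornology.IsBounded (S '' O) := by
    have hlip : LipschitzWith 2 S := LipschitzWith.of_dist_le_mul fun x y => by
      rw [dist_eq_norm, dist_eq_norm]
      exact norm_SM_sub_le x y
    exact hlip.isBounded_image hOb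
  have hne1 : (S '' O).Nonempty := by
    refine ⟨S a, a, hbox0 fun i => ?_, rfl⟩
    have h1 : (0:ℝ) ≤ m / 2 ^ N := by positivity
    simp only [ha, pt, add_zero, sub_zero]
    rw [add_div]
    constructor <;> linarith
  have hnec : ((S '' O)ᶜ).Nonempty := by
    rw [nonempty_compl]
    intro hcon
    rw [hcon] at hO1b
    exact NormedSpace.unbounded_univ ℝ V hO1b
  obtain ⟨-, hPart, -, -, hT⟩ := specTiles (S '' O) (N - b + k₁ + k₀) a hO1 hO1b hne1
  set h : ConHomeo (S '' O) (S '' O') := conj a (1 / 2 ^ N) hD hO hO' g with hh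
  have hcell : ∀ {y : V}, y ∈ dyc a (N - b) 0 → SMi a (1 / 2 ^ N) (d / 2 ^ N) y ∈
      H605.sbox v N α m 0 := fun {y} hy => by
    have := (mem_cell' (v := v) (α := α) hmd hdm hbN (η := 0) (by positivity)).2
      (show y ∈ shrink (pt v N α) (N - b) 0 0 by rw [shrink_zero]; exact hy)
    exact this
  have hdycO : dyc a (N - b) 0 ⊆ S '' O := fun y hy =>
    (mem_image_SM hD).2 (hbox0 (hcell hy))
  -- closeness
  have hcl : ∀ y ∈ dyc a (N - b) 0, ‖h.toFun y - y‖ ≤ 2 * κ / 2 ^ (N - b + k₁ + k₀) := by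
    intro y hy
    have h1 := hclose _ (hcell hy)
    have h2 := norm_SM_sub_le (a := a) (r := 1 / 2 ^ N) (D := d / 2 ^ N)
      (g.toFun (SMi a (1 / 2 ^ N) (d / 2 ^ N) y)) (SMi a (1 / 2 ^ N) (d / 2 ^ N) y)
    rw [SM_SMi hD] at h2
    rw [hh, conj_toFun]
    refine h2.trans ?_
    rw [mul_div_assoc]
    linarith
  have hpow : 4 * (1 / 2 ^ (N - b + k₁ + k₀) : ℝ) ≤ 1 / 2 ^ (N - b) := by
    rw [pow_add, pow_add, ← mul_div_assoc, mul_one, div_le_div_iff₀ (by positivity) (by positivity)]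
    have h3 : (2:ℝ) ^ 2 ≤ 2 ^ k₁ := pow_le_pow_right₀ one_le_two (by omega)
    have h4 : (1:ℝ) ≤ 2 ^ k₀ := one_le_pow₀ one_le_two
    have h5 : (0:ℝ) < 2 ^ (N - b) := by positivity
    have h6 : (4:ℝ) ≤ 2 ^ k₁ * 2 ^ k₀ := by nlinarith
    nlinarith
  have himg : (id : V → V) '' shrink a (N - b) 0 (1 / 2 ^ (N - b + k₁ + k₀)) ⊆
      h.toFun '' dyo a (N - b) 0 := by
    refine H333.shrink_sub_image h hdycO (θ := 1) (L := ContinuousLinearMap.id ℝ V) one_pos
      (fun x y => rfl) (fun w => by rw [one_mul]; exact le_rfl) hcl ?_ hpow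
    rw [one_mul, div_lt_div_iff_of_pos_right hFp]
    linarith
  have hfine : ∀ z', (dyc a (N - b + k₁ + k₀) z' ∩ dyc a (N - b) 0).Nonempty →
      ((N - b + k₁ + k₀, z') : Idx) ∈ tiles (S '' O) (N - b + k₁ + k₀) a := by
    rintro z' ⟨p, hp1, hp2⟩
    apply hT
    intro x hx
    rw [le_infDist hnec]
    intro y hy
    by_contra hcon
    rw [not_le, dist_eq_norm] at hcon
    apply hy
    rw [hS, mem_image_SM hD]
    apply hCO
    show _ ∈ cbx v N α m _
    rw [mem_cell' hmd hdm hbN (by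
      have h1 : (0:ℝ) < 4 / 2 ^ (N - b + k₁) := by positivity
      have h2 : (0:ℝ) < 1 / 2 ^ N := by positivity
      linarith)]
    intro k
    have k1 := hx k
    have k2 := hp1 k
    have k3 := hp2 k
    have k4 := norm_le_pi_norm (x - y) k
    rw [Real.norm_eq_abs, Pi.sub_apply] at k4
    have k5 := abs_le.1 (k4.trans hcon.le)
    have k6 : ((z' k : ℝ) + 1) / 2 ^ (N - b + k₁ + k₀) =
        z' k / 2 ^ (N - b + k₁ + k₀) + 1 / 2 ^ (N - b + k₁ + k₀) := by rw [add_div]
    have k7 : (4:ℝ) / 2 ^ (N - b + k₁) = 4 * (1 / 2 ^ (N - b + k₁)) := by ring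
    have k8 : (0:ℝ) < 1 / 2 ^ (N - b + k₁ + k₀) := by positivity
    have ha' : pt v N α k = a k := rfl
    rw [k6] at k1 k2
    constructor <;> linarith [k1.1, k1.2, k2.1, k2.2, k3.1, k3.2, k5.1, k5.2]
  have hcellh : CellHyp 1 1 1 κ' k₁ k₀ (N - b) (S '' O') a
      (tiles (S '' O) (N - b + k₁ + k₀) a) 0 id (ContinuousLinearMap.id ℝ V) h.toFun := by
    refine ⟨fun x y => rfl, fun w => by rw [one_mul]; exact le_rfl,
      fun w => by rw [one_mul]; exact le_rfl, hfine, ?_, ?_, ?_⟩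
    · intro e he hsub
      refine ⟨fun x hx => (hcl x (hsub hx)).trans ?_, ?_⟩
      · exact div_le_div_of_nonneg_right (by linarith) hFp.le
      · have h1 := own_edge (v := v) (α := α) hO hO' g hmd hdm hbN hNF hκ0.le hbox0 hclose
          (fun e' he' hs => by
            have h2 := hl1 e' he' hs
            rw [← dvar_one, dvar_one', he'] at h2
            exact h2) he hsub
        rw [Real.rpow_one, ContinuousLinearMap.id_apply]
        rw [he] at h1
        refine h1.trans (ENNReal.ofReal_le_ofReal ?_)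
        rw [mul_one_div]
        exact div_le_div_of_nonneg_right hκ1 hFp.le
    · intro e he hne x hx hcon
      have h4 := H333.edge_off hPart (n := N - b) (N := N - b + k₁ + k₀) (by omega) hfine he hne hx
      obtain ⟨y, hy, hyx⟩ := himg hcon
      have hyO : y ∈ S '' O := hdycO (by
        rw [← interior_dyc] at hy; exact interior_subset hy)
      have hxO : x ∈ S '' O := by
        obtain ⟨q, hq, heq⟩ := he
        exact hPart.sub q hq (Gr.edge_subset_dyc heq hx)
      have h5 := h.injOn hyO hxO hyx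
      rw [h5] at hy
      exact h4 hy
    · intro y hy
      obtain ⟨x, hx, rfl⟩ := himg hy
      rw [← interior_dyc] at hx
      exact h.mapsTo (hdycO (interior_subset hx))
  obtain ⟨h', hout, hin, hlay, hoff, hline⟩ := hK (S '' O) (S '' O') a
    (tiles (S '' O) (N - b + k₁ + k₀) a) (N - b) 0 id (ContinuousLinearMap.id ℝ V) h hO1 hO1'
    hPart hcellh (fun x hx => (hcl x hx).trans
      (div_le_div_of_nonneg_right (by linarith) hFp.le))
  -- the result
  set g' : ConHomeo O O' := conjb a (1 / 2 ^ N) hD hO hO' h' with hg'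
  have hg1 : ∀ x, g'.toFun x = SMi a (1 / 2 ^ N) (d / 2 ^ N) (h'.toFun (S x)) := fun x => rfl
  have hg2 : ∀ x, h'.toFun (S x) = h.toFun (S x) → g'.toFun x = g.toFun x := by
    intro x hx
    rw [hg1, hx, hh, conj_toFun, hS, SMi_SM hD, SMi_SM hD]
  have hg3 : ∀ x, ‖g'.toFun x - x‖ ≤ ‖h'.toFun (S x) - S x‖ := by
    intro x
    have h1 := norm_SMi_sub_le (a := a) (r := 1 / 2 ^ N) hD (h'.toFun (S x)) (S x)
    have h2 : SMi a (1 / 2 ^ N) (d / 2 ^ N) (S x) = x := SMi_SM hD x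
    rw [h2] at h1
    exact h1
  refine ⟨g', ?_, ?_, ?_, ?_, ?_⟩
  · intro x hxO hx
    apply hg2
    refine hoff _ ⟨x, hxO, rfl⟩ fun hcon => hx ?_
    rw [← shrink_zero, hS, ha, mem_cell_int hmd hdm hbN (by positivity)] at hcon
    exact hcon
  · intro e he hsub x hx hxn
    apply hg2
    obtain ⟨z, hz⟩ := line_edge (d := d) (α := α) hNF he hx
    refine hline ((N - b + k₁ + k₀, z), e.2) ⟨(N - b + k₁ + k₀, z), ?_, rfl, rfl, fun j _ =>
      Or.inl rfl⟩ _ hz fun hcon => hxn ?_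
    · apply hfine
      refine ⟨S x, Gr.edge_subset_dyc (q := (N - b + k₁ + k₀, z)) ⟨rfl, rfl, fun j _ =>
        Or.inl rfl⟩ hz, ?_⟩
      exact (mem_cell0 hmd hdm hbN).2 (hsub hx)
    · exact (mem_cell_int hmd hdm hbN hM1).1 hcon
  · intro x hx
    have h1 : S x ∈ boxR a (N - b) k₁ 0 := (mem_cell hmd hdm hbN hM2).2 hx
    rw [hg1, hout.box _ h1, id_eq, hS, SMi_SM hD]
  · intro x hx
    refine (hg3 x).trans ?_
    by_cases h1 : S x ∈ interior (boxB a (N - b) k₁ 0)
    · exact hin _ (interior_subset h1)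
    · have h2 : S x ∈ dyc a (N - b) 0 := (mem_cell0 hmd hdm hbN).2 hx
      refine (hlay _ h2 h1).trans ?_
      exact div_le_div_of_nonneg_left hC0.le hMp (pow_le_pow_right₀ one_le_two (by omega))
  · intro e he hsub e' he' hdir hsub' hB hR
    obtain ⟨z, hz1, hz2, hz3⟩ := piece_edge hmd hdm hbN hNM he he' hdir hsub' hB hR
    have h1 := eInt_conjb_le hO hO' hD h' hz1 ((hsub'.trans hsub).trans hbox0)
    refine h1.trans ((hout.gap _ rfl hz2 hz3).2.trans (ENNReal.ofReal_le_ofReal (le_of_eq ?_)))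
    rw [Real.rpow_one, mul_one_div]

end Vale.Agent.P073.H851.BC
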