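import Vale.Agent.P073.H851.TgtF
import Vale.Agent.P073.H239.FSpec1

/-!
# P073, block B10, **[TGT-F1]**: the target with segments (rank one)

Two families of plates around the same segments: the generalised collapse `T₂ ∘ T₁ ∘ T`.
-/

open Set Metric Topology Filter WithLp MeasureTheory Matrix
open scoped ENNReal

namespace Vale.Agent.P073.H851

open _root_.P073
open _root_.P073.Net (dyc dyo IsTile SizeFn Adm)
open Vale.Agent.P073.St (V)
open Vale.Agent.P073.AB (Idx)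
open Vale.Agent.P073.H471 (Cubes TI zt st cB_eq B_eq cubes_tiles st_pos)
open Vale.Agent.P073.H726 (LBOn Coll)
open Vale.Agent.P073.H239 (GC AdaptedN Approx PFam fam kks Num bx dd DD fam_off TgtO)
open Vale.Agent.P073.H696 (Tgt)

section two

variable {Λ : Set V} {ι : Type*} {b₁ : ℝ} {lo hi : ι → V} {R : ι → ℝ}

/-- displacement of the two squeezes -/
theorem two_disp (F₁ : PFam Λ b₁ (fun _ => 1) lo hi R) (F₂ : PFam Λ b₁ (fun _ => 2) lo hi R)
    {ε : ℝ} (hε : 0 < ε) (hRε : ∀ z, R z ≤ ε) {κ₁ κ₂ : ι → ℝ} (hκ₁ : ∀ z, Num b₁ (R z) (κ₁ z))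
    (hκ₂ : ∀ z, Num b₁ (R z) (κ₂ z)) (u : V) :
    ‖fam (fun _ : ι => (2 : Fin 3)) lo hi b₁ R κ₂
        (fam (fun _ : ι => (1 : Fin 3)) lo hi b₁ R κ₁ u) - u‖ ≤ 2 * ε := by
  by_cases hu : ∃ z, u ∈ bx (lo z) (hi z) (R z)
  · obtain ⟨z, hz⟩ := hu
    have h1 : fam (fun _ : ι => (1 : Fin 3)) lo hi b₁ R κ₁ u ∈ bx (lo z) (hi z) (R z) :=
      (F₁.fam_mem hκ₁ z).2 hz
    have h2 : fam (fun _ : ι => (2 : Fin 3)) lo hi b₁ R κ₂
        (fam (fun _ : ι => (1 : Fin 3)) lo hi b₁ R κ₁ u) ∈ bx (lo z) (hi z) (R z) :=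
      (F₂.fam_mem hκ₂ z).2 h1
    have h3 : ∀ y : V, y ∈ bx (lo z) (hi z) (R z) → |y 1 - lo z 1| ≤ R z ∧
        |y 2 - lo z 2| ≤ R z := by
      intro y hy
      have h3 : DD (lo z) (hi z) y ≤ R z := hy
      have h4 := h3
      rw [H239.DD_eq (F₁.flat z)] at h3
      rw [H239.DD_eq (F₂.flat z)] at h4
      exact ⟨(le_max_left _ _).trans h3, (le_max_left _ _).trans h4⟩
    obtain ⟨a1, a2⟩ := h3 _ hz
    obtain ⟨b1, b2⟩ := h3 _ h2
    rw [abs_le] at a1 a2 b1 b2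
    have hRz := hRε z
    rw [pi_norm_le_iff_of_nonneg (by positivity)]
    intro i
    rw [Pi.sub_apply, Real.norm_eq_abs, abs_le]
    fin_cases i
    · have e1 : fam (fun _ : ι => (2 : Fin 3)) lo hi b₁ R κ₂
          (fam (fun _ : ι => (1 : Fin 3)) lo hi b₁ R κ₁ u) 0 = u 0 := by
        rw [F₂.fam_eq h1, H239.pm_ne (by decide), F₁.fam_eq hz, H239.pm_ne (by decide)]
      simp only [Fin.zero_eta, e1, sub_self]
      constructor <;> linarith
    · simp only [Fin.mk_one]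
      constructor <;> linarith [a1.1, a1.2, b1.1, b1.2]
    · simp only [Fin.reduceFinMk]
      constructor <;> linarith [a2.1, a2.2, b2.1, b2.2]
  · push Not at hu
    rw [fam_off hu, fam_off hu, sub_self, norm_zero]
    positivity

/-- the two squeezes in the full zone of a segment -/
theorem two_core (F₁ : PFam Λ b₁ (fun _ => 1) lo hi R) (F₂ : PFam Λ b₁ (fun _ => 2) lo hi R)
    {κ₁ κ₂ : ι → ℝ} (hκ₁ : ∀ z, Num b₁ (R z) (κ₁ z)) (hκ₂ : ∀ z, Num b₁ (R z) (κ₂ z))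
    {lam : ℝ} {z : ι} (hl₁ : κ₁ z * R z ≤ lam) (hl₂ : κ₂ z * R z ≤ lam) {x : V}
    (h2 : ∀ i, i ≠ 0 → |x i - lo z i| ≤ b₁ * (R z - dd i (lo z) (hi z) x)) :
    ∀ i, i ≠ 0 → |fam (fun _ : ι => (2 : Fin 3)) lo hi b₁ R κ₂
      (fam (fun _ : ι => (1 : Fin 3)) lo hi b₁ R κ₁ x) i - lo z i| ≤ lam := by
  have hb0 := F₁.b0
  obtain ⟨u, hu⟩ : ∃ u, u = fam (fun _ : ι => (1 : Fin 3)) lo hi b₁ R κ₁ x := ⟨_, rfl⟩
  obtain ⟨k0, k1, k2⟩ := fam_core F₁ hκ₁ (z := z) (u := x) (h2 1 (by decide))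
  have hu1 : u = Function.update x 1 (lo z 1 + κ₁ z * (x 1 - lo z 1)) := by
    rw [hu, F₁.fam_eq k0]
    exact H239.pm_core (hκ₁ z) (h2 1 (by decide))
  rw [← hu] at k1 k2
  have hd2 : dd 2 (lo z) (hi z) u ≤ dd 2 (lo z) (hi z) x := by
    rw [H239.dd_le (H239.dd_nonneg _)]
    intro p hp
    by_cases hp1 : p.1 = 1
    · have hflat := F₁.flat z
      have a1 := H239.fn_le_dd (l := 2) (lo := lo z) (hi := hi z) (p := (1, true)) (by decide) x
      have a2 := H239.fn_le_dd (l := 2) (lo := lo z) (hi := hi z) (p := (1, false)) (by decide) x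
      have e1 : H239.fn (lo z) (hi z) (1, true) x = x 1 - lo z 1 := by
        simp only [H239.fn, if_true, ← hflat]
      have e2 : H239.fn (lo z) (hi z) (1, false) x = lo z 1 - x 1 := by
        simp [H239.fn]
      rw [e1] at a1
      rw [e2] at a2
      have a3 : |x 1 - lo z 1| ≤ dd 2 (lo z) (hi z) x := abs_le.2 ⟨by linarith, a1⟩
      have hκ0 := (hκ₁ z).k0
      have hκ1 : κ₁ z ≤ 1 := (hκ₁ z).k1.le
      have e3 : u 1 - lo z 1 = κ₁ z * (x 1 - lo z 1) := by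
        rw [hu1, Function.update_self]; ring
      have a4 : |u 1 - lo z 1| ≤ dd 2 (lo z) (hi z) x := by
        rw [e3, abs_mul, abs_of_nonneg hκ0]
        refine le_trans ?_ a3
        calc κ₁ z * |x 1 - lo z 1| ≤ 1 * |x 1 - lo z 1| := by gcongr
          _ = _ := one_mul _
      rw [abs_le] at a4
      obtain ⟨p1, p2⟩ := p
      simp only at hp1
      subst hp1
      cases p2
      · simp only [H239.fn, Bool.false_eq_true, if_false]
        linarith [a4.1]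
      · simp only [H239.fn, if_true]
        have e4 : hi z 1 = lo z 1 := hflat.symm
        rw [e4]
        exact a4.2
    · have e1 : H239.fn (lo z) (hi z) p u = H239.fn (lo z) (hi z) p x := by
        unfold H239.fn
        rw [k1 p.1 hp1]
      rw [e1]
      exact H239.fn_le_dd hp _
  have h3 : |u 2 - lo z 2| ≤ b₁ * (R z - dd 2 (lo z) (hi z) u) := by
    rw [k1 2 (by decide)]
    refine (h2 2 (by decide)).trans ?_
    gcongr
  obtain ⟨-, l1, l2⟩ := fam_core F₂ hκ₂ (z := z) (u := u) h3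
  intro i hi0
  rw [← hu]
  by_cases hi1 : i = 1
  · subst hi1
    rw [l1 1 (by decide)]
    exact k2.trans hl₁
  · have hi2 : i = 2 := by omega
    subst hi2
    exact l2.trans hl₂

end two

/-- heights in a finer grid -/
theorem grid_up {a : ℝ} {j m : ℕ} (hjm : j ≤ m) (h : ∃ t : ℤ, a = t / 2 ^ j) :
    ∃ t : ℤ, a = t / 2 ^ m := by
  obtain ⟨t, ht⟩ := h
  obtain ⟨d, hd⟩ := Nat.exists_eq_add_of_le hjm
  refine ⟨t * 2 ^ d, ?_⟩
  rw [ht, hd, pow_add]
  push_cast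
  field_simp

/-- the position in the full zone after a small displacement -/
theorem zone_move {i : Fin 3} {lo hi : V} {b R r : ℝ} {x y : V} (hb0 : 0 < b) (hb1 : b ≤ 1 / 8)
    (h1 : ‖x - y‖ ≤ r / 2) (h7 : |y i - lo i| ≤ b * (R - dd i lo hi y) - r) :
    |x i - lo i| ≤ b * (R - dd i lo hi x) := by
  have h3 := dd_lip i lo hi x y
  have h4 := norm_le_pi_norm (x - y) i
  rw [Pi.sub_apply, Real.norm_eq_abs] at h4
  have h5 : |x i - lo i| ≤ |x i - y i| + |y i - lo i| := abs_sub_le _ _ _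
  have h6 : b * (R - dd i lo hi y) ≤ b * (R - dd i lo hi x) + b * (r / 2) := by
    rw [← mul_add]
    gcongr
    linarith
  have h8 : 0 ≤ r := by linarith [norm_nonneg (x - y)]
  nlinarith

/-- **[TGT-F1]** -/
theorem specTgtF1 : H239.SpecTgtF1 := by
  obtain ⟨r0, L, hrL⟩ := exists_constM
  obtain ⟨Lc, hLc0, hLc1, hLc2⟩ := exists_LcQ hrL 17 (Cg := 7) (by norm_num)
  refine ⟨28 * 2 ^ 17 * 7, Lc, by norm_num, hLc0, fun ε hε => ⟨min (1 / 8) (ε / 16), by positivity,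
    ?_⟩⟩
  intro Ω Λ hΛ ι hι lo hi R b₁ r c jt Kc hb F₁ F₂ hRε hr hc hKcΛ hKc hjt M₀ hM₀ j v hj
  have hb0 := F₁.b0
  have hb1 : b₁ ≤ 1 / 8 := hb.trans (min_le_left _ _)
  have hb2 : b₁ ≤ ε / 16 := hb.trans (min_le_right _ _)
  have hΛo := hΛ.1
  have hΛb := PK.isBounded_of_domain hΛ
  have hΛne : Λ.Nonempty := hΛ.2.1.nonempty
  have hvol : volume Λ ≠ ⊤ := PK.volume_ne_top_of_domain hΛ
  have hcne : Λᶜ.Nonempty := H726.compl_nonempty hΛb
  have hdist : ∀ y ∈ Λ, 0 < infDist y Λᶜ := fun y hy =>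
    (hΛo.isClosed_compl.notMem_iff_infDist_pos hcne).1 (fun h => h hy)
  obtain ⟨vΛ, hvΛ⟩ : ∃ x, x = (volume Λ).toReal := ⟨_, rfl⟩
  have hv0 : 0 ≤ vΛ := by rw [hvΛ]; exact ENNReal.toReal_nonneg
  have hvv : volume Λ = ENNReal.ofReal vΛ := by rw [hvΛ, ENNReal.ofReal_toReal hvol]
  -- the slope
  obtain ⟨h, hh0, hh1, hh2, hh3⟩ : ∃ h : ℝ, 0 < h ∧ h ≤ 1 / 8 ∧ h ≤ ε / 8 ∧
      M₀ * (3 * h * vΛ) ≤ ε / 4 := by
    refine ⟨min (min (1 / 8) (ε / 8)) (ε / 4 / (3 * M₀ * vΛ + 1)), by positivity,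
      (min_le_left _ _).trans (min_le_left _ _), (min_le_left _ _).trans (min_le_right _ _), ?_⟩
    have h1 : min (min (1 / 8) (ε / 8)) (ε / 4 / (3 * M₀ * vΛ + 1)) ≤
        ε / 4 / (3 * M₀ * vΛ + 1) := min_le_right _ _
    have hp : 0 < 3 * M₀ * vΛ + 1 := by positivity
    calc M₀ * (3 * min (min (1 / 8) (ε / 8)) (ε / 4 / (3 * M₀ * vΛ + 1)) * vΛ)
        ≤ M₀ * (3 * (ε / 4 / (3 * M₀ * vΛ + 1)) * vΛ) := by gcongr
      _ = ε / 4 * (3 * M₀ * vΛ / (3 * M₀ * vΛ + 1)) := by ring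
      _ ≤ ε / 4 * 1 := by
          gcongr
          rw [div_le_one hp]
          linarith
      _ = ε / 4 := by ring
  -- the boxes of the plates
  obtain ⟨KB, hKB⟩ : ∃ KB : Set V, KB = ⋃ z, bx (lo z) (hi z) (R z) := ⟨_, rfl⟩
  have hKBc : IsCompact KB := by rw [hKB]; exact isCompact_iUnion fun _ => H239.isCompact_bx
  have hKBΛ : KB ⊆ Λ := by rw [hKB]; exact iUnion_subset F₁.sub
  obtain ⟨δs, hδs, hthick⟩ := exists_thick hKBc (ε := ε / 4 / M₀) (by positivity)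
  -- the closeness of the collapse
  obtain ⟨ρT, hρT⟩ : ∃ ρT : V → ℝ, ∀ y, ρT y =
      min (min (ε / 4) (r / 4)) (min δs (infDist y Λᶜ)) := ⟨_, fun _ => rfl⟩
  have hρTc : Continuous ρT := by
    have : ρT = fun y => min (min (ε / 4) (r / 4)) (min δs (infDist y Λᶜ)) := funext hρT
    rw [this]
    exact continuous_const.min (continuous_const.min (continuous_infDist_pt _))
  have hρL : LBOn Λ ρT := LBOn.of_continuous hΛo hρTc fun y hy => by
    have := hdist y hy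
    rw [hρT]; positivity
  have hρ1 : ∀ y, ρT y ≤ ε / 4 ∧ ρT y ≤ r / 4 ∧ ρT y ≤ δs ∧ ρT y ≤ infDist y Λᶜ := fun y => by
    rw [hρT]
    exact ⟨(min_le_left _ _).trans (min_le_left _ _), (min_le_left _ _).trans (min_le_right _ _),
      (min_le_right _ _).trans (min_le_left _ _), (min_le_right _ _).trans (min_le_right _ _)⟩
  obtain ⟨τ, c₀, hc₀, hτ0, hτp, hτc, -, hcoll⟩ := H726.exists_coll hΛo hΛb hh0 hh1 hρL
  obtain ⟨I, hI⟩ : ∃ I, I = ∫⁻ y in Λ, ENNReal.ofReal (1 / τ y) ^ 3 := ⟨_, rfl⟩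
  have hI0 : I ≠ 0 := by rw [hI]; exact weight_ne_zero hΛo hΛne hτc hτp
  refine ⟨τ, min (min c₀ 1) (I / 2), ⟨hτc, hτ0, hτp, ?_⟩, ?_⟩
  · exact (lt_min (lt_min (pos_iff_ne_zero.2 hc₀) one_pos) (ENNReal.half_pos hI0)).ne'
  intro B A b D D' α W δt hA hD hDΛ hdis hlf hint hα hW hhigh hcostZ hδt
  have hBne : Nonempty B := by
    by_contra hB
    rw [not_nonempty_iff] at hB
    rw [iUnion_of_empty, sdiff_empty, ← hI] at hint
    have h1 : I ≤ 1 := hint.trans ((min_le_left _ _).trans (min_le_right _ _))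
    have h2 : I ≤ I / 2 := hint.trans (min_le_right _ _)
    have h3 : I ≠ ⊤ := (h1.trans_lt ENNReal.one_lt_top).ne
    exact absurd h2 (not_le.2 (ENNReal.half_lt_self hI0 h3))
  have hDc : ∀ k, IsCompact (D k) := fun k => (hD k).1
  obtain ⟨T, X, hC, hT⟩ := hcoll (Λ \ ⋃ k, (fun x => A k *ᵥ x + b k) '' D' k)
    (H696.V0 Λ A b D)
    (R_open hΛo (fun k => ⟨(hD k).2.1, (hD k).2.2.trans interior_subset⟩) hlf) sdiff_subset
    (hint.trans ((min_le_left _ _).trans (min_le_left _ _))) (V0_closed hΛo hA)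
    (fun y hy => ⟨hy.1, fun h => by
      obtain ⟨k, x, hx, hxy⟩ := mem_iUnion.1 h
      exact hy.2 k x ((hD k).2.2 hx) hxy⟩)
  have hGC := H239.gc_of_coll hC (m := 1 + h) le_rfl
  have hG₁ := hGC.plates F₁
  have hG := hG₁.plates F₂
  set T₁ : V → V := fam (fun _ : ι => (1 : Fin 3)) lo hi b₁ R fun _ => 0 with hT₁
  set T₂ : V → V := fam (fun _ : ι => (2 : Fin 3)) lo hi b₁ R fun _ => 0 with hT₂
  obtain ⟨T₀, hT₀⟩ : ∃ T₀ : V → V, T₀ = fun u => T₂ (T₁ u) := ⟨_, rfl⟩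
  have hT₁c : Continuous T₁ := F₁.cont F₁.num0
  have hT₂c : Continuous T₂ := F₂.cont F₂.num0
  have hT₀c : Continuous T₀ := by rw [hT₀]; exact hT₂c.comp hT₁c
  have hT₀m : MapsTo T₀ Λ Λ := by rw [hT₀]; exact (F₂.maps F₂.num0).comp (F₁.maps F₁.num0)
  -- the zone of the plates
  obtain ⟨Zo, hZo⟩ : ∃ Zo : Set V, Zo = {y | y ∈ Λ ∧ T y ∈ KB} := ⟨_, rfl⟩
  have hno1 : ∀ (κp : ι → ℝ) (u : V), u ∉ KB →
      fam (fun _ : ι => (1 : Fin 3)) lo hi b₁ R κp u = u := fun κp u hu =>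
    fam_off fun z hz => hu (by rw [hKB]; exact mem_iUnion.2 ⟨z, hz⟩)
  have hno2 : ∀ (κp : ι → ℝ) (u : V), u ∉ KB →
      fam (fun _ : ι => (2 : Fin 3)) lo hi b₁ R κp u = u := fun κp u hu =>
    fam_off fun z hz => hu (by rw [hKB]; exact mem_iUnion.2 ⟨z, hz⟩)
  have hoffKB : ∀ u, u ∉ KB → T₀ u = u := fun u hu => by
    rw [hT₀]
    show T₂ (T₁ u) = u
    rw [show T₁ u = u from hno1 _ u hu, show T₂ u = u from hno2 _ u hu]
  have hin1 : ∀ u, T₁ u ∈ KB ↔ u ∈ KB := fun u => by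
    rw [hKB, mem_iUnion, mem_iUnion]
    exact exists_congr fun z => F₁.fam_mem F₁.num0 z
  have hin2 : ∀ u, T₂ u ∈ KB ↔ u ∈ KB := fun u => by
    rw [hKB, mem_iUnion, mem_iUnion]
    exact exists_congr fun z => F₂.fam_mem F₂.num0 z
  have hdisp : ∀ (κ₁ κ₂ : ι → ℝ), (∀ z, Num b₁ (R z) (κ₁ z)) → (∀ z, Num b₁ (R z) (κ₂ z)) →
      ∀ u, ‖fam (fun _ : ι => (2 : Fin 3)) lo hi b₁ R κ₂
        (fam (fun _ : ι => (1 : Fin 3)) lo hi b₁ R κ₁ u) - u‖ ≤ 2 * ε :=
    fun κ₁ κ₂ hκ₁ hκ₂ u => two_disp F₁ F₂ hε hRε hκ₁ hκ₂ u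
  -- the cost
  obtain ⟨E, hE⟩ : ∃ E : Set V, E = {y | y ∈ Λ ∧ T y ∈ X} ∪ (cthickening δs KB \ KB) :=
    ⟨_, rfl⟩
  have hEm : MeasurableSet E := by
    rw [hE]
    exact (measurableSet_collapsed hC).union
      (isClosed_cthickening.measurableSet.diff hKBc.measurableSet)
  have hEv : ENNReal.ofReal M₀ * volume E ≤ ENNReal.ofReal (ε / 2) := by
    have h1 : volume E ≤ ENNReal.ofReal (3 * h * vΛ) + ENNReal.ofReal (ε / 4 / M₀) := by
      rw [hE]
      refine (measure_union_le _ _).trans (add_le_add ?_ hthick)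
      refine (volume_collapsed hC hvol).trans (le_of_eq ?_)
      rw [hvv, ← ENNReal.ofReal_mul (by positivity)]
    calc ENNReal.ofReal M₀ * volume E
        ≤ ENNReal.ofReal M₀ * (ENNReal.ofReal (3 * h * vΛ) + ENNReal.ofReal (ε / 4 / M₀)) := by
          gcongr
      _ = ENNReal.ofReal (M₀ * (3 * h * vΛ) + M₀ * (ε / 4 / M₀)) := by
          rw [mul_add, ← ENNReal.ofReal_mul hM₀.le, ← ENNReal.ofReal_mul hM₀.le,
            ← ENNReal.ofReal_add (by positivity) (by positivity)]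
      _ ≤ _ := by
          apply ENNReal.ofReal_le_ofReal
          have : M₀ * (ε / 4 / M₀) = ε / 4 := by field_simp
          linarith
  have hcost : ∑' k, α k * volume {x | x ∈ D k ∧ A k *ᵥ x + b k ∈
      {y | y ∈ Λ ∧ T₂ (T₁ (T y)) ∈ T₂ '' (T₁ '' X ∪ kks lo hi R) ∪ kks lo hi R} ∪ Zo} + ENNReal.ofReal (ε / 4) ≤
      ENNReal.ofReal (3 * ε) := by
    have h2 := sum_cost (A := A) (b := b) hA hDc hdis hM₀ hhigh hEm
    have h1 : ∀ k, α k * volume {x | x ∈ D k ∧ A k *ᵥ x + b k ∈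
        {y | y ∈ Λ ∧ T₂ (T₁ (T y)) ∈ T₂ '' (T₁ '' X ∪ kks lo hi R) ∪ kks lo hi R} ∪ Zo} ≤
        α k * volume {x | x ∈ D k ∧ A k *ᵥ x + b k ∈ ⋃ z, bx (lo z) (hi z) (R z)} +
        α k * volume {x | x ∈ D k ∧ afm (A k) (b k) x ∈ E} := by
      intro k
      rw [← mul_add]
      refine mul_le_mul' le_rfl ((measure_mono ?_).trans (measure_union_le _ _))
      rintro x ⟨hx, hx2⟩
      obtain ⟨y, hy⟩ : ∃ y, y = A k *ᵥ x + b k := ⟨_, rfl⟩
      rw [← hy] at hx2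
      have hyΛ : y ∈ Λ := by rw [hy]; exact hDΛ k ⟨x, hx, rfl⟩
      have h3 : T y ∈ X ∨ T y ∈ KB := by
        rcases hx2 with ⟨-, h3⟩ | h3
        · by_cases h4 : T y ∈ KB
          · exact Or.inr h4
          · left
            have hkk : ∀ u ∈ kks lo hi R, u ∈ KB := fun u hu => by
              obtain ⟨z, hz⟩ := mem_iUnion.1 hu
              rw [hKB]
              exact mem_iUnion.2 ⟨z, hz.1⟩
            rw [show T₁ (T y) = T y from hno1 _ _ h4, show T₂ (T y) = T y from hno2 _ _ h4] at h3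
            rcases h3 with ⟨u, hu, huy⟩ | h3
            · have h5 : u ∉ KB := fun h6 => h4 (by rw [← huy]; exact (hin2 u).2 h6)
              rw [show T₂ u = u from hno2 _ _ h5] at huy
              rcases hu with ⟨u', hu', huu'⟩ | hu
              · have h6 : u' ∉ KB := fun h7 => h5 (by rw [← huu']; exact (hin1 u').2 h7)
                rw [show T₁ u' = u' from hno1 _ _ h6] at huu'
                rwa [← huy, ← huu']
              · exact absurd (hkk u hu) h5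
            · exact absurd (hkk _ h3) h4
        · rw [hZo] at h3
          exact Or.inr h3.2
      by_cases h4 : y ∈ KB
      · left
        refine ⟨hx, ?_⟩
        rw [← hy, ← hKB]
        exact h4
      · right
        refine ⟨hx, ?_⟩
        show A k *ᵥ x + b k ∈ E
        rw [← hy, hE]
        rcases h3 with h3 | h3
        · exact Or.inl ⟨hyΛ, h3⟩
        · right
          refine ⟨mem_cthickening_of_dist_le y (T y) δs KB h3 ?_, h4⟩
          rw [dist_comm, dist_eq_norm]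
          exact (hT y hyΛ).trans (hρ1 y).2.2.1
    calc _ ≤ (∑' k, (α k * volume {x | x ∈ D k ∧ A k *ᵥ x + b k ∈
          ⋃ z, bx (lo z) (hi z) (R z)} +
          α k * volume {x | x ∈ D k ∧ afm (A k) (b k) x ∈ E})) + ENNReal.ofReal (ε / 4) := by
          gcongr ?_ + _
          exact ENNReal.tsum_le_tsum h1
      _ ≤ (ENNReal.ofReal ε + (ENNReal.ofReal (ε / 2) + ENNReal.ofReal ε)) +
          ENNReal.ofReal (ε / 4) := by
          rw [ENNReal.tsum_add]
          gcongr ?_ + _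
          exact add_le_add hcostZ (h2.trans (add_le_add hEv le_rfl))
      _ ≤ _ := by
          rw [← ENNReal.ofReal_add (by positivity) (by positivity),
            ← ENNReal.ofReal_add (by positivity) (by positivity),
            ← ENNReal.ofReal_add (by positivity) (by positivity)]
          exact ENNReal.ofReal_le_ofReal (by linarith)
  -- the compact set where the tiles have one generation
  have hK : IsCompact ((fun y => T₀ (T y)) '' Kc) := hKc.image (hT₀c.comp hGC.cont)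
  have hKΛ : (fun y => T₀ (T y)) '' Kc ⊆ Λ := by
    rintro _ ⟨y, hy, rfl⟩
    exact hT₀m (hC.maps (hKcΛ hy))
  obtain ⟨m₁, hm₁1, hm₁2⟩ : ∃ m₁ : ℕ, jt ≤ m₁ ∧ (1:ℝ) / 2 ^ m₁ ≤ ε := by
    obtain ⟨n, hn⟩ := exists_pow_lt_of_lt_one hε (show (1 / 2 : ℝ) < 1 by norm_num)
    refine ⟨max jt n, le_max_left _ _, le_trans ?_ hn.le⟩
    rw [_root_.one_div_pow]
    gcongr
    · norm_num
    · exact le_max_right _ _
  have hδt' : LBOn Λ fun y => min (δt y) (infDist y Λᶜ) :=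
    hδt.min (LBOn.of_continuous hΛo (continuous_infDist_pt _) hdist)
  have hbb : b₁ * b₁ ≤ 1 / 8 * b₁ := mul_le_mul_of_nonneg_right hb1 hb0.le
  have hbh : b₁ * h ≤ 1 / 8 * h := mul_le_mul_of_nonneg_right hb1 hh0.le
  have hbbh : b₁ * b₁ * h ≤ 1 / 8 * (1 / 8) * h := by
    refine mul_le_mul_of_nonneg_right ?_ hh0.le
    nlinarith
  obtain ⟨m, s, ρ, hm, hρ, hsT, hsize, hmain⟩ := exists_tgt_gen (N' := 17) (r0 := r0) (L := L)
    (Lc := Lc) (j := j) (α := α) (W := W) (δt := fun y => min (δt y) (infDist y Λᶜ)) (Zo := Zo)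
    (ε := 3 * ε) (ε₁ := 1) (εT := 9 / 4 * ε) (εC := ε / 4) (εs := 1) (Cg := 7) hG (by norm_num)
    (by nlinarith) (by norm_num) (by unfold kp; norm_num) hA hDc hDΛ hdis hlf hα hW hδt' hrL v hK
    hKΛ (by positivity) one_pos (by positivity) one_pos (by nlinarith) (by norm_num)
    (by rw [hZo]; exact fun y hy => hy.1)
    (fun y hy hX hyZ => by
      rw [hZo] at hyZ
      have hno : T y ∉ KB := fun h1 => hyZ ⟨hy, h1⟩
      have hTX : T y ∉ X := fun h1 => hX (Or.inl ⟨T₁ (T y), Or.inl ⟨T y, h1, rfl⟩, rfl⟩)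
      obtain ⟨w, hw⟩ := hC.aff {T y} (by
        rintro _ rfl
        exact ⟨hC.maps hy, hTX⟩) isPreconnected_singleton
      have h2 := hw y rfl
      have h3 : ∀ᶠ y' in 𝓝 y, T y' ∉ KB :=
        hC.continuous.continuousAt.eventually (hKBc.isClosed.isOpen_compl.mem_nhds hno)
      filter_upwards [h2, h3] with y' h4 h5
      have h6 : T₂ (T₁ (T y')) = T y' := by
        rw [show T₁ (T y') = T y' from hno1 _ _ h5, show T₂ (T y') = T y' from hno2 _ _ h5]
      have h7 : T₂ (T₁ (T y)) = T y := by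
        rw [show T₁ (T y) = T y from hno1 _ _ hno, show T₂ (T y) = T y from hno2 _ _ hno]
      rw [h6, h7, h4, h2.self_of_nhds]
      have e1 : ((1 + h) • y' - w) - ((1 + h) • y - w) - (y' - y) = h • (y' - y) := by module
      rw [e1, norm_smul, Real.norm_of_nonneg hC.h0]
      gcongr
      linarith)
    (fun y hy => by
      have h1 := (hT y hy).trans (hρ1 y).1
      have h3 := hdisp _ _ F₁.num0 F₂.num0 (T y)
      have e1 : T₂ (T₁ (T y)) - y = (T₂ (T₁ (T y)) - T y) + (T y - y) := by abel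
      show ‖T₂ (T₁ (T y)) - y‖ ≤ _
      rw [e1]
      refine (norm_add_le _ _).trans ?_
      linarith)
    (by linarith) hcost (fun k => hLc1 _) (fun k => hLc2 _) hj m₁
  have hmp : (0:ℝ) < 1 / 2 ^ m := by positivity
  -- the squeeze
  obtain ⟨lam, hlam0, hlam1, hlam2, hlam3⟩ : ∃ lam : ℝ, 0 < lam ∧ 2 * lam ≤ c / 2 ^ m ∧
      lam ≤ c / 2 ^ m ∧ lam ≤ 1 / 32 / 2 ^ m := by
    refine ⟨min (c / 2) (1 / 32) / 2 ^ m, by positivity, ?_, ?_, ?_⟩
    · calc 2 * (min (c / 2) (1 / 32) / 2 ^ m) ≤ 2 * (c / 2 / 2 ^ m) := by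
            gcongr; exact min_le_left _ _
        _ = c / 2 ^ m := by ring
    · gcongr
      exact (min_le_left _ _).trans (by linarith)
    · gcongr
      exact min_le_right _ _
  obtain ⟨g, ⟨κ₁, κ₂, γ, hκ₁, hκ₂, hgγ, hγ, hglip⟩, cc, Mi, bi, κ, e, n, wd, Ξ, Tt, S, κ', n', w',
      HT, -⟩ :=
    hmain (fun g => ∃ (κ₁ κ₂ : ι → ℝ) (γ : ConHomeo Λ Λ),
      (∀ z, Num b₁ (R z) (κ₁ z) ∧ 0 < κ₁ z ∧ κ₁ z * R z ≤ lam) ∧
      (∀ z, Num b₁ (R z) (κ₂ z) ∧ 0 < κ₂ z ∧ κ₂ z * R z ≤ lam) ∧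
      (∀ y, g.toFun y = fam (fun _ : ι => (2 : Fin 3)) lo hi b₁ R κ₂
        (fam (fun _ : ι => (1 : Fin 3)) lo hi b₁ R κ₁ (γ.toFun y))) ∧
      IsApx (1 + h) Λ X T (fun _ => min (ε / 4) (r / 4)) 1 γ ∧
      ∀ y y', ‖toLp 2 (g.toFun y - g.toFun y')‖ ≤
        ((1 + 3 * b₁) * ((1 + 3 * b₁) * (1 + h)) + ε / 8) * ‖toLp 2 (y - y')‖)
      (fun δ' ε' hδ' hε' => by
        obtain ⟨κ₂, δ₂, ε₂, h1, h2, h3, h4⟩ := apx_plates hG₁ F₂ hδ' (lt_min hε'
          (show 0 < ε / 8 by positivity)) hlam0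
        obtain ⟨κ₁, δ₃, ε₃, k1, k2, k3, k4⟩ := apx_plates hGC F₁ h2 h3 hlam0
        obtain ⟨γ, hγ⟩ := exists_isApx hGC.approx
          (k2.min (LBOn.of_continuous hΛo (continuous_const (y := min (ε / 4) (r / 4)))
            fun _ _ => by positivity)) (lt_min k3 one_pos)
        obtain ⟨g₁, hg₁, hg₁'⟩ := k4 γ (hγ.mono hC.maps (fun y _ => min_le_left _ _)
          (min_le_left _ _))
        obtain ⟨g, hg1, hg2⟩ := h4 g₁ hg₁'
        refine ⟨g, hg2.mono hG.maps (fun _ _ => le_rfl) (min_le_left _ _), κ₁, κ₂, γ, k1, h1,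
          fun y => by rw [hg1, hg₁],
          hγ.mono hC.maps (fun y _ => min_le_right _ _) (min_le_right _ _), fun y y' => ?_⟩
        refine (hg2.lip y y').trans (mul_le_mul_of_nonneg_right ?_ (norm_nonneg _))
        linarith [min_le_right ε' (ε / 8)])
  have hρm : ∀ y, ρ y ≤ 1 / 2 ^ m := fun y => by rw [hρ]; exact min_le_right _ _
  have hγc : ∀ y ∈ Λ, ‖γ.toFun y - y‖ ≤ ε / 2 ∧ ‖γ.toFun y - y‖ ≤ r / 2 := fun y hy => by
    have h1 := hγ.close y hy
    have h2 := hT y hy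
    have h3 := hρ1 y
    have e1 : γ.toFun y - y = (γ.toFun y - T y) + (T y - y) := by abel
    have h4 := norm_add_le (γ.toFun y - T y) (T y - y)
    rw [← e1] at h4
    constructor
    · linarith [min_le_left (ε / 4) (r / 4), h3.1]
    · linarith [min_le_right (ε / 4) (r / 4), h3.2.1]
  have hκ₁' : ∀ z, Num b₁ (R z) (κ₁ z) := fun z => (hκ₁ z).1
  have hκ₂' : ∀ z, Num b₁ (R z) (κ₂ z) := fun z => (hκ₂ z).1
  refine ⟨ρ, _, _, κ', n', w', _, _, _, Tt, fun _ => c / 2 ^ m,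
    tgt_mono HT (fun y _ => min_le_left _ _), fun x _ => ⟨c / 2 ^ m, by positivity,
      Filter.Eventually.of_forall fun _ _ => le_rfl⟩, m, g, fun _ => rfl, ?_⟩
  -- the tile of `g y`
  have htile : ∀ y ∈ Kc, ∀ z : Fin 3 → ℤ, (∃ u ∈ dyc 0 m z, ‖g.toFun y - u‖ ≤ 5 / 2 ^ m) →
      IsTile ρ 0 m z := by
    rintro y hy z ⟨u, hu, huy⟩
    refine hsize z ⟨T₀ (T y), ⟨y, hy, rfl⟩, u, hu, ?_⟩
    have h1 : ‖g.toFun y - T₀ (T y)‖ ≤ 1 / 16 / 2 ^ m := by
      rw [hT₀]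
      exact (S.near_gen (hKcΛ hy) hρm).1
    have e1 : u - T₀ (T y) = (g.toFun y - T₀ (T y)) - (g.toFun y - u) := by abel
    rw [e1]
    refine (norm_sub_le _ _).trans ?_
    have e2 : (8:ℝ) / 2 ^ m = 8 * (1 / 2 ^ m) := by ring
    have e3 : (5:ℝ) / 2 ^ m = 5 * (1 / 2 ^ m) := by ring
    have e4 : (1:ℝ) / 16 / 2 ^ m = 1 / 16 * (1 / 2 ^ m) := by ring
    rw [e4] at h1
    rw [e3] at huy
    rw [e2]
    linarith
  refine
    { lip := fun y _ y' _ => (hglip y y').trans (mul_le_mul_of_nonneg_right (by nlinarith)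
        (norm_nonneg _))
      close := fun y hy => ?_
      far := fun y hy => ?_
      mtε := ?_
      bdT := fun η hη => ?_
      grid := fun z i hi0 => ?_
      tile := fun y hy z hz => ?_
      tube := fun z y hy hyz => ?_ }
  · -- close
    have h1 := hdisp _ _ hκ₁' hκ₂' (γ.toFun y)
    have h2 := (hγc y hy).1
    rw [← hgγ] at h1
    have e1 : g.toFun y - y = (g.toFun y - γ.toFun y) + (γ.toFun y - y) := by abel
    rw [e1]
    refine (norm_add_le _ _).trans ?_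
    linarith
  · -- far
    have h1 := (S.near_gen (hKcΛ hy) hρm).2
    refine h1.trans ?_
    gcongr
    norm_num
  · -- generation
    refine le_trans ?_ (hm₁2.trans (by linarith))
    gcongr
    norm_num
  · -- boundary
    obtain ⟨hP1, hP2⟩ := H819.gc_compact_preimage hGC hKBc hKBΛ
    have hQ : IsCompact {y : V | η / 2 ≤ infDist y Λᶜ} := by
      refine Metric.isCompact_of_isClosed_isBounded
        (isClosed_le continuous_const (continuous_infDist_pt _)) (hΛb.subset fun y hy => ?_)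
      by_contra hn
      have h1 : infDist y Λᶜ = 0 := infDist_zero_of_mem hn
      have h2 : η / 2 ≤ infDist y Λᶜ := hy
      linarith
    refine ⟨T ⁻¹' KB ∪ {y : V | η / 2 ≤ infDist y Λᶜ}, ?_, hP1.union hQ, fun y hy hyK => ?_⟩
    · refine union_subset hP2 fun y hy => ?_
      by_contra hn
      have h1 : infDist y Λᶜ = 0 := infDist_zero_of_mem hn
      have h2 : η / 2 ≤ infDist y Λᶜ := hy
      linarith
    · rw [mem_union, not_or] at hyK
      have h1 : infDist y Λᶜ < η / 2 := not_le.1 hyK.2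
      have h2 := S.close hy
      have h3 := (hsT y hy).2
      have h4 := (hT y hy).trans (hρ1 y).2.2.2
      have h5 : T₀ (T y) = T y := hoffKB _ hyK.1
      have h6 : min (δt y) (infDist y Λᶜ) ≤ infDist y Λᶜ := min_le_right _ _
      have h2' : ‖Tt.toFun y - T₀ (T y)‖ ≤ s (T₀ (T y)) / 8 := by rw [hT₀]; exact h2
      have h3' : s (T₀ (T y)) ≤ min (δt y) (infDist y Λᶜ) := by rw [hT₀]; exact h3
      rw [h5] at h2' h3'
      have e1 : Tt.toFun y - y = (Tt.toFun y - T y) + (T y - y) := by abel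
      rw [e1]
      refine (norm_add_le _ _).trans ?_
      have h7 := hdist y hy
      linarith
  · -- grid
    exact grid_up (hm₁1.trans hm) (hjt z i hi0)
  · -- tiles
    obtain ⟨u, hu, huy⟩ := hz
    refine htile y hy z ⟨u, hu, ?_⟩
    have h1 := (S.near_gen (hKcΛ hy) hρm).2
    have e1 : g.toFun y - u = (Tt.toFun y - u) - (Tt.toFun y - g.toFun y) := by abel
    rw [e1]
    refine (norm_sub_le _ _).trans ?_
    have e3 : (5:ℝ) / 2 ^ m = 4 / 2 ^ m + 1 / 2 ^ m := by ring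
    rw [e3]
    linarith
  · -- tubes
    have hyΛ := hKcΛ hy
    have hlo : ∀ i, i ≠ 0 → ∃ t : ℤ, lo z i = (t : ℝ) / 2 ^ m := fun i hi0 =>
      grid_up (hm₁1.trans hm) (hjt z i hi0)
    have h4 : ∀ i, i ≠ 0 → |g.toFun y i - lo z i| ≤ lam := by
      intro i hi0
      rw [hgγ]
      exact two_core F₁ F₂ hκ₁' hκ₂' (hκ₁ z).2.2 (hκ₂ z).2.2
        (fun i hi0 => zone_move hb0 hb1 (hγc y hyΛ).2 (hyz i hi0)) i hi0
    obtain ⟨z'', hz''⟩ := exists_dyc 0 m (g.toFun y)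
    have ht'' : IsTile ρ 0 m z'' := htile y hy z'' ⟨g.toFun y, hz'', by
      rw [sub_self, norm_zero]; positivity⟩
    refine ⟨fun i hi0 => ?_, fun w h7 h8 => ?_⟩
    · obtain ⟨t, ht⟩ := hlo i hi0
      have h5 := (S.wall hyΛ ht'' hz'' (j₀ := i) (t₀ := t) hlam3
        (by rw [Pi.zero_apply, zero_add, ← ht]; exact h4 i hi0)).1
      rw [Pi.zero_apply, zero_add, ← ht] at h5
      exact h5.trans hlam2
    · obtain ⟨t, ht⟩ := hlo 1 (by decide)
      have h6 := (S.wall hyΛ ht'' hz'' (j₀ := 1) (t₀ := t) hlam3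
        (by rw [Pi.zero_apply, zero_add, ← ht]; exact h4 1 (by decide))).2 0
      have h9 := hz'' 0
      rw [Pi.zero_apply, zero_add, zero_add] at h9
      have hq : (0:ℝ) < 2 ^ m := by positivity
      have h10 : z'' 0 = w := by
        have a1 := h7.trans h9.2
        have a2 := h9.1.trans h8
        rw [div_le_div_iff_of_pos_right hq] at a1 a2
        have b1 : (w : ℝ) < z'' 0 + 1 := by linarith
        have b2 : (z'' 0 : ℝ) < w + 1 := by linarith
        have c1 : w < z'' 0 + 1 := by exact_mod_cast b1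
        have c2 : z'' 0 < w + 1 := by exact_mod_cast b2
        omega
      refine h6 ?_ ?_
      · rw [h10, Pi.zero_apply, zero_add]
        refine le_trans ?_ h7
        have e1 : ((w : ℝ) + c) / 2 ^ m = w / 2 ^ m + c / 2 ^ m := by ring
        rw [e1]
        linarith
      · rw [h10, Pi.zero_apply, zero_add]
        refine h8.trans ?_
        have e1 : ((w : ℝ) + 1 - c) / 2 ^ m = (w + 1) / 2 ^ m - c / 2 ^ m := by ring
        rw [e1]
        linarith

end Vale.Agent.P073.H851
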