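import Vale.Agent.P073.H726.AlignDefs
import Vale.Agent.P073.H726.VarSlope
import Vale.Agent.P073.Net.Len

/-!
# P073, [TTOT]: the Lipschitz constant of `g` and the set of the active cubes
-/

open Set Metric Topology Filter WithLp MeasureTheory
open scoped ENNReal InnerProductSpace

namespace Vale.Agent.P073.H851

open _root_.P073 _root_.P073.Net
open Vale.Agent.P073.St (V)
open Vale.Agent.P073.H471 (Cubes)
open Vale.Agent.P073.H726 (AlignG Coll Adapted)

variable {ι : Type*} {Λ V₀ X : Set V} {h : ℝ} {T : V → V} {s : V → ℝ} {z : ι → V} {σ k : ι → ℝ}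
  {ε : ℝ} {c : ι → V} {g : V → V}

/-- the Lipschitz constant of `g`, Euclidean norm -/
theorem lip_eu (C : Coll Λ V₀ X h T) (G : AlignG Λ V₀ X h T s z σ k ε c g) (y y' : V) :
    ‖toLp 2 (g y - g y')‖ ≤ (1 + h + ε) * ‖toLp 2 (y - y')‖ := by
  have h1 := G.lip y y'
  have h2 := H726.vs_lip C.h0 (C.firm y y')
  have e : (toLp 2 (g y - g y') : EuclideanSpace ℝ (Fin 3)) =
      toLp 2 ((g y - T y) - (g y' - T y')) + toLp 2 (T y - T y') := by
    rw [← toLp_add]; congr 1; abel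
  rw [e]
  refine (norm_add_le _ _).trans ?_
  linarith

/-- the Lipschitz constant of `g`, sup norm -/
theorem lip_sup (C : Coll Λ V₀ X h T) (G : AlignG Λ V₀ X h T s z σ k ε c g) (hε : ε ≤ 1 / 2)
    (y y' : V) : ‖g y - g y'‖ ≤ 4 * ‖y - y'‖ := by
  have h1 := lip_eu C G y y'
  have h2 := norm_le_euc (g y - g y')
  have h3 := euc_le (y - y')
  rw [euc_eq] at h2 h3
  have h4 := norm_nonneg (toLp 2 (y - y') : EuclideanSpace ℝ (Fin 3))
  have h5 := C.h1
  nlinarith

/-- sup norm from the Euclidean norm -/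
theorem lip_sup_of_eu {C : ℝ} (hC : 0 ≤ C)
    (hg : ∀ y y', ‖toLp 2 (g y - g y')‖ ≤ C * ‖toLp 2 (y - y')‖) (y y' : V) :
    ‖g y - g y'‖ ≤ 2 * C * ‖y - y'‖ := by
  have h1 := hg y y'
  have h2 := norm_le_euc (g y - g y')
  have h3 := euc_le (y - y')
  rw [euc_eq] at h2 h3
  calc ‖g y - g y'‖ ≤ ‖toLp 2 (g y - g y')‖ := h2
    _ ≤ C * ‖toLp 2 (y - y')‖ := h1
    _ ≤ C * (2 * ‖y - y'‖) := by gcongr
    _ = 2 * C * ‖y - y'‖ := by ring

/-- the cores are not met by the collapsed part -/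
theorem core_off {κ₀ : ℝ} (hole : ∀ i, ∀ x ∈ X, 2 * κ₀ * σ i < ‖x - c i‖)
    (near' : ∀ y ∈ Λ, ∀ i, g y ∈ closedBall (z i) (σ i) → ‖g y - T y‖ ≤ κ₀ * σ i)
    (cz : ∀ i, ‖c i - z i‖ ≤ σ i / 2) (hκ : κ₀ ≤ 1 / 2) (hσ : ∀ i, 0 < σ i) {y : V} (hy : y ∈ Λ)
    {i : ι} (hi : ‖g y - c i‖ ≤ κ₀ * σ i) : T y ∉ X := by
  intro hX
  have h1 := hole i _ hX
  have h0 := hσ i
  have h2 : g y ∈ closedBall (z i) (σ i) := by
    rw [mem_closedBall, dist_eq_norm]
    have e : g y - z i = (g y - c i) + (c i - z i) := by abel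
    rw [e]
    have h5 : κ₀ * σ i ≤ 1 / 2 * σ i := mul_le_mul_of_nonneg_right hκ h0.le
    exact (norm_add_le _ _).trans (by linarith [cz i])
  have h3 := near' y hy i h2
  have e : T y - c i = (g y - c i) - (g y - T y) := by abel
  rw [e] at h1
  have h4 := norm_sub_le (g y - c i) (g y - T y)
  linarith

/-- a cube near the skeleton -/
def NearX (X : Set V) (s : V → ℝ) (z : ι → V) : Set ι := {i | ∃ x ∈ X, ‖z i - x‖ ≤ s (z i) / 2}

section

variable (hs : ∀ x y, s x ≤ s y + ‖x - y‖)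

include hs

/-- the size of a cube which contains `g y` -/
theorem size_le {y : V} (near : ‖g y - T y‖ ≤ s (T y) / 16) {i : ι} (hσ : σ i ≤ s (z i) / 16)
    (hi : g y ∈ closedBall (z i) (σ i)) : σ i ≤ s (T y) / 14 ∧ s (z i) ≤ 8 / 7 * s (T y) := by
  have h2 := hs (z i) (T y)
  rw [mem_closedBall, dist_eq_norm] at hi
  have h4 : ‖z i - T y‖ ≤ σ i + s (T y) / 16 := by
    have e : z i - T y = (g y - T y) - (g y - z i) := by abel
    rw [e]
    exact (norm_sub_le _ _).trans (by linarith)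
  have h5 : 0 ≤ s (T y) := by linarith [norm_nonneg (g y - T y)]
  constructor <;> linarith

/-- **the cost**: the active zone is in the set of the measure clause of 726's `Adapted` -/
theorem near_of_active {y : V} (near : ‖g y - T y‖ ≤ s (T y) / 16) {i : ι}
    (hσ : σ i ≤ s (z i) / 16) (hiX : i ∈ NearX X s z) (hi : g y ∈ closedBall (z i) (σ i)) :
    ∃ x ∈ X, ‖T y - x‖ ≤ s (T y) := by
  obtain ⟨x, hx, hxi⟩ := hiX
  obtain ⟨h1, h2⟩ := size_le hs near hσ hi
  rw [mem_closedBall, dist_eq_norm] at hi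
  refine ⟨x, hx, ?_⟩
  have e : T y - x = (g y - z i) - (g y - T y) + (z i - x) := by abel
  rw [e]
  refine (norm_add_le _ _).trans ?_
  have h4 := norm_sub_le (g y - z i) (g y - T y)
  have h5 : 0 ≤ s (T y) := by linarith [norm_nonneg (g y - T y)]
  linarith

theorem measure_active_le {ν : Measure V} {ε₀ : ℝ≥0∞}
    (vol : ν {y | y ∈ Λ ∧ T y ∉ X ∧ ∃ x' ∈ X, ‖T y - x'‖ ≤ s (T y)} ≤ ε₀)
    (near : ∀ y ∈ Λ, ‖g y - T y‖ ≤ s (T y) / 16) (hσ : ∀ i, σ i ≤ s (z i) / 16) :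
    ν {y | y ∈ Λ ∧ T y ∉ X ∧ ∃ i ∈ NearX X s z, g y ∈ closedBall (z i) (σ i)} ≤ ε₀ := by
  refine (measure_mono ?_).trans vol
  rintro y ⟨hy, hX, i, hi, hyi⟩
  exact ⟨hy, hX, near_of_active hs (near y hy) (hσ i) hi hyi⟩

omit hs in
/-- the cubes which meet the skeleton are near it -/
theorem mem_nearX {i : ι} (hσ : σ i ≤ s (z i) / 16) (h0 : 0 ≤ s (z i))
    (hi : (closedBall (z i) (σ i) ∩ X).Nonempty) : i ∈ NearX X s z := by
  obtain ⟨x, hx, hxX⟩ := hi
  rw [mem_closedBall, dist_eq_norm, norm_sub_rev] at hx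
  exact ⟨x, hxX, by linarith⟩

/-- points at distance at most `s/4` of the skeleton: their cubes are near -/
theorem mem_nearX_of {i : ι} (hσ : σ i ≤ s (z i) / 16) {u x : V}
    (hu : u ∈ closedBall (z i) (σ i)) (hx : x ∈ X) (hux : ‖u - x‖ ≤ s u / 4) :
    i ∈ NearX X s z := by
  rw [mem_closedBall, dist_eq_norm] at hu
  have h1 := hs u (z i)
  refine ⟨x, hx, ?_⟩
  have e : z i - x = (u - x) - (u - z i) := by abel
  rw [e]
  refine (norm_sub_le _ _).trans ?_
  have h2 : 0 ≤ s (z i) := by linarith [norm_nonneg (u - z i)]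
  linarith

/-- two rings around a cube which meets the skeleton are near it -/
theorem mem_nearX_ring (hσ : ∀ i, σ i ≤ s (z i) / 16) (W : Cubes Λ z σ) {i j l : ι}
    (hi : (closedBall (z i) (σ i) ∩ X).Nonempty)
    (hij : (closedBall (z i) (σ i) ∩ closedBall (z j) (σ j)).Nonempty)
    (hjl : (closedBall (z j) (σ j) ∩ closedBall (z l) (σ l)).Nonempty) : l ∈ NearX X s z := by
  obtain ⟨x, hx, hxX⟩ := hi
  obtain ⟨u, hu, hu'⟩ := hij
  obtain ⟨w, hw, hw'⟩ := hjl
  rw [mem_closedBall, dist_eq_norm] at hx hu hu' hw hw'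
  have h1 := hσ i
  have h2 := hσ j
  have h3 := hσ l
  have e1 := hs (z i) (z l)
  have e2 := hs (z j) (z l)
  have n1 : ‖z j - z l‖ ≤ σ j + σ l := by
    have e : z j - z l = (w - z l) - (w - z j) := by abel
    rw [e]; exact (norm_sub_le _ _).trans (by linarith)
  have n2 : ‖z i - z j‖ ≤ σ i + σ j := by
    have e : z i - z j = (u - z j) - (u - z i) := by abel
    rw [e]; exact (norm_sub_le _ _).trans (by linarith)
  have n3 : ‖z i - z l‖ ≤ σ i + 2 * σ j + σ l := by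
    have e : z i - z l = (z i - z j) + (z j - z l) := by abel
    rw [e]; exact (norm_add_le _ _).trans (by linarith)
  have p := W.pos l
  refine ⟨x, hxX, ?_⟩
  have e : z l - x = (z i - x) - (z i - z l) := by abel
  rw [e]
  refine (norm_sub_le _ _).trans ?_
  rw [norm_sub_rev (z i) x]
  linarith

end

end Vale.Agent.P073.H851
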