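import Vale.Agent.P073.H851.TTot
import Vale.Agent.P073.H851.Cost
import Vale.Agent.P073.H471.TileSt
import Vale.Agent.P073.H304.SpecB

/-!
# P073, [TT-IN]: the map `Tt ∘ h₁` satisfies the hypotheses of the theorem with 3-cells (Round 2)
-/

open Set Metric Topology Filter Matrix MeasureTheory
open scoped ENNReal

namespace Vale.Agent.P073.H851

open _root_.P073
open _root_.P073.Net (dyc dyo IsTile SizeFn)
open Vale.Agent.P073.St (V)
open Vale.Agent.P073.H471 (Cubes TI zt st cB_eq B_eq cubes_tiles st_pos)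
open Vale.Agent.P073.H726 (AlignG)
open Vale.Agent.P073.H304 (Nb mid In)
open Vale.Agent.P073.H73 (Mesh sqr)

variable {Λ : Set V} {ρ s : V → ℝ} {w : V}

/-- the tiles at relative distance at most `6` from the skeleton -/
def onT (ρ : V → ℝ) (w : V) (X : Set V) : Set (ℕ × (Fin 3 → ℤ)) :=
  {t | IsTile ρ w t.1 t.2 ∧ ∃ u ∈ dyc w t.1 t.2, ∃ x ∈ X, ‖u - x‖ ≤ 6 / 2 ^ t.1}

/-- the tiles near the skeleton -/
def nearT (ρ : V → ℝ) (w : V) (X : Set V) (s : V → ℝ) : Set (ℕ × (Fin 3 → ℤ)) :=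
  Subtype.val '' NearX X s (zt ρ w)

/-- size functions below `s / 64` -/
theorem sizeFn_of_lip (hs : ∀ x y, s x ≤ s y + ‖x - y‖) (hp : ∀ x ∈ Λ, 0 < s x)
    (ho : ∀ x ∉ Λ, s x ≤ 0) {c : ℝ} (hc : 0 < c) (hc1 : c ≤ 1) :
    SizeFn Λ (fun y => min (s y / 64) c) where
  lip x y := by
    have := hs x y
    refine min_le_iff.2 ?_
    rcases le_total (s y / 64) c with h | h
    · left; rw [min_eq_left h]; linarith [norm_nonneg (x - y)]
    · right; rw [min_eq_right h]; linarith [norm_nonneg (x - y)]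
  pos x hx := lt_min (by linarith [hp x hx]) hc
  off x hx := (min_le_left _ _).trans (by linarith [ho x hx])
  le_one x := (min_le_right _ _).trans hc1

theorem st_le (hρs : ∀ y, ρ y ≤ s y / 64) (i : TI ρ w) : st ρ w i ≤ s (zt ρ w i) / 128 := by
  have h1 : zt ρ w i ∈ dyc w i.1.1 i.1.2 := by
    rw [← cB_eq]; exact mem_closedBall_self (st_pos i).le
  have h2 := (i.2.1 _ h1).trans (hρs _)
  have h3 : st ρ w i = 1 / 2 ^ i.1.1 / 2 := by unfold st; ring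
  rw [h3]
  linarith

theorem st_le_one (i : TI ρ w) : st ρ w i ≤ 1 := by
  unfold st
  have : (1:ℝ) ≤ 2 ^ i.1.1 := one_le_pow₀ (by norm_num)
  rw [div_le_one (by positivity)]
  linarith

theorem two_st (i : TI ρ w) : (1:ℝ) / 2 ^ i.1.1 = 2 * st ρ w i := by unfold st; ring

/-- a point of the closed cube outside the middle cube is near the frontier -/
theorem exists_frontier {z y : V} {σ η : ℝ} (hσ : 0 < σ) (h1 : ‖y - z‖ ≤ σ)
    (h2 : (1 - η) * σ ≤ ‖y - z‖) : ∃ x ∈ frontier (closedBall z σ), ‖y - x‖ ≤ η * σ := by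
  obtain ⟨l, hl⟩ : ∃ l, |y l - z l| = ‖y - z‖ := by
    obtain ⟨l, -, hl⟩ := Finset.exists_max_image Finset.univ (fun l => |y l - z l|)
      Finset.univ_nonempty
    refine ⟨l, le_antisymm ?_ ?_⟩
    · have := norm_le_pi_norm (y - z) l
      rwa [Pi.sub_apply, Real.norm_eq_abs] at this
    · rw [pi_norm_le_iff_of_nonneg (abs_nonneg _)]
      intro k
      rw [Pi.sub_apply, Real.norm_eq_abs]
      exact hl k (Finset.mem_univ k)
  obtain ⟨t, ht, htl⟩ : ∃ t : ℝ, |t - z l| = σ ∧ |y l - t| = σ - |y l - z l| := by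
    rcases le_total 0 (y l - z l) with h | h
    · refine ⟨z l + σ, by rw [add_sub_cancel_left, abs_of_pos hσ], ?_⟩
      rw [abs_of_nonneg h] at hl ⊢
      rw [abs_of_nonpos (by linarith)]
      ring
    · refine ⟨z l - σ, by rw [sub_sub_cancel_left, abs_neg, abs_of_pos hσ], ?_⟩
      rw [abs_of_nonpos h] at hl ⊢
      rw [abs_of_nonneg (by linarith)]
      ring
  refine ⟨Function.update y l t, ?_, ?_⟩
  · rw [frontier_closedBall z hσ.ne', mem_sphere, dist_eq_norm]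
    apply le_antisymm
    · rw [pi_norm_le_iff_of_nonneg hσ.le]
      intro k
      rw [Pi.sub_apply, Real.norm_eq_abs]
      rcases eq_or_ne k l with hk | hk
      · subst hk; rw [Function.update_self, ht]
      · rw [Function.update_of_ne hk]
        have := norm_le_pi_norm (y - z) k
        rw [Pi.sub_apply, Real.norm_eq_abs] at this
        exact this.trans h1
    · have := norm_le_pi_norm (Function.update y l t - z) l
      rwa [Pi.sub_apply, Real.norm_eq_abs, Function.update_self, ht] at this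
  · rw [pi_norm_le_iff_of_nonneg (by nlinarith [norm_nonneg (y - z)])]
    intro k
    rw [Pi.sub_apply, Real.norm_eq_abs]
    rcases eq_or_ne k l with hk | hk
    · subst hk; rw [Function.update_self, htl, hl]; linarith
    · rw [Function.update_of_ne hk, sub_self, abs_zero]
      nlinarith [norm_nonneg (y - z)]

/-- **the signs** -/
theorem SS_mulVec_apply (e : ℝ) (x : V) (j : Fin 3) :
    (SS e *ᵥ x) j = (![e, 1, 1] : Fin 3 → ℝ) j * x j := by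
  rw [SS, Matrix.mulVec_diagonal]

/-- The mesh of Round 2: the dyadic cubes attached to the tiles of `J` are cells, the other cells
near the processed tiles are small dyadic cubes with dyadic faces. -/
structure RMesh {Ω : Set V} (δ c₀ : ℝ) (v w : V) (h : V → V) (J₀ : Set (ℕ × (Fin 3 → ℤ)))
    {ρ : V → ℝ} (J : Set (TI ρ w)) (n : TI ρ w → ℕ) (wd : TI ρ w → Fin 3 → ℤ) (M : Mesh Ω)
    (P : Set M.ι) : Prop where
  ofP : ∀ i ∈ P, ∃ t ∈ J, M.Q i = dyc v (n t) (wd t)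
  toP : ∀ t ∈ J, ∃ i ∈ P, M.Q i = dyc v (n t) (wd t)
  cube : ∀ i, i ∉ P → (h '' M.Q i ∩ Nb w J₀ c₀).Nonempty → ∃ m z, M.Q i = dyc v m z
  small : ∀ i, i ∉ P → ∀ t ∈ J₀, (h '' M.Q i ∩ Nb w {t} c₀).Nonempty →
    ∀ x ∈ M.Q i, ∀ y ∈ M.Q i, ‖h x - h y‖ ≤ δ / 2 ^ t.1
  face : ∀ k, (h '' M.F k ∩ Nb w J₀ c₀).Nonempty → ∃ s : AB.Idx × Fin 3, M.F k = AB.squ v s

/-- the drawn cells -/
def drawnZ {Ω : Set V} (η : ℝ) (w : V) (h : V → V) (J₀ : Set (ℕ × (Fin 3 → ℤ))) (M : Mesh Ω)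
    (P : Set M.ι) : Set M.ι := {i | i ∉ P ∧ h '' M.Q i ⊆ Nb w J₀ η}

/-- a segment which leaves a cube meets its frontier -/
theorem exists_cross {z : V} {σ : ℝ} {u u₀ : V} (h0 : u₀ ∈ closedBall z σ)
    (h1 : u ∉ closedBall z σ) : ∃ p ∈ frontier (closedBall z σ), ‖u - p‖ ≤ ‖u - u₀‖ := by
  obtain ⟨p, hp, hpf⟩ : ∃ p ∈ segment ℝ u₀ u, p ∈ frontier (closedBall z σ) := by
    by_contra hn
    push Not at hn
    have hsub : segment ℝ u₀ u ⊆ interior (closedBall z σ) ∪ (closedBall z σ)ᶜ := by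
      intro p hp
      by_cases h : p ∈ closedBall z σ
      · left
        by_contra h2
        refine hn p hp ?_
        rw [(isClosed_closedBall (x := z) (ε := σ)).frontier_eq]
        exact ⟨h, h2⟩
      · exact Or.inr h
    obtain ⟨p, -, h2, h3⟩ := (convex_segment u₀ u).isPreconnected _ _ isOpen_interior
      isClosed_closedBall.isOpen_compl hsub
      ⟨u₀, left_mem_segment ℝ _ _, (hsub (left_mem_segment ℝ _ _)).resolve_right fun h => h h0⟩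
      ⟨u, right_mem_segment ℝ _ _, h1⟩
    exact h3 (interior_subset h2)
  refine ⟨p, hpf, ?_⟩
  obtain ⟨a, b, ha, hb, hab, rfl⟩ := hp
  have e : u - (a • u₀ + b • u) = a • (u - u₀) := by
    have : u = a • u + b • u := by rw [← add_smul, hab, one_smul]
    nth_rw 1 [this]
    module
  rw [e, norm_smul, Real.norm_of_nonneg ha]
  exact mul_le_of_le_one_left (norm_nonneg _) (by linarith)

section near

variable {X : Set V}

/-- a tile at relative distance at most `6` from the skeleton -/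
theorem mem_nearX_dist (hρs : ∀ y, ρ y ≤ s y / 64) {i : TI ρ w}
    {u x : V} (hu : u ∈ dyc w i.1.1 i.1.2) (hx : x ∈ X) (hux : ‖u - x‖ ≤ 6 / 2 ^ i.1.1) :
    i ∈ NearX X s (zt ρ w) := by
  have h1 := st_le hρs i
  have h2 := two_st i
  have e1 : (6:ℝ) / 2 ^ i.1.1 = 6 * (1 / 2 ^ i.1.1) := by ring
  rw [e1, h2] at hux
  rw [← cB_eq, mem_closedBall, dist_eq_norm] at hu
  refine ⟨x, hx, ?_⟩
  have e : zt ρ w i - x = (u - x) - (u - zt ρ w i) := by abel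
  rw [e]
  have := norm_sub_le (u - x) (u - zt ρ w i)
  have := st_pos i
  linarith

theorem onT_near (hρs : ∀ y, ρ y ≤ s y / 64) {t : ℕ × (Fin 3 → ℤ)} (ht : t ∈ onT ρ w X) :
    (⟨t, ht.1⟩ : TI ρ w) ∈ NearX X s (zt ρ w) := by
  obtain ⟨htT, u, hu, x, hx, hux⟩ := ht
  exact mem_nearX_dist hρs hu hx hux

theorem onT_sub (hρs : ∀ y, ρ y ≤ s y / 64) : onT ρ w X ⊆ nearT ρ w X s :=
  fun _ ht => ⟨_, onT_near hρs ht, rfl⟩

/-- a tile which contains a point at relative distance at most `1 / 32` from a tile in `onT` is in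
`NearX` -/
theorem mem_near (hρs : ∀ y, ρ y ≤ s y / 64) (hs : ∀ x y, s x ≤ s y + ‖x - y‖)
    {t : ℕ × (Fin 3 → ℤ)} (ht : t ∈ onT ρ w X) {u p : V} (hp : p ∈ dyc w t.1 t.2)
    (hup : ‖u - p‖ ≤ 1 / 32 / 2 ^ t.1) {i : TI ρ w}
    (hi : u ∈ closedBall (zt ρ w i) (st ρ w i)) : i ∈ NearX X s (zt ρ w) := by
  obtain ⟨htT, q, hq, x, hx, hqx⟩ := ht
  obtain ⟨i₀, hi₀⟩ : ∃ i₀ : TI ρ w, i₀ = ⟨t, htT⟩ := ⟨_, rfl⟩
  have hval : i₀.1 = t := by rw [hi₀]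
  have hp' : p ∈ closedBall (zt ρ w i₀) (st ρ w i₀) := by rw [cB_eq, hval]; exact hp
  have hq' : q ∈ closedBall (zt ρ w i₀) (st ρ w i₀) := by rw [cB_eq, hval]; exact hq
  have h2 := two_st i₀
  rw [hval] at h2
  have hup' : ‖u - p‖ ≤ st ρ w i₀ / 16 := by
    have e1 : (1:ℝ) / 32 / 2 ^ t.1 = 1 / 32 * (1 / 2 ^ t.1) := by ring
    rw [e1, h2] at hup
    linarith
  have hqx' : ‖q - x‖ ≤ 12 * st ρ w i₀ := by
    have e1 : (6:ℝ) / 2 ^ t.1 = 6 * (1 / 2 ^ t.1) := by ring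
    rw [e1, h2] at hqx
    linarith
  rw [mem_closedBall, dist_eq_norm] at hp' hq'
  have h3 := st_le hρs i₀
  have h4 := hs (zt ρ w i₀) u
  have h5 := st_pos i₀
  have h6 : ‖zt ρ w i₀ - u‖ ≤ st ρ w i₀ + st ρ w i₀ / 16 := by
    have e1 : zt ρ w i₀ - u = -(p - zt ρ w i₀) + -(u - p) := by abel
    rw [e1]
    have := norm_add_le (-(p - zt ρ w i₀)) (-(u - p))
    simp only [norm_neg] at *
    linarith
  refine mem_nearX_of hs (by linarith [st_le hρs i, st_pos i] : st ρ w i ≤ s (zt ρ w i) / 16) hi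
    hx ?_
  have e1 : u - x = (q - x) - (q - zt ρ w i₀) - (zt ρ w i₀ - u) := by abel
  rw [e1]
  have := norm_sub_le (q - x - (q - zt ρ w i₀)) (zt ρ w i₀ - u)
  have := norm_sub_le (q - x) (q - zt ρ w i₀)
  linarith

theorem onT_nbr (hρs : ∀ y, ρ y ≤ s y / 64) (hs : ∀ x y, s x ≤ s y + ‖x - y‖)
    {t : ℕ × (Fin 3 → ℤ)} (ht : t ∈ onT ρ w X) {t' : ℕ × (Fin 3 → ℤ)}
    (ht' : IsTile ρ w t'.1 t'.2) (hne : (dyc w t.1 t.2 ∩ dyc w t'.1 t'.2).Nonempty) :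
    t' ∈ nearT ρ w X s := by
  obtain ⟨p, hp, hp'⟩ := hne
  refine ⟨⟨t', ht'⟩, mem_near hρs hs ht (u := p) hp ?_ (by rw [cB_eq]; exact hp'), rfl⟩
  rw [sub_self, norm_zero]; positivity

end near

/-- the input of [TT-IN] -/
structure Pre {ρ : V → ℝ} {w : V} {K : Type*} (N : ℕ) (Ω Λ V₀ X : Set V)
    (s : V → ℝ) (η : ℝ) (c : TI ρ w → V) (Mi : TI ρ w → M3)
    (bi : TI ρ w → V) (g : V → V) (A : K → M3) (b : K → V) (D : K → Set V) (r0 L : K → ℝ) (v : V)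
    (Cg : ℝ) (κ : TI ρ w → K) (e : TI ρ w → ℝ) (n : TI ρ w → ℕ) (wd : TI ρ w → Fin 3 → ℤ)
    (Ξ : TI ρ w → V → V) (Tt h1 : V → V) : Prop where
  hρ : SizeFn Λ ρ
  hρs : ∀ y, ρ y ≤ s y / 64
  lips : ∀ x y, s x ≤ s y + ‖x - y‖
  η0 : 0 < η
  η1 : η < 1 / 2
  tt : IsTTot N Λ V₀ X (zt ρ w) (st ρ w) (fun _ => η) c Mi bi g (NearX X s (zt ρ w)) A b D r0
      L v Cg κ e n wd Ξ Tt
  mapsTt : MapsTo Tt Λ Λ
  maps : MapsTo h1 Ω Λ
  inj : InjOn h1 Ω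
  D_sub : ∀ k, D k ⊆ Ω
  aff : ∀ k, ∀ x ∈ D k, h1 x = A k *ᵥ x + b k

variable {K : Type*} {Ω V₀ X : Set V} {N : ℕ} {η δ c₀ κ₀ : ℝ} {T : V → V}
  {c : TI ρ w → V} {Mi : TI ρ w → M3} {bi : TI ρ w → V} {g : V → V}
  {A : K → M3} {b : K → V} {D : K → Set V} {r0 L : K → ℝ} {v : V} {Cg : ℝ} {κ : TI ρ w → K}
  {e : TI ρ w → ℝ} {n : TI ρ w → ℕ} {wd : TI ρ w → Fin 3 → ℤ} {Ξ : TI ρ w → V → V}
  {Tt h1 : V → V}

section pre

variable (S : Pre N Ω Λ V₀ X s η c Mi bi g A b D r0 L v Cg κ e n wd Ξ Tt h1)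

include S

theorem Pre.abs_sign (t : TI ρ w) : |e t| = 1 := by rcases S.tt.sign t with h | h <;> simp [h]

/-- the protected cells are mapped diagonally -/
theorem Pre.diag {t : TI ρ w} (ht : t ∈ NearX X s (zt ρ w)) {x : V}
    (hx : x ∈ dyc v (n t) (wd t)) : Tt (h1 x) = zt ρ w t + ((1 - η) * st ρ w t /
      Net.hs (n t)) • (SS (e t) *ᵥ (x - Net.ctr v (n t) (wd t))) := by
  rw [S.aff (κ t) x ((S.tt.cell t).sub hx)]
  exact S.tt.diag t ht x hx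

theorem Pre.mid {t : TI ρ w} (ht : t ∈ NearX X s (zt ρ w)) {x : V} (hx : x ∈ Ω)
    (h2 : ‖Tt (h1 x) - zt ρ w t‖ ≤ (1 - η) * st ρ w t) : x ∈ dyc v (n t) (wd t) := by
  obtain ⟨x', hx', h3⟩ := S.tt.mid t ht (h1 x) (S.maps hx) h2
  have h4 := S.aff (κ t) x' ((S.tt.cell t).sub hx')
  rw [← h4] at h3
  rwa [S.inj hx (S.D_sub _ ((S.tt.cell t).sub hx')) h3]

theorem Pre.norm {t : TI ρ w} (ht : t ∈ NearX X s (zt ρ w)) {x : V}
    (hx : x ∈ dyc v (n t) (wd t)) : ‖Tt (h1 x) - zt ρ w t‖ =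
      (1 - η) * st ρ w t / Net.hs (n t) * ‖x - Net.ctr v (n t) (wd t)‖ := by
  have hp : 0 ≤ (1 - η) * st ρ w t / Net.hs (n t) :=
    div_nonneg (mul_nonneg (by linarith [S.η1]) (st_pos t).le) (hs_pos' _).le
  rw [S.diag ht hx, add_sub_cancel_left, norm_smul, Real.norm_of_nonneg hp,
    SS_mulVec_norm (S.abs_sign t)]

theorem Pre.image {t : TI ρ w} (ht : t ∈ NearX X s (zt ρ w)) :
    (fun x => Tt (h1 x)) '' dyc v (n t) (wd t) = H304.mid w η t.1 := by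
  have hη : 0 < 1 - η := by linarith [S.η1]
  have hmid_eq : H304.mid w η t.1 = closedBall (zt ρ w t) ((1 - η) * st ρ w t) := by
    unfold H304.mid st zt
    congr 1
    ring
  rw [hmid_eq]
  have hs0 := hs_pos' (n t)
  have hs1 := st_pos t
  apply Subset.antisymm
  · rintro _ ⟨x, hx, rfl⟩
    rw [mem_closedBall, dist_eq_norm]
    show ‖Tt (h1 x) - zt ρ w t‖ ≤ _
    rw [S.norm ht hx]
    rw [dyc_ball, mem_closedBall, dist_eq_norm] at hx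
    calc _ ≤ (1 - η) * st ρ w t / Net.hs (n t) * Net.hs (n t) := by gcongr
      _ = _ := by field_simp
  · intro y hy
    rw [mem_closedBall, dist_eq_norm] at hy
    have hyΛ : y ∈ Λ := by
      refine (cubes_tiles S.hρ w).sub t ?_
      rw [mem_closedBall, dist_eq_norm]
      refine hy.trans ?_
      nlinarith [S.η0]
    obtain ⟨q, hq⟩ : ∃ q, q = (1 - η) * st ρ w t / Net.hs (n t) := ⟨_, rfl⟩
    have hq0 : 0 < q := by rw [hq]; positivity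
    obtain ⟨x, hx⟩ : ∃ x, x = Net.ctr v (n t) (wd t) +
      q⁻¹ • (SS (e t) *ᵥ (y - zt ρ w t)) := ⟨_, rfl⟩
    have hx1 : x ∈ dyc v (n t) (wd t) := by
      rw [dyc_ball, mem_closedBall, dist_eq_norm, hx, add_sub_cancel_left, norm_smul,
        SS_mulVec_norm (S.abs_sign t), norm_inv, Real.norm_of_nonneg hq0.le,
        inv_mul_eq_div, div_le_iff₀ hq0, hq]
      calc _ ≤ (1 - η) * st ρ w t := hy
        _ = Net.hs (n t) * ((1 - η) * st ρ w t / Net.hs (n t)) := by field_simp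
    refine ⟨x, hx1, ?_⟩
    show Tt (h1 x) = y
    rw [S.diag ht hx1, ← hq, hx, add_sub_cancel_left, Matrix.mulVec_smul,
      Matrix.mulVec_mulVec, SS_mul_self (S.abs_sign t), Matrix.one_mulVec, smul_smul,
      mul_inv_cancel₀ hq0.ne', one_smul]
    abel

/-- the points outside the protected cell are mapped to the shell -/
theorem Pre.shell {t : TI ρ w} (ht : t ∈ NearX X s (zt ρ w)) {x : V} (hx : x ∈ Ω)
    (hx2 : x ∉ ball (Net.ctr v (n t) (wd t)) (Net.hs (n t))) :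
    (1 - η) * st ρ w t ≤ ‖Tt (h1 x) - zt ρ w t‖ := by
  by_contra hlt
  push Not at hlt
  have h3 := S.mid ht hx hlt.le
  rw [S.norm ht h3, div_mul_eq_mul_div, div_lt_iff₀ (hs_pos' _)] at hlt
  refine hx2 ?_
  rw [mem_ball, dist_eq_norm]
  exact lt_of_mul_lt_mul_left hlt (mul_pos (by linarith [S.η1]) (st_pos t)).le

variable {M : Mesh Ω} {P : Set M.ι}
  (R : RMesh δ c₀ v w (fun x => Tt (h1 x)) (onT ρ w X) (NearX X s (zt ρ w)) n wd M P)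

include R

theorem Pre.notMem_ball {i : M.ι} (hi : i ∉ P) {x : V} (hx : x ∈ M.Q i) {t : TI ρ w}
    (ht : t ∈ NearX X s (zt ρ w)) : x ∉ ball (Net.ctr v (n t) (wd t)) (Net.hs (n t)) := by
  intro h
  obtain ⟨i', hi', hQ'⟩ := R.toP t ht
  have hne : i' ≠ i := fun h => hi (h ▸ hi')
  have h4 : x ∈ interior (M.Q i') := by
    rwa [hQ', dyc_ball, interior_closedBall _ (hs_pos' _).ne']
  exact disjoint_left.1 (M.disj i' i hne) h4 hx

/-- points of the unprotected cells, with image in a tile near the skeleton, are in the shells -/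
theorem Pre.mem_Nb {i : M.ι} (hi : i ∉ P) {x : V} (hx : x ∈ M.Q i) {t : TI ρ w}
    (ht : t ∈ NearX X s (zt ρ w)) (hu : Tt (h1 x) ∈ closedBall (zt ρ w t) (st ρ w t)) :
    Tt (h1 x) ∈ Nb w {t.1} η := by
  have h2 := S.shell ht (M.sub i hx) (S.notMem_ball R hi hx ht)
  rw [mem_closedBall, dist_eq_norm] at hu
  obtain ⟨y, hy, hy2⟩ := exists_frontier (st_pos t) hu h2
  refine ⟨t.1, rfl, y, ?_, hy2.trans ?_⟩
  · rwa [cB_eq] at hy
  · have e1 : η / 2 ^ t.1.1 = η * (1 / 2 ^ t.1.1) := by ring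
    rw [e1, two_st]
    nlinarith [st_pos t, S.η0]

/-- **drawn cells**: the unprotected cells with a point whose image is in a processed tile -/
theorem Pre.mem_drawn (hδ : δ ≤ η) (hηc : η ≤ c₀) {i : M.ι} (hi : i ∉ P) {x : V}
    (hx : x ∈ M.Q i) {t : ℕ × (Fin 3 → ℤ)} (ht : t ∈ onT ρ w X)
    (hu : Tt (h1 x) ∈ dyc w t.1 t.2) :
    i ∈ drawnZ η w (fun x => Tt (h1 x)) (onT ρ w X) M P := by
  have htJ := onT_near S.hρs ht
  refine ⟨hi, ?_⟩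
  rintro _ ⟨x', hx', rfl⟩
  have h0 := S.mem_Nb R hi hx htJ (by rw [cB_eq]; exact hu)
  have hosc : ‖Tt (h1 x') - Tt (h1 x)‖ ≤ δ / 2 ^ t.1 := by
    refine R.small i hi t ht ⟨_, ⟨x, hx, rfl⟩, ?_⟩ x' hx' x hx
    obtain ⟨t', ht', p, hp, hup⟩ := h0
    refine ⟨t', ht', p, hp, hup.trans ?_⟩
    gcongr
  by_cases hd : Tt (h1 x') ∈ dyc w t.1 t.2
  · obtain ⟨t', ht', h3⟩ := S.mem_Nb R hi hx' htJ (by rw [cB_eq]; exact hd)
    rw [mem_singleton_iff] at ht'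
    subst ht'
    exact ⟨_, ht, h3⟩
  · have h2 : Tt (h1 x') ∉ closedBall (zt ρ w ⟨t, ht.1⟩) (st ρ w ⟨t, ht.1⟩) := by
      rw [cB_eq]; exact hd
    have h3 : Tt (h1 x) ∈ closedBall (zt ρ w ⟨t, ht.1⟩) (st ρ w ⟨t, ht.1⟩) := by
      rw [cB_eq]; exact hu
    obtain ⟨p, hp, hp2⟩ := exists_cross h3 h2
    rw [cB_eq] at hp
    refine ⟨t, ht, p, hp, ?_⟩
    show ‖Tt (h1 x') - p‖ ≤ _
    refine hp2.trans (hosc.trans ?_)
    gcongr

/-- the cells which meet `V₀` are drawn -/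
theorem Pre.drawn_of_V0 (hδ : δ ≤ η) (hηc : η ≤ c₀)
    (hV : ∀ y ∈ Λ, y ∈ V₀ → T y ∈ X)
    (hg : ∀ y ∈ Λ, ∀ i, g y ∈ closedBall (zt ρ w i) (st ρ w i) → ‖g y - T y‖ ≤ st ρ w i / 8)
    (hgm : MapsTo g Λ Λ) {i : M.ι} (hi : i ∉ P) {x : V} (hx : x ∈ M.Q i) (hxV : h1 x ∈ V₀) :
    i ∈ drawnZ η w (fun x => Tt (h1 x)) (onT ρ w X) M P := by
  have hy := S.maps (M.sub i hx)
  obtain ⟨m', z', htile, hmem⟩ := KW.exists_tile (v := w) S.hρ (hgm hy)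
  obtain ⟨j, hj⟩ : ∃ j : TI ρ w, j = ⟨(m', z'), htile⟩ := ⟨_, rfl⟩
  have hjv : j.1 = (m', z') := by rw [hj]
  have hmem' : g (h1 x) ∈ closedBall (zt ρ w j) (st ρ w j) := by
    rw [cB_eq, hjv]; exact hmem
  have h2 := hg _ hy j hmem'
  have h3 : j.1 ∈ onT ρ w X := by
    refine ⟨j.2, g (h1 x), ?_, T (h1 x), hV _ hy hxV, h2.trans ?_⟩
    · rwa [cB_eq] at hmem'
    · have e1 : (6:ℝ) / 2 ^ j.1.1 = 6 * (1 / 2 ^ j.1.1) := by ring
      rw [e1, two_st]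
      linarith [st_pos j]
  refine S.mem_drawn R hδ hηc hi hx h3 ?_
  have h4 := (S.tt.cube _ hy j).2 hmem'
  rwa [cB_eq] at h4

omit R in
/-- the collapsed part avoids the protected cells -/
theorem Pre.notMem_V0 (hκ : kp N ≤ κ₀) (hV0 : ∀ y ∈ Λ, y ∈ V₀ → ∀ i, κ₀ * st ρ w i < ‖g y - c i‖)
    (t : TI ρ w) {x : V} (hx : x ∈ dyc v (n t) (wd t)) : h1 x ∉ V₀ := by
  intro h0
  have h2 := (S.tt.cell t).core x hx
  have h3 := S.aff (κ t) x ((S.tt.cell t).sub hx)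
  have h4 := hV0 _ (S.maps (S.D_sub _ ((S.tt.cell t).sub hx))) h0 t
  rw [h3] at h4
  have h5 : kp N * st ρ w t ≤ κ₀ * st ρ w t := mul_le_mul_of_nonneg_right hκ (st_pos t).le
  linarith [mul_pos (kp_pos N) (st_pos t)]

/-- **the neighbours of the cells which are not drawn do not meet `V₀`** -/
theorem Pre.good_nbr (hδ : δ ≤ η) (hηc : η ≤ c₀) (hκ : kp N ≤ κ₀)
    (hV0 : ∀ y ∈ Λ, y ∈ V₀ → ∀ i, κ₀ * st ρ w i < ‖g y - c i‖)
    (hV : ∀ y ∈ Λ, y ∈ V₀ → T y ∈ X)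
    (hg : ∀ y ∈ Λ, ∀ i, g y ∈ closedBall (zt ρ w i) (st ρ w i) → ‖g y - T y‖ ≤ st ρ w i / 8)
    (hgm : MapsTo g Λ Λ) (hδ1 : δ ≤ 1 / 64) {i i' : M.ι} (hi : i ∉ P)
    (hiZ : i ∉ drawnZ η w (fun x => Tt (h1 x)) (onT ρ w X) M P)
    (hne : (M.Q i ∩ M.Q i').Nonempty) {x₀ : V} (hx₀ : x₀ ∈ M.Q i') : h1 x₀ ∉ V₀ := by
  intro h0
  by_cases hi' : i' ∈ P
  · obtain ⟨t, -, hQ⟩ := R.ofP i' hi'
    rw [hQ] at hx₀
    exact S.notMem_V0 hκ hV0 t hx₀ h0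
  obtain ⟨x₁, hx₁, hx₁'⟩ := hne
  have hy₀ := S.maps (M.sub i' hx₀)
  have hy₁ := S.maps (M.sub i hx₁)
  obtain ⟨m, z, htile, hmem⟩ := KW.exists_tile (v := w) S.hρ (hgm hy₀)
  obtain ⟨a, ha⟩ : ∃ a : TI ρ w, a = ⟨(m, z), htile⟩ := ⟨_, rfl⟩
  have hav : a.1 = (m, z) := by rw [ha]
  have hga : g (h1 x₀) ∈ closedBall (zt ρ w a) (st ρ w a) := by rw [cB_eq, hav]; exact hmem
  have hTa := (S.tt.cube _ hy₀ a).2 hga
  have h2 := hg _ hy₀ a hga
  have hX := hV _ hy₀ h0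
  have h2s := two_st a
  have haX : a.1 ∈ onT ρ w X := by
    refine ⟨a.2, g (h1 x₀), by rwa [cB_eq] at hga, T (h1 x₀), hX, h2.trans ?_⟩
    have e1 : (6:ℝ) / 2 ^ a.1.1 = 6 * (1 / 2 ^ a.1.1) := by ring
    rw [e1, two_st]
    linarith [st_pos a]
  have hN := S.mem_Nb R hi' hx₀ (onT_near S.hρs haX) hTa
  have hosc : ‖Tt (h1 x₁) - Tt (h1 x₀)‖ ≤ δ / 2 ^ a.1.1 := by
    refine R.small i' hi' a.1 haX ⟨_, ⟨x₀, hx₀, rfl⟩, ?_⟩ x₁ hx₁' x₀ hx₀
    obtain ⟨t', ht', p, hp, hup⟩ := hN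
    refine ⟨t', ht', p, hp, hup.trans ?_⟩
    gcongr
  -- the tile of the common point
  obtain ⟨m', z', htile', hmem'⟩ := KW.exists_tile (v := w) S.hρ (S.mapsTt hy₁)
  obtain ⟨j, hj⟩ : ∃ j : TI ρ w, j = ⟨(m', z'), htile'⟩ := ⟨_, rfl⟩
  have hjv : j.1 = (m', z') := by rw [hj]
  have hTj : Tt (h1 x₁) ∈ dyc w j.1.1 j.1.2 := by rw [hjv]; exact hmem'
  have hsz : 1 / 2 ^ a.1.1 ≤ 10 * st ρ w j :=
    H471.size_of_near S.hρ (p := Tt (h1 x₀)) (by rwa [cB_eq] at hTa) hTj hδ1 (by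
      rw [norm_sub_rev]; exact hosc)
  refine hiZ (S.mem_drawn R hδ hηc hi hx₁ (t := j.1) ⟨j.2, Tt (h1 x₁), hTj, T (h1 x₀), hX, ?_⟩
    hTj)
  have e1 : Tt (h1 x₁) - T (h1 x₀) = (Tt (h1 x₁) - Tt (h1 x₀)) + (Tt (h1 x₀) - zt ρ w a) -
      (g (h1 x₀) - zt ρ w a) + (g (h1 x₀) - T (h1 x₀)) := by abel
  have e2 : (6:ℝ) / 2 ^ j.1.1 = 6 * (1 / 2 ^ j.1.1) := by ring
  have e3 : δ / 2 ^ a.1.1 = δ * (1 / 2 ^ a.1.1) := by ring
  rw [e2, two_st, e1]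
  rw [e3, h2s] at hosc
  rw [h2s] at hsz
  rw [mem_closedBall, dist_eq_norm] at hTa hga
  have n1 := norm_add_le ((Tt (h1 x₁) - Tt (h1 x₀)) + (Tt (h1 x₀) - zt ρ w a) -
      (g (h1 x₀) - zt ρ w a)) (g (h1 x₀) - T (h1 x₀))
  have n2 := norm_sub_le ((Tt (h1 x₁) - Tt (h1 x₀)) + (Tt (h1 x₀) - zt ρ w a))
    (g (h1 x₀) - zt ρ w a)
  have n3 := norm_add_le (Tt (h1 x₁) - Tt (h1 x₀)) (Tt (h1 x₀) - zt ρ w a)
  have n4 : δ * (2 * st ρ w a) ≤ 1 / 64 * (2 * st ρ w a) :=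
    mul_le_mul_of_nonneg_right hδ1 (by linarith [st_pos a])
  linarith [st_pos j]

/-- the active cells -/
theorem Pre.active (hδ : δ ≤ 1 / 64) (hc : c₀ ≤ 1 / 64) {i : M.ι} (hi : i ∉ P)
    (hne : ((fun x => Tt (h1 x)) '' M.Q i ∩ Nb w (onT ρ w X) c₀).Nonempty) :
    ∀ x ∈ M.Q i, ∃ t ∈ NearX X s (zt ρ w), g (h1 x) ∈ closedBall (zt ρ w t) (st ρ w t) ∧
      Tt (h1 x) ∈ Nb w {t.1} η := by
  intro x hx
  obtain ⟨_, ⟨x₀, hx₀, rfl⟩, t, ht, p, hp, hup⟩ := hne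
  have hy := S.maps (M.sub i hx)
  have hosc : ‖Tt (h1 x) - Tt (h1 x₀)‖ ≤ δ / 2 ^ t.1 :=
    R.small i hi t ht ⟨_, ⟨x₀, hx₀, rfl⟩, t, rfl, p, hp, hup⟩ x hx x₀ hx₀
  obtain ⟨m', z', htile, hmem⟩ := KW.exists_tile (v := w) S.hρ (S.mapsTt hy)
  obtain ⟨j, hj⟩ : ∃ j : TI ρ w, j = ⟨(m', z'), htile⟩ := ⟨_, rfl⟩
  have hjv : j.1 = (m', z') := by rw [hj]
  have hmem' : Tt (h1 x) ∈ closedBall (zt ρ w j) (st ρ w j) := by
    rw [cB_eq, hjv]; exact hmem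
  have hjJ : j ∈ NearX X s (zt ρ w) := by
    refine mem_near S.hρs S.lips ht (p := p) ((KW.isClosed_dyc _ _ _).frontier_subset hp) ?_ hmem'
    have e1 : Tt (h1 x) - p = (Tt (h1 x) - Tt (h1 x₀)) + (Tt (h1 x₀) - p) := by abel
    rw [e1]
    refine (norm_add_le _ _).trans ?_
    have hup : ‖Tt (h1 x₀) - p‖ ≤ c₀ / 2 ^ t.1 := hup
    have e2 : (1:ℝ) / 32 / 2 ^ t.1 = 1 / 64 / 2 ^ t.1 + 1 / 64 / 2 ^ t.1 := by ring
    rw [e2]
    refine add_le_add (hosc.trans ?_) (hup.trans ?_) <;> gcongr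
  exact ⟨j, hjJ, (S.tt.cube _ hy j).1 hmem', S.mem_Nb R hi hx hjJ hmem'⟩

/-- **[TT-IN]** -/
theorem Pre.in : In (Λ := Λ) η δ c₀ v w ρ M (fun x => Tt (h1 x)) (onT ρ w X) (nearT ρ w X s) P
      (drawnZ η w (fun x => Tt (h1 x)) (onT ρ w X) M P) := by
  refine ⟨?_, onT_sub S.hρs, fun t ht t' ht' hne => Or.inl (onT_nbr S.hρs S.lips ht ht' hne), ?_,
    ?_, R.cube, R.small, R.face, fun i hi => hi⟩
  · rintro _ ⟨t, -, rfl⟩
    exact t.2
  · -- protected cells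
    intro i hi
    obtain ⟨t, ht, hQ⟩ := R.ofP i hi
    have hs0 := hs_pos' (n t)
    refine ⟨t.1, ⟨t, ht, rfl⟩, Net.ctr v (n t) (wd t), Net.hs (n t), ![e t, 1, 1], hs0, ?_,
      ?_, ?_⟩
    · intro j
      fin_cases j
      · exact S.tt.sign t
      · exact Or.inl rfl
      · exact Or.inl rfl
    · rw [hQ, dyc_ball]
    · intro x hx j
      rw [hQ] at hx
      show Tt (h1 x) j = _
      rw [S.diag ht hx, Pi.add_apply, Pi.smul_apply, SS_mulVec_apply, smul_eq_mul,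
        Pi.sub_apply]
      have e1 : zt ρ w t j = H73.ctr w t.1.1 t.1.2 j := rfl
      rw [e1]
      unfold st
      ring
  · -- every tile of `J` has a protected cell
    rintro _ ⟨t, ht, rfl⟩
    obtain ⟨i, hi, hQ⟩ := R.toP t ht
    exact ⟨i, hi, by rw [hQ]; exact S.image ht⟩

end pre

end Vale.Agent.P073.H851
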