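import Vale.Agent.P073.H851.TgtQ
import Vale.Agent.P073.H239.FSpec

/-!
# P073, block B10, **[TGT-F]**: `SpecTgtF`, the target with plates
-/

open Set Metric Topology Filter WithLp MeasureTheory Matrix
open scoped ENNReal

namespace Vale.Agent.P073.H851

open _root_.P073
open _root_.P073.Net (dyc dyo IsTile SizeFn Adm)
open Vale.Agent.P073.St (V)
open Vale.Agent.P073.AB (Idx)
open Vale.Agent.P073.H471 (Cubes TI zt st cB_eq B_eq cubes_tiles st_pos)
open Vale.Agent.P073.H726 (LBOn Coll)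
open Vale.Agent.P073.H239 (GC AdaptedN Approx PFam fam kks Num bx dd DD fam_off TgtO TgtP)
open Vale.Agent.P073.H696 (Tgt)

/-! ### Points near a wall -/

/-- every point is in a dyadic cube -/
theorem exists_dyc (w : V) (m : ℕ) (y : V) : ∃ z : Fin 3 → ℤ, y ∈ dyc w m z := by
  have hp : (0:ℝ) < 2 ^ m := by positivity
  refine ⟨fun k => ⌊(y k - w k) * 2 ^ m⌋, fun k => ?_⟩
  have h1 := Int.floor_le ((y k - w k) * 2 ^ m)
  have h2 := (Int.lt_floor_add_one ((y k - w k) * 2 ^ m)).le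
  constructor
  · have : (⌊(y k - w k) * 2 ^ m⌋ : ℝ) / 2 ^ m ≤ y k - w k := by
      rw [div_le_iff₀ hp]; exact h1
    linarith
  · have : y k - w k ≤ ((⌊(y k - w k) * 2 ^ m⌋ : ℝ) + 1) / 2 ^ m := by
      rw [le_div_iff₀ hp]; exact h2
    linarith

section wall

variable {Λ : Set V} {ρ s : V → ℝ} {w : V} {K : Type*} {V₀ X : Set V} {N : ℕ} {η κ₀ : ℝ}
  {T : V → V} {c : TI ρ w → V} {Mi : TI ρ w → M3} {bi : TI ρ w → V} {g : ConHomeo Λ Λ}
  {A : K → M3} {b : K → V} {D : K → Set V} {r0 L : K → ℝ} {v : V} {Cg : ℝ} {κ : TI ρ w → K}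
  {e : TI ρ w → ℝ} {n : TI ρ w → ℕ} {wd : TI ρ w → Fin 3 → ℤ} {Ξ : TI ρ w → V → V}
  {Tt : ConHomeo Λ Λ}

/-- `Tt` near a wall of the tiles -/
theorem TP.wall (S : TP N κ₀ Λ V₀ X T s η c Mi bi g A b D r0 L v Cg κ e n wd Ξ Tt) {y : V}
    (hy : y ∈ Λ) {m : ℕ} {z'' : Fin 3 → ℤ} (ht : IsTile ρ w m z'')
    (hmem : g.toFun y ∈ dyc w m z'') {j₀ : Fin 3} {t₀ : ℤ} {lam : ℝ}
    (hl : lam ≤ 1 / 32 / 2 ^ m) (h0 : |g.toFun y j₀ - (w j₀ + t₀ / 2 ^ m)| ≤ lam) :
    |Tt.toFun y j₀ - (w j₀ + t₀ / 2 ^ m)| ≤ lam ∧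
      ∀ i, w i + z'' i / 2 ^ m + 2 * lam ≤ g.toFun y i →
        g.toFun y i ≤ w i + (z'' i + 1) / 2 ^ m - 2 * lam → Tt.toFun y i = g.toFun y i := by
  have hlam : 0 ≤ lam := (abs_nonneg _).trans h0
  have hp : (0:ℝ) < 1 / 2 ^ m := by positivity
  obtain ⟨t, ht1⟩ : ∃ t : TI ρ w, t.1 = (m, z'') := ⟨⟨(m, z''), ht⟩, rfl⟩
  have hσ : st ρ w t = 1 / 2 * (1 / 2 ^ m) := by unfold st; rw [ht1]; ring
  have hzt : ∀ j, zt ρ w t j = w j + z'' j / 2 ^ m + 1 / 2 * (1 / 2 ^ m) := fun j => by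
    have : zt ρ w t j = H73.ctr w t.1.1 t.1.2 j := rfl
    rw [this, ht1]
    unfold H73.ctr
    simp only
    ring
  have hl' : lam ≤ 1 / 32 * (1 / 2 ^ m) := by
    have : (1:ℝ) / 32 / 2 ^ m = 1 / 32 * (1 / 2 ^ m) := by ring
    rwa [this] at hl
  have hball : g.toFun y ∈ closedBall (zt ρ w t) (st ρ w t) := by
    have h1 : g.toFun y ∈ dyc w t.1.1 t.1.2 := by rw [ht1]; exact hmem
    rwa [← cB_eq] at h1
  have hTball := (S.tt.cube y hy t).2 hball
  have hsucc : ∀ a : ℝ, (a + 1) / 2 ^ m = a / 2 ^ m + 1 / 2 ^ m := fun a => by ring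
  have hm0 := hmem j₀
  rw [hsucc] at hm0
  rw [abs_le] at h0
  -- the wall is one of the two walls of the tile
  have hcase : (z'' j₀ = t₀) ∨ (z'' j₀ = t₀ - 1) := by
    have a1 : (z'' j₀ : ℝ) / 2 ^ m ≤ t₀ / 2 ^ m + 1 / 32 * (1 / 2 ^ m) := by linarith [h0.2, hm0.1]
    have a2 : (t₀ : ℝ) / 2 ^ m - 1 / 32 * (1 / 2 ^ m) ≤ z'' j₀ / 2 ^ m + 1 / 2 ^ m := by
      linarith [h0.1, hm0.2]
    have hq : (0:ℝ) < 2 ^ m := by positivity
    have b1 : (z'' j₀ : ℝ) < t₀ + 1 := by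
      have := mul_le_mul_of_nonneg_right a1 hq.le
      rw [div_mul_cancel₀ _ hq.ne'] at this
      have e1 : ((t₀:ℝ) / 2 ^ m + 1 / 32 * (1 / 2 ^ m)) * 2 ^ m = t₀ + 1 / 32 := by
        field_simp
      rw [e1] at this
      linarith
    have b2 : (t₀ : ℝ) - 1 < z'' j₀ + 1 := by
      have := mul_le_mul_of_nonneg_right a2 hq.le
      have e1 : ((t₀:ℝ) / 2 ^ m - 1 / 32 * (1 / 2 ^ m)) * 2 ^ m = t₀ - 1 / 32 := by
        field_simp
      have e2 : ((z'' j₀:ℝ) / 2 ^ m + 1 / 2 ^ m) * 2 ^ m = z'' j₀ + 1 := by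
        field_simp
      rw [e1, e2] at this
      linarith
    have c1 : z'' j₀ < t₀ + 1 := by exact_mod_cast b1
    have c2 : t₀ - 1 < z'' j₀ + 1 := by exact_mod_cast b2
    omega
  have hpos : st ρ w t - lam ≤ |g.toFun y j₀ - zt ρ w t j₀| := by
    rw [hzt, hσ]
    rcases hcase with h1 | h1
    · rw [h1, abs_of_nonpos (by linarith [h0.2])]
      linarith [h0.2]
    · rw [h1]
      push_cast
      rw [sub_div, abs_of_nonneg (by linarith [h0.1])]
      linarith [h0.1]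
  have hnorm : st ρ w t - lam ≤ ‖g.toFun y - zt ρ w t‖ := by
    have h1 := norm_le_pi_norm (g.toFun y - zt ρ w t) j₀
    rw [Pi.sub_apply, Real.norm_eq_abs] at h1
    exact hpos.trans h1
  have h15 : 15 / 16 * st ρ w t ≤ ‖g.toFun y - zt ρ w t‖ := by
    refine le_trans ?_ hnorm
    rw [hσ]
    linarith
  refine ⟨?_, fun i h1 h2 => S.tt.tang t y hy i h15 hball ?_⟩
  · have hgr := S.tt.grow t y hy j₀ h15 hball
    have hT0 : ‖Tt.toFun y - zt ρ w t‖ ≤ st ρ w t := by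
      rwa [mem_closedBall, dist_eq_norm] at hTball
    have hT1 := (norm_le_pi_norm (Tt.toFun y - zt ρ w t) j₀).trans hT0
    rw [Pi.sub_apply, Real.norm_eq_abs, abs_le] at hT1
    rw [hzt, hσ] at hT1
    rw [hzt] at hgr
    rcases hcase with h1 | h1
    · rw [h1] at hT1 hgr
      have h4 := hgr.2 (by linarith [h0.2])
      rw [abs_le]
      constructor <;> linarith [hT1.1, h0.2]
    · rw [h1] at hT1 hgr
      push_cast at hT1 hgr
      rw [sub_div] at hT1 hgr
      have h4 := hgr.1 (by linarith [h0.1])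
      rw [abs_le]
      constructor <;> linarith [hT1.2, h0.1]
  · have h3 : |g.toFun y i - zt ρ w t i| ≤ st ρ w t - 2 * lam := by
      rw [hzt, hσ, abs_le]
      rw [hsucc] at h2
      constructor <;> linarith
    linarith

/-- closeness of `g` and `T` in terms of the largest tile -/
theorem TP.near_gen (S : TP N κ₀ Λ V₀ X T s η c Mi bi g A b D r0 L v Cg κ e n wd Ξ Tt) {y : V}
    (hy : y ∈ Λ) {m : ℕ} (hρ : ∀ y, ρ y ≤ 1 / 2 ^ m) :
    ‖g.toFun y - T y‖ ≤ 1 / 16 / 2 ^ m ∧ ‖Tt.toFun y - g.toFun y‖ ≤ 1 / 2 ^ m := by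
  obtain ⟨t, ht⟩ := S.exists_tile' (g.mapsTo hy)
  have hst : st ρ w t ≤ 1 / 2 * (1 / 2 ^ m) := by
    have h1 := t.2.1
    have h2 : zt ρ w t ∈ dyc w t.1.1 t.1.2 := by
      rw [← cB_eq]; exact mem_closedBall_self (st_pos t).le
    have h3 := (h1 _ h2).trans (hρ _)
    have h4 := two_st t
    linarith
  have h1 := S.near8 y hy t ht
  have h2 := (S.tt.cube y hy t).2 ht
  have e1 : (1:ℝ) / 16 / 2 ^ m = 1 / 16 * (1 / 2 ^ m) := by ring
  rw [e1]
  refine ⟨by linarith, ?_⟩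
  rw [mem_closedBall, dist_eq_norm] at h2 ht
  have e2 : Tt.toFun y - g.toFun y = (Tt.toFun y - zt ρ w t) - (g.toFun y - zt ρ w t) := by abel
  rw [e2]
  refine (norm_sub_le _ _).trans ?_
  linarith

end wall

/-! ### Thin neighbourhoods -/

/-- a neighbourhood of a compact set with small additional volume -/
theorem exists_thick {K : Set V} (hK : IsCompact K) {ε : ℝ} (hε : 0 < ε) :
    ∃ δ > 0, volume (cthickening δ K \ K) ≤ ENNReal.ofReal ε := by
  have hfin : volume K ≠ ⊤ := hK.measure_lt_top.ne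
  have h1 := tendsto_measure_cthickening_of_isCompact (μ := (volume : Measure V)) hK
  have h2 : volume K < volume K + ENNReal.ofReal ε :=
    ENNReal.lt_add_right hfin (by rw [ne_eq, ENNReal.ofReal_eq_zero, not_le]; exact hε)
  have h3 := h1.eventually (gt_mem_nhds h2)
  rw [Metric.eventually_nhds_iff] at h3
  obtain ⟨δ, hδ, h4⟩ := h3
  refine ⟨δ / 2, by positivity, ?_⟩
  have h5 := @h4 (δ / 2) (by rw [Real.dist_eq, sub_zero, abs_of_pos (by positivity)]; linarith)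
  rw [measure_sdiff (self_subset_cthickening K) hK.measurableSet.nullMeasurableSet hfin]
  rw [tsub_le_iff_left]
  exact h5.le

/-- `dd` is `1`-Lipschitz -/
theorem dd_lip (l : Fin 3) (lo hi : V) (y y' : V) :
    dd l lo hi y ≤ dd l lo hi y' + ‖y - y'‖ := by
  have hd := H239.dd_nonneg (l := l) (lo := lo) (hi := hi) y'
  rw [H239.dd_le (by positivity)]
  intro p hp
  have h1 := H239.fn_le_dd (l := l) (lo := lo) (hi := hi) hp y'
  have h2 := norm_le_pi_norm (y - y') p.1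
  rw [Pi.sub_apply, Real.norm_eq_abs] at h2
  have h3 : H239.fn lo hi p y ≤ H239.fn lo hi p y' + |y p.1 - y' p.1| := by
    unfold H239.fn
    split_ifs
    · linarith [le_abs_self (y p.1 - y' p.1)]
    · linarith [neg_abs_le (y p.1 - y' p.1)]
  linarith

/-- displacement of the squeeze of the plates -/
theorem fam_disp {Λ : Set V} {ι : Type*} {bp : ℝ} {l : ι → Fin 3} {lo hi : ι → V} {R : ι → ℝ}
    (F : PFam Λ bp l lo hi R) {κ : ι → ℝ} (H : ∀ z, Num bp (R z) (κ z)) {z : ι} {u : V}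
    (hu : u ∈ bx (lo z) (hi z) (R z)) : ‖fam l lo hi bp R κ u - u‖ ≤ 2 * R z := by
  have hR := F.R0 z
  have h1 : fam l lo hi bp R κ u ∈ bx (lo z) (hi z) (R z) := (F.fam_mem H z).2 hu
  have h2 : ∀ y : V, y ∈ bx (lo z) (hi z) (R z) → |y (l z) - lo z (l z)| ≤ R z := by
    intro y hy
    have h3 : DD (lo z) (hi z) y ≤ R z := hy
    rw [H239.DD_eq (F.flat z)] at h3
    exact (le_max_left _ _).trans h3
  rw [pi_norm_le_iff_of_nonneg (by linarith)]
  intro i
  rw [Pi.sub_apply, Real.norm_eq_abs]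
  by_cases hi' : i = l z
  · subst hi'
    have a := abs_le.1 (h2 _ h1)
    have b := abs_le.1 (h2 _ hu)
    rw [abs_le]
    constructor <;> linarith [a.1, a.2, b.1, b.2]
  · have h3 : fam l lo hi bp R κ u i = u i := by
      rw [F.fam_eq hu]
      exact H239.pm_ne hi' u
    rw [h3, sub_self, abs_zero]
    linarith

/-- a larger tolerance for the size of the tiles -/
theorem tgt_mono {B : Type} {Cu : ℝ} {Lc : M3 → ℝ} {Λ : Set V} {ε η : ℝ} {A : B → M3} {b : B → V}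
    {D : B → Set V} {α W : B → ℝ≥0∞} {δt δt' : V → ℝ} {v : V} {ρ : V → ℝ} {J₀ J : Set Idx}
    {κ : Idx → B} {n : Idx → ℕ} {w : Idx → Fin 3 → ℤ} {Act Core CoreN : Set V}
    {Tt : ConHomeo Λ Λ} (H : Tgt Cu Lc Λ ε η A b D α W δt' v ρ J₀ J κ n w Act Core CoreN Tt)
    (h : ∀ y ∈ Λ, δt' y ≤ δt y) :
    Tgt Cu Lc Λ ε η A b D α W δt v ρ J₀ J κ n w Act Core CoreN Tt :=
  { H with fine := fun t ht y hy hyt => (H.fine t ht y hy hyt).trans (h y hy) }

/-- **[TGT-F]** -/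
theorem specTgtF : H239.SpecTgtF := by
  obtain ⟨r0, L, hrL⟩ := exists_constM
  obtain ⟨Lc, hLc0, hLc1, hLc2⟩ := exists_LcQ hrL 13 (Cg := 6) (by norm_num)
  refine ⟨28 * 2 ^ 13 * 6, Lc, by norm_num, hLc0, fun ε hε => ⟨min (1 / 4) (ε / 8), by positivity,
    ?_⟩⟩
  intro Ω Λ hΛ ι hι lo hi R b₁ r c jt Kc hb F hRε hr hc hKcΛ hKc hjt M₀ hM₀ j v hj
  have hb0 := F.b0
  have hb1 : b₁ ≤ 1 / 4 := hb.trans (min_le_left _ _)
  have hb2 : b₁ ≤ ε / 8 := hb.trans (min_le_right _ _)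
  have hΛo := hΛ.1
  have hΛb := PK.isBounded_of_domain hΛ
  have hΛne : Λ.Nonempty := hΛ.2.1.nonempty
  have hvol : volume Λ ≠ ⊤ := PK.volume_ne_top_of_domain hΛ
  have hcne : Λᶜ.Nonempty := H726.compl_nonempty hΛb
  have hdist : ∀ y ∈ Λ, 0 < infDist y Λᶜ := fun y hy =>
    (hΛo.isClosed_compl.notMem_iff_infDist_pos hcne).1 (fun h => h hy)
  obtain ⟨vΛ, hvΛ⟩ : ∃ x, x = (volume Λ).toReal := ⟨_, rfl⟩
  have hv0 : 0 ≤ vΛ := by rw [hvΛ]; exact ENNReal.toReal_nonneg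
  have hvv : volume Λ = ENNReal.ofReal vΛ := by rw [hvΛ, ENNReal.ofReal_toReal hvol]
  -- the slope
  obtain ⟨h, hh0, hh1, hh2, hh3⟩ : ∃ h : ℝ, 0 < h ∧ h ≤ 1 / 8 ∧ h ≤ ε / 8 ∧
      M₀ * (3 * h * vΛ) ≤ ε / 4 := by
    refine ⟨min (min (1 / 8) (ε / 8)) (ε / 4 / (3 * M₀ * vΛ + 1)), by positivity,
      (min_le_left _ _).trans (min_le_left _ _), (min_le_left _ _).trans (min_le_right _ _), ?_⟩
    have h1 : min (min (1 / 8) (ε / 8)) (ε / 4 / (3 * M₀ * vΛ + 1)) ≤
        ε / 4 / (3 * M₀ * vΛ + 1) := min_le_right _ _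
    have hp : 0 < 3 * M₀ * vΛ + 1 := by positivity
    calc M₀ * (3 * min (min (1 / 8) (ε / 8)) (ε / 4 / (3 * M₀ * vΛ + 1)) * vΛ)
        ≤ M₀ * (3 * (ε / 4 / (3 * M₀ * vΛ + 1)) * vΛ) := by gcongr
      _ = ε / 4 * (3 * M₀ * vΛ / (3 * M₀ * vΛ + 1)) := by ring
      _ ≤ ε / 4 * 1 := by
          gcongr
          rw [div_le_one hp]
          linarith
      _ = ε / 4 := by ring
  -- the boxes of the plates
  obtain ⟨KB, hKB⟩ : ∃ KB : Set V, KB = ⋃ z, bx (lo z) (hi z) (R z) := ⟨_, rfl⟩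
  have hKBc : IsCompact KB := by rw [hKB]; exact isCompact_iUnion fun _ => H239.isCompact_bx
  have hKBΛ : KB ⊆ Λ := by rw [hKB]; exact iUnion_subset F.sub
  obtain ⟨δs, hδs, hthick⟩ := exists_thick hKBc (ε := ε / 4 / M₀) (by positivity)
  -- the closeness of the collapse
  obtain ⟨ρT, hρT⟩ : ∃ ρT : V → ℝ, ∀ y, ρT y =
      min (min (ε / 4) (r / 4)) (min δs (infDist y Λᶜ)) := ⟨_, fun _ => rfl⟩
  have hρTc : Continuous ρT := by
    have : ρT = fun y => min (min (ε / 4) (r / 4)) (min δs (infDist y Λᶜ)) := funext hρT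
    rw [this]
    exact continuous_const.min (continuous_const.min (continuous_infDist_pt _))
  have hρL : LBOn Λ ρT := LBOn.of_continuous hΛo hρTc fun y hy => by
    have := hdist y hy
    rw [hρT]; positivity
  have hρ1 : ∀ y, ρT y ≤ ε / 4 ∧ ρT y ≤ r / 4 ∧ ρT y ≤ δs ∧ ρT y ≤ infDist y Λᶜ := fun y => by
    rw [hρT]
    exact ⟨(min_le_left _ _).trans (min_le_left _ _), (min_le_left _ _).trans (min_le_right _ _),
      (min_le_right _ _).trans (min_le_left _ _), (min_le_right _ _).trans (min_le_right _ _)⟩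
  obtain ⟨τ, c₀, hc₀, hτ0, hτp, hτc, -, hcoll⟩ := H726.exists_coll hΛo hΛb hh0 hh1 hρL
  obtain ⟨I, hI⟩ : ∃ I, I = ∫⁻ y in Λ, ENNReal.ofReal (1 / τ y) ^ 3 := ⟨_, rfl⟩
  have hI0 : I ≠ 0 := by rw [hI]; exact weight_ne_zero hΛo hΛne hτc hτp
  refine ⟨τ, min (min c₀ 1) (I / 2), ⟨hτc, hτ0, hτp, ?_⟩, ?_⟩
  · exact (lt_min (lt_min (pos_iff_ne_zero.2 hc₀) one_pos) (ENNReal.half_pos hI0)).ne'
  intro B A b D D' α W δt hA hD hDΛ hdis hlf hint hα hW hhigh hcostZ hδt
  have hBne : Nonempty B := by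
    by_contra hB
    rw [not_nonempty_iff] at hB
    rw [iUnion_of_empty, sdiff_empty, ← hI] at hint
    have h1 : I ≤ 1 := hint.trans ((min_le_left _ _).trans (min_le_right _ _))
    have h2 : I ≤ I / 2 := hint.trans (min_le_right _ _)
    have h3 : I ≠ ⊤ := (h1.trans_lt ENNReal.one_lt_top).ne
    exact absurd h2 (not_le.2 (ENNReal.half_lt_self hI0 h3))
  have hDc : ∀ k, IsCompact (D k) := fun k => (hD k).1
  obtain ⟨T, X, hC, hT⟩ := hcoll (Λ \ ⋃ k, (fun x => A k *ᵥ x + b k) '' D' k)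
    (H696.V0 Λ A b D)
    (R_open hΛo (fun k => ⟨(hD k).2.1, (hD k).2.2.trans interior_subset⟩) hlf) sdiff_subset
    (hint.trans ((min_le_left _ _).trans (min_le_left _ _))) (V0_closed hΛo hA)
    (fun y hy => ⟨hy.1, fun h => by
      obtain ⟨k, x, hx, hxy⟩ := mem_iUnion.1 h
      exact hy.2 k x ((hD k).2.2 hx) hxy⟩)
  have hGC := H239.gc_of_coll hC (m := 1 + h) le_rfl
  have hG := hGC.plates F
  set T₀ : V → V := fam (fun _ : ι => (2 : Fin 3)) lo hi b₁ R fun _ => 0 with hT₀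
  have hT₀c : Continuous T₀ := F.cont F.num0
  have hT₀m : MapsTo T₀ Λ Λ := F.maps F.num0
  -- the zone of the plates
  obtain ⟨Zo, hZo⟩ : ∃ Zo : Set V, Zo = {y | y ∈ Λ ∧ T y ∈ KB} := ⟨_, rfl⟩
  have hoffKB : ∀ u, u ∉ KB → T₀ u = u := fun u hu => by
    rw [hT₀]
    exact fam_off fun z hz => hu (by rw [hKB]; exact mem_iUnion.2 ⟨z, hz⟩)
  have hinKB : ∀ u, T₀ u ∈ KB → u ∈ KB := fun u hu => by
    rw [hKB] at hu ⊢
    obtain ⟨z, hz⟩ := mem_iUnion.1 hu
    exact mem_iUnion.2 ⟨z, (F.fam_mem F.num0 z).1 hz⟩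
  have hdisp : ∀ (κp : ι → ℝ), (∀ z, Num b₁ (R z) (κp z)) → ∀ u,
      ‖fam (fun _ : ι => (2 : Fin 3)) lo hi b₁ R κp u - u‖ ≤ 2 * ε := by
    intro κp hκp u
    by_cases hu : ∃ z, u ∈ bx (lo z) (hi z) (R z)
    · obtain ⟨z, hz⟩ := hu
      exact (fam_disp F hκp hz).trans (by linarith [hRε z])
    · push Not at hu
      rw [fam_off hu, sub_self, norm_zero]
      positivity
  -- the cost
  obtain ⟨E, hE⟩ : ∃ E : Set V, E = {y | y ∈ Λ ∧ T y ∈ X} ∪ (cthickening δs KB \ KB) :=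
    ⟨_, rfl⟩
  have hEm : MeasurableSet E := by
    rw [hE]
    exact (measurableSet_collapsed hC).union
      (isClosed_cthickening.measurableSet.diff hKBc.measurableSet)
  have hEv : ENNReal.ofReal M₀ * volume E ≤ ENNReal.ofReal (ε / 2) := by
    have h1 : volume E ≤ ENNReal.ofReal (3 * h * vΛ) + ENNReal.ofReal (ε / 4 / M₀) := by
      rw [hE]
      refine (measure_union_le _ _).trans (add_le_add ?_ hthick)
      refine (volume_collapsed hC hvol).trans (le_of_eq ?_)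
      rw [hvv, ← ENNReal.ofReal_mul (by positivity)]
    calc ENNReal.ofReal M₀ * volume E
        ≤ ENNReal.ofReal M₀ * (ENNReal.ofReal (3 * h * vΛ) + ENNReal.ofReal (ε / 4 / M₀)) := by
          gcongr
      _ = ENNReal.ofReal (M₀ * (3 * h * vΛ) + M₀ * (ε / 4 / M₀)) := by
          rw [mul_add, ← ENNReal.ofReal_mul hM₀.le, ← ENNReal.ofReal_mul hM₀.le,
            ← ENNReal.ofReal_add (by positivity) (by positivity)]
      _ ≤ _ := by
          apply ENNReal.ofReal_le_ofReal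
          have : M₀ * (ε / 4 / M₀) = ε / 4 := by field_simp
          linarith
  have hcost : ∑' k, α k * volume {x | x ∈ D k ∧ A k *ᵥ x + b k ∈
      {y | y ∈ Λ ∧ T₀ (T y) ∈ T₀ '' X ∪ kks lo hi R} ∪ Zo} + ENNReal.ofReal (ε / 4) ≤
      ENNReal.ofReal (3 * ε) := by
    have h2 := sum_cost (A := A) (b := b) hA hDc hdis hM₀ hhigh hEm
    have h1 : ∀ k, α k * volume {x | x ∈ D k ∧ A k *ᵥ x + b k ∈
        {y | y ∈ Λ ∧ T₀ (T y) ∈ T₀ '' X ∪ kks lo hi R} ∪ Zo} ≤
        α k * volume {x | x ∈ D k ∧ A k *ᵥ x + b k ∈ ⋃ z, bx (lo z) (hi z) (R z)} +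
        α k * volume {x | x ∈ D k ∧ afm (A k) (b k) x ∈ E} := by
      intro k
      rw [← mul_add]
      refine mul_le_mul' le_rfl ((measure_mono ?_).trans (measure_union_le _ _))
      rintro x ⟨hx, hx2⟩
      obtain ⟨y, hy⟩ : ∃ y, y = A k *ᵥ x + b k := ⟨_, rfl⟩
      rw [← hy] at hx2
      have hyΛ : y ∈ Λ := by rw [hy]; exact hDΛ k ⟨x, hx, rfl⟩
      have h3 : T y ∈ X ∨ T y ∈ KB := by
        rcases hx2 with ⟨-, h3⟩ | h3
        · by_cases h4 : T y ∈ KB
          · exact Or.inr h4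
          · left
            rw [hoffKB _ h4] at h3
            rcases h3 with ⟨u, hu, huy⟩ | h3
            · have h5 : u ∉ KB := fun h6 => by
                rw [hKB] at h6
                obtain ⟨z, hz⟩ := mem_iUnion.1 h6
                apply h4
                rw [← huy, hKB]
                exact mem_iUnion.2 ⟨z, (F.fam_mem F.num0 z).2 hz⟩
              rw [hoffKB _ h5] at huy
              rwa [← huy]
            · exfalso
              apply h4
              obtain ⟨z, hz⟩ := mem_iUnion.1 h3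
              rw [hKB]
              exact mem_iUnion.2 ⟨z, hz.1⟩
        · rw [hZo] at h3
          exact Or.inr h3.2
      by_cases h4 : y ∈ KB
      · left
        refine ⟨hx, ?_⟩
        rw [← hy, ← hKB]
        exact h4
      · right
        refine ⟨hx, ?_⟩
        show A k *ᵥ x + b k ∈ E
        rw [← hy, hE]
        rcases h3 with h3 | h3
        · exact Or.inl ⟨hyΛ, h3⟩
        · right
          refine ⟨mem_cthickening_of_dist_le y (T y) δs KB h3 ?_, h4⟩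
          rw [dist_comm, dist_eq_norm]
          exact (hT y hyΛ).trans (hρ1 y).2.2.1
    calc _ ≤ (∑' k, (α k * volume {x | x ∈ D k ∧ A k *ᵥ x + b k ∈
          ⋃ z, bx (lo z) (hi z) (R z)} +
          α k * volume {x | x ∈ D k ∧ afm (A k) (b k) x ∈ E})) + ENNReal.ofReal (ε / 4) := by
          gcongr ?_ + _
          exact ENNReal.tsum_le_tsum h1
      _ ≤ (ENNReal.ofReal ε + (ENNReal.ofReal (ε / 2) + ENNReal.ofReal ε)) +
          ENNReal.ofReal (ε / 4) := by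
          rw [ENNReal.tsum_add]
          gcongr ?_ + _
          exact add_le_add hcostZ (h2.trans (add_le_add hEv le_rfl))
      _ ≤ _ := by
          rw [← ENNReal.ofReal_add (by positivity) (by positivity),
            ← ENNReal.ofReal_add (by positivity) (by positivity),
            ← ENNReal.ofReal_add (by positivity) (by positivity)]
          exact ENNReal.ofReal_le_ofReal (by linarith)
  -- the compact set where the tiles have one generation
  have hK : IsCompact ((fun y => T₀ (T y)) '' Kc) := hKc.image (hT₀c.comp hGC.cont)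
  have hKΛ : (fun y => T₀ (T y)) '' Kc ⊆ Λ := by
    rintro _ ⟨y, hy, rfl⟩
    exact hT₀m (hC.maps (hKcΛ hy))
  obtain ⟨m₁, hm₁1, hm₁2⟩ : ∃ m₁ : ℕ, jt ≤ m₁ ∧ (1:ℝ) / 2 ^ m₁ ≤ ε := by
    obtain ⟨n, hn⟩ := exists_pow_lt_of_lt_one hε (show (1 / 2 : ℝ) < 1 by norm_num)
    refine ⟨max jt n, le_max_left _ _, le_trans ?_ hn.le⟩
    rw [_root_.one_div_pow]
    gcongr
    · norm_num
    · exact le_max_right _ _
  have hδt' : LBOn Λ fun y => min (δt y) (infDist y Λᶜ) :=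
    hδt.min (LBOn.of_continuous hΛo (continuous_infDist_pt _) hdist)
  obtain ⟨m, s, ρ, hm, hρ, hsT, hsize, hmain⟩ := exists_tgt_gen (N' := 13) (r0 := r0) (L := L)
    (Lc := Lc) (j := j) (α := α) (W := W) (δt := fun y => min (δt y) (infDist y Λᶜ)) (Zo := Zo)
    (ε := 3 * ε) (ε₁ := 1) (εT := 9 / 4 * ε) (εC := ε / 4) (εs := 1) (Cg := 6) hG (by norm_num)
    (by nlinarith) (by norm_num) (by unfold kp; norm_num) hA hDc hDΛ hdis hlf hα hW hδt' hrL v hK
    hKΛ (by positivity) one_pos (by positivity) one_pos (by nlinarith) (by norm_num)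
    (by rw [hZo]; exact fun y hy => hy.1)
    (fun y hy hX hyZ => by
      rw [hZo] at hyZ
      have hno : T y ∉ KB := fun h1 => hyZ ⟨hy, h1⟩
      have hTX : T y ∉ X := fun h1 => hX (Or.inl ⟨T y, h1, rfl⟩)
      obtain ⟨w, hw⟩ := hC.aff {T y} (by
        rintro _ rfl
        exact ⟨hC.maps hy, hTX⟩) isPreconnected_singleton
      have h2 := hw y rfl
      have h3 : ∀ᶠ y' in 𝓝 y, T y' ∉ KB :=
        hC.continuous.continuousAt.eventually (hKBc.isClosed.isOpen_compl.mem_nhds hno)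
      filter_upwards [h2, h3] with y' h4 h5
      rw [hoffKB _ h5, hoffKB _ hno, h4, h2.self_of_nhds]
      have e1 : ((1 + h) • y' - w) - ((1 + h) • y - w) - (y' - y) = h • (y' - y) := by module
      rw [e1, norm_smul, Real.norm_of_nonneg hC.h0]
      gcongr
      linarith)
    (fun y hy => by
      have h1 := (hT y hy).trans (hρ1 y).1
      have h3 := hdisp _ F.num0 (T y)
      have e1 : T₀ (T y) - y = (T₀ (T y) - T y) + (T y - y) := by abel
      show ‖T₀ (T y) - y‖ ≤ _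
      rw [e1]
      refine (norm_add_le _ _).trans ?_
      linarith)
    (by linarith) hcost (fun k => hLc1 _) (fun k => hLc2 _) hj m₁
  have hmp : (0:ℝ) < 1 / 2 ^ m := by positivity
  -- the squeeze
  obtain ⟨lam, hlam0, hlam1, hlam2, hlam3⟩ : ∃ lam : ℝ, 0 < lam ∧ 2 * lam ≤ c / 2 ^ m ∧
      lam ≤ c / 2 ^ m ∧ lam ≤ 1 / 32 / 2 ^ m := by
    refine ⟨min (c / 2) (1 / 32) / 2 ^ m, by positivity, ?_, ?_, ?_⟩
    · calc 2 * (min (c / 2) (1 / 32) / 2 ^ m) ≤ 2 * (c / 2 / 2 ^ m) := by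
            gcongr; exact min_le_left _ _
        _ = c / 2 ^ m := by ring
    · gcongr
      exact (min_le_left _ _).trans (by linarith)
    · gcongr
      exact min_le_right _ _
  obtain ⟨g, ⟨κp, γ, hκp, hgγ, hγ, hglip⟩, cc, Mi, bi, κ, e, n, wd, Ξ, Tt, S, κ', n', w', HT, -⟩ :=
    hmain (fun g => ∃ (κp : ι → ℝ) (γ : ConHomeo Λ Λ),
      (∀ z, Num b₁ (R z) (κp z) ∧ 0 < κp z ∧ κp z * R z ≤ lam) ∧
      (∀ y, g.toFun y = fam (fun _ : ι => (2 : Fin 3)) lo hi b₁ R κp (γ.toFun y)) ∧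
      IsApx (1 + h) Λ X T (fun _ => min (ε / 4) (r / 4)) 1 γ ∧
      ∀ y y', ‖toLp 2 (g.toFun y - g.toFun y')‖ ≤
        ((1 + 3 * b₁) * (1 + h) + ε / 8) * ‖toLp 2 (y - y')‖) (fun δ' ε' hδ' hε' => by
        obtain ⟨κp, δ₂, ε₂, h1, h2, h3, h4⟩ := apx_plates hGC F hδ' (lt_min hε'
          (show 0 < ε / 8 by positivity)) hlam0
        obtain ⟨γ, hγ⟩ := exists_isApx hGC.approx
          (h2.min (LBOn.of_continuous hΛo (continuous_const (y := min (ε / 4) (r / 4)))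
            fun _ _ => by positivity)) (lt_min h3 one_pos)
        obtain ⟨g, hg1, hg2⟩ := h4 γ (hγ.mono hC.maps (fun y _ => min_le_left _ _)
          (min_le_left _ _))
        refine ⟨g, hg2.mono hG.maps (fun _ _ => le_rfl) (min_le_left _ _), κp, γ, h1, hg1,
          hγ.mono hC.maps (fun y _ => min_le_right _ _) (min_le_right _ _), fun y y' => ?_⟩
        refine (hg2.lip y y').trans (mul_le_mul_of_nonneg_right ?_ (norm_nonneg _))
        linarith [min_le_right ε' (ε / 8)])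
  have hρm : ∀ y, ρ y ≤ 1 / 2 ^ m := fun y => by rw [hρ]; exact min_le_right _ _
  have hγc : ∀ y ∈ Λ, ‖γ.toFun y - y‖ ≤ ε / 2 ∧ ‖γ.toFun y - y‖ ≤ r / 2 := fun y hy => by
    have h1 := hγ.close y hy
    have h2 := hT y hy
    have h3 := hρ1 y
    have e1 : γ.toFun y - y = (γ.toFun y - T y) + (T y - y) := by abel
    have h4 := norm_add_le (γ.toFun y - T y) (T y - y)
    rw [← e1] at h4
    constructor
    · linarith [min_le_left (ε / 4) (r / 4), h3.1]
    · linarith [min_le_right (ε / 4) (r / 4), h3.2.1]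
  have hκ' : ∀ z, Num b₁ (R z) (κp z) := fun z => (hκp z).1
  refine ⟨ρ, _, _, κ', n', w', _, _, _, Tt, fun _ => c / 2 ^ m,
    tgt_mono HT (fun y _ => min_le_left _ _), fun x _ => ⟨c / 2 ^ m, by positivity,
      Filter.Eventually.of_forall fun _ _ => le_rfl⟩, m, g.toFun, fun _ => rfl, ?_⟩
  -- the tile of `g y`
  have htile : ∀ y ∈ Kc, ∀ z : Fin 3 → ℤ, (∃ u ∈ dyc 0 m z, ‖g.toFun y - u‖ ≤ 5 / 2 ^ m) →
      IsTile ρ 0 m z := by
    rintro y hy z ⟨u, hu, huy⟩
    refine hsize z ⟨T₀ (T y), ⟨y, hy, rfl⟩, u, hu, ?_⟩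
    have h1 := (S.near_gen (hKcΛ hy) hρm).1
    have e1 : u - T₀ (T y) = (g.toFun y - T₀ (T y)) - (g.toFun y - u) := by abel
    rw [e1]
    refine (norm_sub_le _ _).trans ?_
    have e2 : (8:ℝ) / 2 ^ m = 8 * (1 / 2 ^ m) := by ring
    have e3 : (5:ℝ) / 2 ^ m = 5 * (1 / 2 ^ m) := by ring
    have e4 : (1:ℝ) / 16 / 2 ^ m = 1 / 16 * (1 / 2 ^ m) := by ring
    rw [e4] at h1
    rw [e3] at huy
    rw [e2]
    linarith
  refine
    { lip := fun y y' => (hglip y y').trans (mul_le_mul_of_nonneg_right (by nlinarith)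
        (norm_nonneg _))
      close := fun y hy => ?_
      far := fun y hy => ?_
      mtε := ?_
      bdT := fun η hη => ?_
      grid := fun z => ?_
      tile := fun y hy z hz => ?_
      plate := fun z y hy hyz => ?_ }
  · -- close
    have h1 := hdisp _ hκ' (γ.toFun y)
    have h2 := (hγc y hy).1
    have e1 : g.toFun y - y = (g.toFun y - γ.toFun y) + (γ.toFun y - y) := by abel
    rw [e1]
    refine (norm_add_le _ _).trans ?_
    rw [hgγ]
    linarith
  · -- far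
    have h1 := (S.near_gen (hKcΛ hy) hρm).2
    refine h1.trans ?_
    gcongr
    norm_num
  · -- generation
    refine le_trans ?_ (hm₁2.trans (by linarith))
    gcongr
    norm_num
  · -- boundary
    obtain ⟨hP1, hP2⟩ := H819.gc_compact_preimage hGC hKBc hKBΛ
    have hQ : IsCompact {y : V | η / 2 ≤ infDist y Λᶜ} := by
      refine Metric.isCompact_of_isClosed_isBounded
        (isClosed_le continuous_const (continuous_infDist_pt _)) (hΛb.subset fun y hy => ?_)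
      by_contra hn
      have h1 : infDist y Λᶜ = 0 := infDist_zero_of_mem hn
      have h2 : η / 2 ≤ infDist y Λᶜ := hy
      linarith
    refine ⟨T ⁻¹' KB ∪ {y : V | η / 2 ≤ infDist y Λᶜ}, ?_, hP1.union hQ, fun y hy hyK => ?_⟩
    · refine union_subset hP2 fun y hy => ?_
      by_contra hn
      have h1 : infDist y Λᶜ = 0 := infDist_zero_of_mem hn
      have h2 : η / 2 ≤ infDist y Λᶜ := hy
      linarith
    · rw [mem_union, not_or] at hyK
      have h1 : infDist y Λᶜ < η / 2 := not_le.1 hyK.2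
      have h2 := S.close hy
      have h3 := (hsT y hy).2
      have h4 := (hT y hy).trans (hρ1 y).2.2.2
      have h5 : T₀ (T y) = T y := hoffKB _ hyK.1
      have h6 : min (δt y) (infDist y Λᶜ) ≤ infDist y Λᶜ := min_le_right _ _
      have h2' : ‖Tt.toFun y - T₀ (T y)‖ ≤ s (T₀ (T y)) / 8 := h2
      have h3' : s (T₀ (T y)) ≤ min (δt y) (infDist y Λᶜ) := h3
      rw [h5] at h2' h3'
      have e1 : Tt.toFun y - y = (Tt.toFun y - T y) + (T y - y) := by abel
      rw [e1]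
      refine (norm_add_le _ _).trans ?_
      have h7 := hdist y hy
      linarith
  · -- grid
    obtain ⟨t, ht⟩ := hjt z
    obtain ⟨d, hd⟩ := Nat.exists_eq_add_of_le (hm₁1.trans hm)
    refine ⟨t * 2 ^ d, ?_⟩
    rw [ht, hd, pow_add]
    push_cast
    field_simp
  · -- tiles
    obtain ⟨u, hu, huy⟩ := hz
    refine htile y hy z ⟨u, hu, ?_⟩
    have h1 := (S.near_gen (hKcΛ hy) hρm).2
    have e1 : g.toFun y - u = (Tt.toFun y - u) - (Tt.toFun y - g.toFun y) := by abel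
    rw [e1]
    refine (norm_sub_le _ _).trans ?_
    have e3 : (5:ℝ) / 2 ^ m = 4 / 2 ^ m + 1 / 2 ^ m := by ring
    rw [e3]
    linarith
  · -- plates
    have hyΛ := hKcΛ hy
    obtain ⟨t, ht⟩ := hjt z
    obtain ⟨d, hd⟩ := Nat.exists_eq_add_of_le (hm₁1.trans hm)
    have hlo : lo z 2 = ((t * 2 ^ d : ℤ) : ℝ) / 2 ^ m := by
      rw [ht, hd, pow_add]
      push_cast
      field_simp
    have h1 := (hγc y hyΛ).2
    have h2 : |γ.toFun y 2 - lo z 2| ≤ b₁ * (R z - dd 2 (lo z) (hi z) (γ.toFun y)) := by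
      have h3 := dd_lip 2 (lo z) (hi z) (γ.toFun y) y
      have h4 := norm_le_pi_norm (γ.toFun y - y) 2
      rw [Pi.sub_apply, Real.norm_eq_abs] at h4
      have h5 : |γ.toFun y 2 - lo z 2| ≤ |γ.toFun y 2 - y 2| + |y 2 - lo z 2| :=
        abs_sub_le _ _ _
      have h6 : b₁ * (R z - dd 2 (lo z) (hi z) y) ≤
          b₁ * (R z - dd 2 (lo z) (hi z) (γ.toFun y)) + b₁ * (r / 2) := by
        rw [← mul_add]
        gcongr
        linarith
      nlinarith
    obtain ⟨-, -, h3⟩ := fam_core F hκ' (z := z) (u := γ.toFun y) h2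
    rw [← hgγ] at h3
    have h4 : |g.toFun y 2 - ((0:V) 2 + ((t * 2 ^ d : ℤ) : ℝ) / 2 ^ m)| ≤ lam := by
      rw [Pi.zero_apply, zero_add, ← hlo]
      exact h3.trans (hκp z).2.2
    obtain ⟨z'', hz''⟩ := exists_dyc 0 m (g.toFun y)
    have ht'' : IsTile ρ 0 m z'' := htile y hy z'' ⟨g.toFun y, hz'', by
      rw [sub_self, norm_zero]; positivity⟩
    obtain ⟨h5, h6⟩ := S.wall hyΛ ht'' hz'' hlam3 h4
    refine ⟨?_, fun w hw i hi2 => ?_⟩
    · rw [Pi.zero_apply, zero_add, ← hlo] at h5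
      exact h5.trans hlam2
    · obtain ⟨h7, h8⟩ := hw i hi2
      have h9 := hz'' i
      rw [Pi.zero_apply, zero_add, zero_add] at h9
      have hq : (0:ℝ) < 2 ^ m := by positivity
      have h10 : z'' i = w i := by
        have a1 := h7.trans h9.2
        have a2 := h9.1.trans h8
        rw [div_le_div_iff_of_pos_right hq] at a1 a2
        have b1 : (w i : ℝ) < z'' i + 1 := by linarith
        have b2 : (z'' i : ℝ) < w i + 1 := by linarith
        have c1 : w i < z'' i + 1 := by exact_mod_cast b1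
        have c2 : z'' i < w i + 1 := by exact_mod_cast b2
        omega
      refine h6 i ?_ ?_
      · rw [h10, Pi.zero_apply, zero_add]
        refine le_trans ?_ h7
        have e1 : ((w i : ℝ) + c) / 2 ^ m = w i / 2 ^ m + c / 2 ^ m := by ring
        rw [e1]
        linarith
      · rw [h10, Pi.zero_apply, zero_add]
        refine h8.trans ?_
        have e1 : ((w i : ℝ) + 1 - c) / 2 ^ m = (w i + 1) / 2 ^ m - c / 2 ^ m := by ring
        rw [e1]
        linarith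

end Vale.Agent.P073.H851
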