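import Vale.Agent.P073.H851.TgtC

/-!
# P073, block B10, [TGT-P], part 1: the alignment for all approximants

The data of the alignment do not depend on the approximant of the collapse; so the approximant may be
chosen (squeeze of the plates after an approximant of the first collapse).
-/

open Set Metric Topology Filter WithLp MeasureTheory Matrix
open scoped ENNReal InnerProductSpace

namespace Vale.Agent.P073.H851

open _root_.P073
open Vale.Agent.P073.St (V)
open Vale.Agent.P073.H471 (Cubes)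
open Vale.Agent.P073.H726 (LBOn compl_nonempty exists_lower continuous_of_lip exists_below
  lb_of_continuousOn eventually_eq_of_ball)
open Vale.Agent.P073.H239 (GC AdaptedN Approx)
open Vale.Agent.P073.H819 (AlignN)

variable {N : ℕ} {C₀ m₀ : ℝ} {Λ V₀ X : Set V} {T : V → V}

/-- `g` is an approximant of the collapse `T` -/
structure IsApx (C : ℝ) (Λ X : Set V) (T : V → V) (δ : V → ℝ) (ε : ℝ) (g : ConHomeo Λ Λ) :
    Prop where
  cont : Continuous g.toFun
  off : ∀ y ∉ Λ, g.toFun y = y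
  close : ∀ y ∈ Λ, ‖g.toFun y - T y‖ ≤ δ (T y)
  far : ∀ y ∈ Λ, (∀ x ∈ X, δ (T y) < ‖T y - x‖) → g.toFun y = T y
  lip : ∀ y y', ‖toLp 2 (g.toFun y - g.toFun y')‖ ≤ (C + ε) * ‖toLp 2 (y - y')‖

theorem exists_isApx {C : ℝ} (h : Approx C Λ X T) {δ : V → ℝ} (hδ : LBOn Λ δ) {ε : ℝ}
    (hε : 0 < ε) : ∃ g, IsApx C Λ X T δ ε g := by
  obtain ⟨g, h1, h2, h3, h4, h5⟩ := h δ hδ ε hε
  exact ⟨g, h1, h2, h3, h4, h5⟩

/-- **(T3)**, all approximants: the data `c`, `M`, `b` and the closeness `δ₁` do not depend on `g` -/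
theorem gc_align_all (C : GC N C₀ m₀ Λ V₀ X T) (hN : 1 ≤ N) (hm2 : m₀ ≤ 2) {δ : V → ℝ}
    {ν : Measure V} {ε₀ : ℝ≥0∞} {s : V → ℝ} (A : AdaptedN N Λ X T δ ν ε₀ s) {ι : Type*}
    {z : ι → V} {σ : ι → ℝ} (Q : Cubes Λ z σ) (hσ : ∀ i, σ i ≤ s (z i) / 16) {k : ι → ℝ}
    (hk : ∀ i, 0 < k i) {ε : ℝ} (hε : 0 < ε) :
    ∃ (c : ι → V) (M : ι → M3) (b : ι → V) (δ₁ : V → ℝ), LBOn Λ δ₁ ∧
      ∀ g : ConHomeo Λ Λ, IsApx C₀ Λ X T δ₁ ε g →
        AlignN N C₀ m₀ Λ V₀ X T s z σ k ε c M b g.toFun := by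
  have hNr : (1 : ℝ) ≤ N := by exact_mod_cast hN
  have hN0 : (0 : ℝ) < N := by linarith
  set κ : ℝ := 1 / (14 * (N : ℝ)) with hκ
  have hκ0 : 0 < κ := by positivity
  have hκ1 : κ ≤ 1 / 14 := by
    rw [hκ]
    apply one_div_le_one_div_of_le (by norm_num)
    linarith
  have hκ2 : ∀ t : ℝ, t / (7 * (N : ℝ)) = 2 * κ * t := fun t => by
    rw [hκ]; field_simp; ring
  have hκ3 : ∀ t : ℝ, t / (56 * (N : ℝ)) = κ / 4 * t := fun t => by
    rw [hκ]; field_simp; ring
  have hzΛ : ∀ i, z i ∈ Λ := fun i => Q.sub i (mem_closedBall_self (Q.pos i).le)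
  -- the centres
  have hc : ∀ i, ∃ c : V, ‖c - z i‖ ≤ σ i / 2 ∧ ∀ x ∈ X, 2 * κ * σ i < ‖x - c‖ := by
    intro i
    obtain ⟨q, hq1, hq2, hq3⟩ := A.planes (z i) (hzΛ i)
    obtain ⟨c, hc1, hc2⟩ := Vale.Agent.P073.H716.exists_hole_clm q hq1 hq2 (z i) (Q.pos i)
    refine ⟨c, hc1, fun x hx => ?_⟩
    by_cases hxs : x ∈ closedBall (z i) (s (z i))
    · obtain ⟨p, hp, hpx⟩ := hq3 x hxs hx
      have := hc2 p hp x hpx
      rwa [hκ2] at this
    · rw [mem_closedBall, dist_eq_norm, not_le] at hxs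
      have h1 := norm_sub_le_norm_sub_add_norm_sub x c (z i)
      have h2 := hσ i
      have h3 := Q.pos i
      have h4 : 2 * κ * σ i ≤ 1 / 7 * σ i := by
        apply mul_le_mul_of_nonneg_right _ h3.le; linarith
      linarith
  choose c hc1 hc2 using hc
  -- the size of the perturbation
  set m : ι → ℝ := fun i => min (κ / 8) (k i / 8) * σ i with hm
  have hm0 : ∀ i, 0 < m i := fun i => by
    have := hk i
    have := Q.pos i
    positivity
  have hm1 : ∀ i, m i ≤ κ / 8 * σ i := fun i => by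
    have h1 : min (κ / 8) (k i / 8) ≤ κ / 8 := min_le_left _ _
    have h2 := Q.pos i
    simp only [hm]; gcongr
  have hm2' : ∀ i, m i ≤ k i * σ i / 8 := fun i => by
    have h1 : min (κ / 8) (k i / 8) ≤ k i / 8 := min_le_right _ _
    have h2 := Q.pos i
    calc m i ≤ k i / 8 * σ i := by simp only [hm]; gcongr
      _ = _ := by ring
  have hκσ : ∀ i, 0 < κ * σ i := fun i => mul_pos hκ0 (Q.pos i)
  have hκσ1 : ∀ i, κ * σ i ≤ 1 / 14 * σ i := fun i =>
    mul_le_mul_of_nonneg_right hκ1 (Q.pos i).le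
  obtain ⟨F, hF0, hFl, hFm⟩ := exists_below Q hm0
  have hsc : Continuous s := continuous_of_lip A.lip
  obtain ⟨r, hr1, hr2, hr3, hr4, hr5⟩ := exists_lower C.opn (compl_nonempty C.bdd)
    (s := fun x => min (min (s x / 16) ε) (F x)) (fun x hx => by
      obtain ⟨a, ha, h1⟩ := hFl x hx
      obtain ⟨b, hb, h2⟩ := lb_of_continuousOn C.opn (s := fun x => min (s x / 16) ε)
        ((hsc.div_const 16).min continuous_const).continuousOn
        (fun y hy => lt_min (by have := A.pos y hy; positivity) hε) x hx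
      refine ⟨min b a, lt_min hb ha, ?_⟩
      filter_upwards [h1, h2] with w k1 k2 hw
      exact min_le_min (k2 hw) (k1 hw))
    (fun y hy => lt_min (lt_min (by have := A.pos y hy; positivity) hε) (hF0 y hy))
  have hrs : ∀ x ∈ Λ, r x ≤ s x / 16 := fun x hx =>
    (hr3 x hx).trans ((min_le_left _ _).trans (min_le_left _ _))
  have hrε : ∀ x ∈ Λ, r x ≤ ε := fun x hx =>
    (hr3 x hx).trans ((min_le_left _ _).trans (min_le_right _ _))
  have hrF : ∀ x ∈ Λ, r x ≤ F x := fun x hx => (hr3 x hx).trans (min_le_right _ _)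
  have hrc : Continuous r := continuous_of_lip hr1
  set δ₁ : V → ℝ := fun x => r x / 2 with hδ₁
  have hδc : Continuous δ₁ := hrc.div_const 2
  have hδ0 : ∀ y ∈ Λ, 0 < δ₁ y := fun y hy => by
    have := hr2 y hy; simp only [hδ₁]; positivity
  -- the affine maps on the cores
  have haff : ∀ i, ∃ M : M3, M ∈ bddM m₀ ∧ ∃ w : V, ∀ y, ‖T y - c i‖ ≤ 2 * κ * σ i →
      ∀ᶠ y' in 𝓝 y, T y' = M *ᵥ y' - w := by
    intro i
    have h3 := Q.pos i
    have hD : closedBall (c i) (2 * κ * σ i) ⊆ Λ \ X := by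
      intro v hv
      rw [mem_closedBall, dist_eq_norm] at hv
      refine ⟨Q.sub i ?_, fun hvX => ?_⟩
      · rw [mem_closedBall, dist_eq_norm]
        have h4 := norm_sub_le_norm_sub_add_norm_sub v (c i) (z i)
        have h5 := hc1 i
        have h6 := hκσ1 i
        linarith
      · have := hc2 i v hvX
        linarith
    obtain ⟨M, hM, w, hw⟩ := C.aff _ hD (convex_closedBall _ _).isPreconnected
    exact ⟨M, hM, w, fun y hy => hw y (by rwa [mem_closedBall, dist_eq_norm])⟩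
  choose M hM b hb using haff
  refine ⟨c, M, b, δ₁, LBOn.of_continuous C.opn hδc hδ0, fun g hg => ?_⟩
  obtain ⟨hg1, hg2, hg3, hg4, hg5⟩ := hg
  have hTc := C.cont
  have hgΛ : ∀ y, g.toFun y ∈ Λ → y ∈ Λ := fun y hy => by
    by_contra hc
    rw [hg2 y hc] at hy
    exact hc hy
  -- closeness in the cubes
  have hcl : ∀ y ∈ Λ, ∀ i, g.toFun y ∈ closedBall (z i) (σ i) → δ₁ (T y) ≤ m i := by
    intro y hy i hi
    have h1 := hg3 y hy
    have h2 := hr1 (T y) (g.toFun y)
    rw [norm_sub_rev] at h2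
    have h3 := (hrF _ (Q.sub i hi)).trans (hFm i _ hi)
    simp only [hδ₁] at *
    linarith
  have hXc : ∀ i, Disjoint (closedBall (z i) (σ i)) X → ∀ x ∈ X, σ i < ‖x - z i‖ := by
    intro i hi x hx
    by_contra hcon
    push Not at hcon
    exact disjoint_left.1 hi (by rwa [mem_closedBall, dist_eq_norm]) hx
  refine ⟨⟨hc1, fun i x hx => hc2 i x hx, fun y hy hyV i => ?_,
    fun y hy hyV i hi => ?_, fun i y hy => ?_, fun i hi => ?_, fun i y => ?_⟩, hg1, hg2,
    fun y hy => ?_, fun y hy i hi => ?_, fun y hy hX => ?_, hg5, hM, fun i y hy => ?_,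
    fun y hy => ?_⟩
  · -- core
    have hx := C.V0X y hy hyV
    by_contra hcon
    push Not at hcon
    have h3 := Q.pos i
    have h4 := norm_sub_le_norm_sub_add_norm_sub (g.toFun y) (c i) (z i)
    have h5 := hc1 i
    have hk1 := hκσ1 i
    have hk0 := hκσ i
    have h6 : g.toFun y ∈ closedBall (z i) (σ i) := by
      rw [mem_closedBall, dist_eq_norm]; linarith
    have h7 := (hg3 y hy).trans (hcl y hy i h6)
    have h8 := hm1 i
    have h9 := hc2 i _ hx
    have h10 := norm_sub_le_norm_sub_add_norm_sub (T y) (g.toFun y) (c i)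
    rw [norm_sub_rev (T y) (g.toFun y)] at h10
    linarith
  · -- mid
    have hx := C.V0X y hy hyV
    by_contra hcon
    push Not at hcon
    have h3 := Q.pos i
    have h4 := hk i
    have h5 : 0 < k i * σ i := mul_pos h4 h3
    have h6 : g.toFun y ∈ closedBall (z i) (σ i) := by
      rw [mem_closedBall, dist_eq_norm]; linarith
    have h7 := (hg3 y hy).trans (hcl y hy i h6)
    have h8 := hm2' i
    have h9 := hXc i hi _ hx
    have h10 := norm_sub_le_norm_sub_add_norm_sub (T y) (g.toFun y) (z i)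
    rw [norm_sub_rev (T y) (g.toFun y)] at h10
    linarith
  · -- affcore
    rw [mem_closedBall, dist_eq_norm] at hy
    have h3 := Q.pos i
    have hk1 := hκσ1 i
    have hk0 := hκσ i
    have h6 : g.toFun y ∈ closedBall (z i) (σ i) := by
      rw [mem_closedBall, dist_eq_norm]
      have h4 := norm_sub_le_norm_sub_add_norm_sub (g.toFun y) (c i) (z i)
      have h5 := hc1 i
      linarith
    have hyΛ := hgΛ y (Q.sub i h6)
    obtain ⟨k1, k2⟩ := eventually_eq_of_ball (m := m i) (a := κ * σ i) (b := 2 * κ * σ i)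
      hTc C.opn hδc hg4 (hm0 i) (by have := hm1 i; linarith) (fun x hx => hc2 i x hx) hyΛ hy
      ((hg3 y hyΛ).trans (hcl y hyΛ i h6)) (hcl y hyΛ i h6)
    have k3 := hb i y k2.le
    filter_upwards [k1, k3] with y' a1 a2
    rw [a1, a2]
  · -- affmid
    have h3 := Q.pos i
    have h4 := hk i
    have h5 : 0 < k i * σ i := mul_pos h4 h3
    have hD : closedBall (z i) (σ i) ⊆ Λ \ X := fun v hv =>
      ⟨Q.sub i hv, fun hvX => disjoint_left.1 hi hv hvX⟩
    obtain ⟨M', -, w, hw⟩ := C.aff _ hD (convex_closedBall _ _).isPreconnected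
    refine ⟨M', w, fun y hy => ?_⟩
    rw [mem_closedBall, dist_eq_norm] at hy
    have h6 : g.toFun y ∈ closedBall (z i) (σ i) := by
      rw [mem_closedBall, dist_eq_norm]
      linarith
    have hyΛ := hgΛ y (Q.sub i h6)
    obtain ⟨k1, k2⟩ := eventually_eq_of_ball (m := m i) (a := (1 - k i) * σ i) (b := σ i)
      hTc C.opn hδc hg4 (hm0 i) (by have := hm2' i; linarith) (hXc i hi) hyΛ hy
      ((hg3 y hyΛ).trans (hcl y hyΛ i h6)) (hcl y hyΛ i h6)
    have k3 := hw y (by rw [mem_closedBall, dist_eq_norm]; exact k2.le)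
    filter_upwards [k1, k3] with y' a1 a2
    rw [a1, a2]
  · -- bd
    have h1 := (hM i).1 y
    have h2 := (hM i).2 y
    constructor
    · exact h1.trans (mul_le_mul_of_nonneg_right hm2 (norm_nonneg _))
    · exact h2.trans (mul_le_mul_of_nonneg_right hm2 (norm_nonneg _))
  · -- near
    have h1 := hg3 y hy
    have h2 := hrs _ (C.maps hy)
    have h3 := hr2 _ (C.maps hy)
    simp only [hδ₁] at h1
    linarith
  · -- near'
    have h1 := (hg3 y hy).trans (hcl y hy i hi)
    have h2 := hm1 i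
    have h3 := Q.pos i
    have h4 := hκσ i
    rw [hκ3]
    linarith
  · -- far
    refine hg4 y hy fun x hx => ?_
    have h1 := hX x hx
    have h2 := hrs _ (C.maps hy)
    have h3 := hr2 _ (C.maps hy)
    simp only [hδ₁]
    linarith
  · -- affT
    rw [mem_closedBall, dist_eq_norm] at hy
    exact hb i y (by linarith [hκσ i])
  · -- small
    have h1 := hg3 y hy
    have h2 := hrε _ (C.maps hy)
    have h3 := hr2 _ (C.maps hy)
    simp only [hδ₁] at h1
    linarith

end Vale.Agent.P073.H851
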