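import Vale.Agent.P073.H851.BoxFine
import Vale.Agent.P073.H605.GlueDefs

/-!
# P073, [BOX-CELL]: the grid lines and the crossing pieces
-/

open MeasureTheory Set Filter Topology Metric
open scoped ENNReal

namespace Vale.Agent.P073.H851.BC

open Vale.Agent.P073.St (V)
open Vale.Agent.P073.SQ (ev)
open Vale.Agent.P073.AB
open Vale.Agent.P073.H333 (dvar_one dvar_one_zero)
open Vale.Agent.P073.H732 (conical_diff conical_edge)
open _root_.P073 (ConHomeo ConicalOn)
open _root_.P073.Net (dyc dyo)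
open _root_.P073.Gauge (gam dvar CellHyp CellOut)

section line

variable {v : V} {N : ℕ} {α : Fin 3 → ℤ} {m d b : ℕ}

/-- grid planes are mapped to grid planes -/
theorem exists_Y (N d : ℕ) (a₀ : ℝ) (c : ℤ) :
    ∃ Y : ℤ, sg a₀ (1 / 2 ^ N) (d / 2 ^ N) (a₀ + c / 2 ^ N) = a₀ + Y / 2 ^ N := by
  have hN : (0:ℝ) < 2 ^ N := by positivity
  rcases le_total c 1 with h | h
  · refine ⟨c, ?_⟩
    rw [sg_lo (D_nonneg N d)]
    have h1 : (c:ℝ) ≤ 1 := by exact_mod_cast h
    have h2 : (c:ℝ) / 2 ^ N ≤ 1 / 2 ^ N := by gcongr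
    linarith
  have h1 : (1:ℝ) ≤ c := by exact_mod_cast h
  have h2 : (1:ℝ) / 2 ^ N ≤ c / 2 ^ N := by gcongr
  rcases le_total c (1 + d) with h' | h'
  · refine ⟨2 * c - 1, ?_⟩
    have h3 : (c:ℝ) ≤ 1 + d := by exact_mod_cast h'
    have h4 : (c:ℝ) / 2 ^ N ≤ (1 + d) / 2 ^ N := by gcongr
    rw [add_div] at h4
    rw [sg_mid (by linarith) (by linarith)]
    push_cast; ring
  · refine ⟨c + d, ?_⟩
    have h3 : (1:ℝ) + d ≤ c := by exact_mod_cast h'
    have h4 : ((1:ℝ) + d) / 2 ^ N ≤ c / 2 ^ N := by gcongr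
    rw [add_div] at h4
    rw [sg_hi (D_nonneg N d) (by linarith)]
    push_cast; ring

/-- a point with two coordinates on the grid lies on an edge of a cube -/
theorem exists_edge {F : ℕ} {a y : V} {i : Fin 3} (h : ∀ j, j ≠ i → ∃ Y : ℤ, y j = a j + Y / 2 ^ F) :
    ∃ z : Fin 3 → ℤ, y ∈ edge a ((F, z), i) := by
  have hF : (0:ℝ) < 2 ^ F := by positivity
  choose! Y hY using h
  refine ⟨fun j => if j = i then ⌊(y i - a i) * 2 ^ F⌋ else Y j, ?_⟩
  have h1 : y = gam a ((F, fun j => if j = i then ⌊(y i - a i) * 2 ^ F⌋ else Y j), i)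
      (Int.fract ((y i - a i) * 2 ^ F)) := by
    funext j
    by_cases hj : j = i
    · subst hj
      rw [gam_apply_dir]
      simp only [pt, if_true]
      have h2 := Int.floor_add_fract ((y j - a j) * 2 ^ F)
      have h3 : (y j - a j) = (⌊(y j - a j) * 2 ^ F⌋ : ℝ) / 2 ^ F +
          Int.fract ((y j - a j) * 2 ^ F) / 2 ^ F := by
        rw [← add_div, h2]; field_simp
      linarith
    · rw [gam_apply_ne _ _ _ (j := j) hj]
      simp only [pt, if_neg hj]
      exact hY j hj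
  have h2 := mem_edge_gam (v := a)
    (e := ((F, fun j => if j = i then ⌊(y i - a i) * 2 ^ F⌋ else Y j), i))
    (t := Int.fract ((y i - a i) * 2 ^ F)) ⟨Int.fract_nonneg _, (Int.fract_lt_one _).le⟩
  rwa [← h1] at h2

theorem scale_Y {F : ℕ} (hF : N ≤ F) (Y : ℤ) : (Y:ℝ) / 2 ^ N = ((Y * 2 ^ (F - N) : ℤ) : ℝ) / 2 ^ F := by
  push_cast
  rw [div_eq_div_iff (by positivity) (by positivity), mul_assoc, ← pow_add]
  congr 2; omega

/-- coordinates of a point of an edge of generation `N`, relative to the corner -/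
theorem edge_coord {e : Idx × Fin 3} (he : e.1.1 = N) {x : V} (hx : x ∈ edge v e) {j : Fin 3}
    (hj : j ≠ e.2) : x j = pt v N α j + ((e.1.2 j - α j : ℤ) : ℝ) / 2 ^ N := by
  obtain ⟨t, ht, rfl⟩ := _root_.P073.Gauge.C110.mem_edge_iff.1 hx
  have := gam_apply_ne v e t hj
  rw [this]
  simp only [pt, he]
  push_cast
  ring

/-- points on grid lines are mapped to edges of the fine partition -/
theorem line_edge {F : ℕ} (hF : N ≤ F) {e : Idx × Fin 3} (he : e.1.1 = N) {x : V}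
    (hx : x ∈ edge v e) :
    ∃ z : Fin 3 → ℤ, SM (pt v N α) (1 / 2 ^ N) (d / 2 ^ N) x ∈ edge (pt v N α) ((F, z), e.2) := by
  apply exists_edge
  intro j hj
  obtain ⟨Y, hY⟩ := exists_Y N d (pt v N α j) (e.1.2 j - α j)
  refine ⟨Y * 2 ^ (F - N), ?_⟩
  rw [← scale_Y hF]
  show sg _ _ _ (x j) = _
  rw [edge_coord (α := α) he hx hj]
  exact hY

/-- the crossing pieces are mapped to edges -/
theorem piece_edge (hmd : m + d = 2 ^ b) (hdm : d = 0 ∨ d + 2 ≤ m) (hb : b ≤ N) {M : ℕ}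
    (hM : N + 2 ≤ M) {e e' : Idx × Fin 3} (he : e.1.1 = N) (he' : e'.1.1 = M) (hdir : e'.2 = e.2)
    (hsub : edge v e' ⊆ edge v e) (hB : edge v e' ⊆ cbx v N α m (1 / 2 ^ M))
    (hR : Disjoint (edge v e')
      {x | ∀ i, v i + α i / 2 ^ N + 2 / 2 ^ M < x i ∧ x i < v i + (α i + m) / 2 ^ N - 2 / 2 ^ M}) :
    ∃ z : Fin 3 → ℤ,
      (∀ t ∈ Icc (0:ℝ) 1, SM (pt v N α) (1 / 2 ^ N) (d / 2 ^ N) (gam v e' t) =
        gam (pt v N α) ((M, z), e'.2) t) ∧
      edge (pt v N α) ((M, z), e'.2) ⊆ shrink (pt v N α) (N - b) 0 (1 / 2 ^ M) \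
        interior (shrink (pt v N α) (N - b) 0 (2 / 2 ^ M)) ∧
      ¬ edge (pt v N α) ((M, z), e'.2) ⊆ frontier (shrink (pt v N α) (N - b) 0 (1 / 2 ^ M)) := by
  have hN : (0:ℝ) < 2 ^ N := by positivity
  have hMp : (0:ℝ) < 2 ^ M := by positivity
  obtain ⟨⟨M', ζ⟩, i⟩ := e'
  obtain rfl : M' = M := he'
  simp only at hdir
  subst hdir
  set i := e.2 with hi
  set q : ℤ := 2 ^ (M' - N) with hq
  have hq4 : 4 ≤ q := by
    have h1 : (2:ℤ) ^ 2 ≤ 2 ^ (M' - N) := pow_le_pow_right₀ (by norm_num) (by omega)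
    simpa [hq] using h1
  have hqr : (4:ℝ) ≤ q := by exact_mod_cast hq4
  have hqN : (1:ℝ) / 2 ^ N = q / 2 ^ M' := q_eq (by omega)
  have hsc : ∀ c : ℤ, (c:ℝ) / 2 ^ N = c * q / 2 ^ M' := fun c => by
    rw [div_eq_mul_one_div, hqN]; ring
  have hsm : (m:ℝ) / 2 ^ N = m * q / 2 ^ M' := by rw [div_eq_mul_one_div, hqN]; ring
  have hsd : (d:ℝ) / 2 ^ N = d * q / 2 ^ M' := by rw [div_eq_mul_one_div, hqN]; ring
  -- the coordinates of the points
  have hcj : ∀ j, j ≠ i → ∀ t ∈ Icc (0:ℝ) 1, gam v ((M', ζ), i) t j =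
      pt v N α j + ((e.1.2 j - α j : ℤ) : ℝ) * q / 2 ^ M' := by
    intro j hj t ht
    rw [edge_coord (α := α) he (hsub (mem_edge_gam ht)) hj, hsc]
  have hci : ∀ t : ℝ, gam v ((M', ζ), i) t i =
      pt v N α i + (((ζ i - α i * q : ℤ) : ℝ) + t) / 2 ^ M' := by
    intro t
    have h1 := gam_apply_dir v ((M', ζ), i) t
    simp only at h1
    rw [h1]
    simp only [pt]
    rw [hsc (α i)]
    push_cast
    ring
  have hptj : ∀ j, v j + (α j : ℝ) / 2 ^ N = pt v N α j := fun j => rfl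
  have hptm : ∀ j, v j + ((α j : ℝ) + m) / 2 ^ N = pt v N α j + m * q / 2 ^ M' := fun j => by
    simp only [pt]
    rw [add_div, hsm]; ring
  -- the numbers
  set w : ℤ := ζ i - α i * q with hw
  have h0 := hB (mem_edge_gam (v := v) (e := ((M', ζ), i)) (t := 0) ⟨le_rfl, zero_le_one⟩)
  have h1 := hB (mem_edge_gam (v := v) (e := ((M', ζ), i)) (t := 1) ⟨zero_le_one, le_rfl⟩)
  have hw1 : 1 ≤ w := by
    have h2 := (h0 i).1
    rw [hci, hptj, add_zero, add_le_add_iff_left, div_le_div_iff_of_pos_right hMp] at h2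
    exact_mod_cast h2
  have hw2 : w + 2 ≤ m * q := by
    have h2 := (h1 i).2
    rw [hci, hptm, add_sub_assoc, add_le_add_iff_left, ← sub_div,
      div_le_div_iff_of_pos_right hMp] at h2
    have h3 : ((w + 2 : ℤ) : ℝ) ≤ ((m * q : ℤ) : ℝ) := by push_cast; linarith
    exact_mod_cast h3
  have hcc : ∀ j, j ≠ i → 1 ≤ e.1.2 j - α j ∧ e.1.2 j - α j + 1 ≤ m := by
    intro j hj
    have h2 := h0 j
    rw [hcj j hj 0 ⟨le_rfl, zero_le_one⟩, hptj, hptm, add_sub_assoc, add_le_add_iff_left,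
      add_le_add_iff_left, ← sub_div, div_le_div_iff_of_pos_right hMp,
      div_le_div_iff_of_pos_right hMp] at h2
    have h3 : (1:ℤ) ≤ (e.1.2 j - α j) * q := by exact_mod_cast h2.1
    have h4 : (e.1.2 j - α j) * q + 1 ≤ m * q := by
      have : (((e.1.2 j - α j) * q + 1 : ℤ) : ℝ) ≤ ((m * q : ℤ) : ℝ) := by
        push_cast at h2 ⊢; linarith [h2.2]
      exact_mod_cast this
    constructor
    · by_contra hcon
      have : e.1.2 j - α j ≤ 0 := by omega
      nlinarith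
    · by_contra hcon
      have : (m:ℤ) ≤ e.1.2 j - α j := by omega
      nlinarith
  have hm2 : 2 ≤ m := by
    obtain ⟨j, hj⟩ : ∃ j : Fin 3, j ≠ i := exists_ne i
    have := hcc j hj
    omega
  have hdm' : d + 2 ≤ m := by omega
  have hdmr : (d:ℝ) + 2 ≤ m := by exact_mod_cast hdm'
  -- strictness of the transversal coordinates
  have htr : ∀ j, j ≠ i → ∀ t ∈ Icc (0:ℝ) 1, ∀ η : ℝ, η < 4 →
      v j + (α j : ℝ) / 2 ^ N + η / 2 ^ M' < gam v ((M', ζ), i) t j ∧
        gam v ((M', ζ), i) t j < v j + ((α j : ℝ) + m) / 2 ^ N - η / 2 ^ M' := by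
    intro j hj t ht η hη
    obtain ⟨k1, k2⟩ := hcc j hj
    have k1' : (1:ℝ) ≤ ((e.1.2 j - α j : ℤ) : ℝ) := by exact_mod_cast k1
    have k2' : ((e.1.2 j - α j : ℤ) : ℝ) + 1 ≤ m := by exact_mod_cast k2
    rw [hcj j hj t ht, hptj, hptm, add_sub_assoc, add_lt_add_iff_left, add_lt_add_iff_left,
      ← sub_div, div_lt_div_iff_of_pos_right hMp, div_lt_div_iff_of_pos_right hMp]
    constructor <;> nlinarith
  -- the two ends
  have hend : w = 1 ∨ w + 2 = m * q := by
    by_contra hcon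
    rw [not_or] at hcon
    have k1 : 2 ≤ w := by omega
    have k2 : w + 3 ≤ m * q := by omega
    have k1' : (2:ℝ) ≤ w := by exact_mod_cast k1
    have k2' : (w:ℝ) + 3 ≤ m * q := by exact_mod_cast k2
    refine Set.disjoint_left.1 hR (mem_edge_gam (v := v) (e := ((M', ζ), i)) (t := 1 / 2)
      ⟨by norm_num, by norm_num⟩) fun j => ?_
    by_cases hj : j = i
    · rw [hj, hci, hptj, hptm, add_sub_assoc, add_lt_add_iff_left, add_lt_add_iff_left, ← sub_div,
        div_lt_div_iff_of_pos_right hMp, div_lt_div_iff_of_pos_right hMp]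
      constructor <;> linarith
    · exact htr j hj _ ⟨by norm_num, by norm_num⟩ 2 (by norm_num)
  -- the image
  have hD0 : (0:ℝ) ≤ d / 2 ^ N := D_nonneg N d
  choose Y hY using fun j => exists_Y N d (pt v N α j) (e.1.2 j - α j)
  have hwr1 : (1:ℝ) ≤ w := by exact_mod_cast hw1
  obtain ⟨W, hW⟩ : ∃ W : ℤ, ∀ t ∈ Icc (0:ℝ) 1,
      sg (pt v N α i) (1 / 2 ^ N) (d / 2 ^ N) (pt v N α i + ((w:ℝ) + t) / 2 ^ M') =
        pt v N α i + ((W:ℝ) + t) / 2 ^ M' := by
    rcases hend with h | h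
    · refine ⟨w, fun t ht => ?_⟩
      rw [sg_lo hD0]
      rw [hqN, add_le_add_iff_left, div_le_div_iff_of_pos_right hMp, h]
      push_cast
      linarith [ht.2]
    · refine ⟨w + d * q, fun t ht => ?_⟩
      rw [sg_hi hD0]
      · rw [hsd]; push_cast; ring
      · have k : (w:ℝ) + 2 = m * q := by exact_mod_cast h
        rw [hqN, hsd, add_assoc, add_le_add_iff_left, ← add_div,
          div_le_div_iff_of_pos_right hMp]
        nlinarith [ht.1]
  have hS : ∀ t ∈ Icc (0:ℝ) 1, SM (pt v N α) (1 / 2 ^ N) (d / 2 ^ N) (gam v ((M', ζ), i) t) =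
      gam (pt v N α) ((M', fun j => if j = i then W else Y j * 2 ^ (M' - N)), i) t := by
    intro t ht
    funext j
    show sg _ _ _ (gam v ((M', ζ), i) t j) = _
    by_cases hj : j = i
    · have e2 := gam_apply_dir (pt v N α)
        ((M', fun j => if j = i then W else Y j * 2 ^ (M' - N)), i) t
      simp only at e2
      rw [hj, e2, hci, hW t ht]
      simp only [pt, if_true]
      ring
    · rw [gam_apply_ne _ ((M', fun j => if j = i then W else Y j * 2 ^ (M' - N)), i) _ (j := j) hj,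
        hcj j hj t ht, ← hsc, hY j, scale_Y (F := M') (by omega)]
      simp only [pt, if_neg hj]
  refine ⟨fun j => if j = i then W else Y j * 2 ^ (M' - N), hS, ?_⟩
  · set e₂ : Idx × Fin 3 := ((M', fun j => if j = i then W else Y j * 2 ^ (M' - N)), i) with he₂
    have himg : ∀ t ∈ Icc (0:ℝ) 1, SM (pt v N α) (1 / 2 ^ N) (d / 2 ^ N)
        (gam v ((M', ζ), i) t) = gam (pt v N α) e₂ t := hS
    have hη2 : (2:ℝ) / 2 ^ M' ≤ 1 / 2 ^ N := by
      rw [hqN, div_le_div_iff_of_pos_right hMp]; linarith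
    have hη1 : (1:ℝ) / 2 ^ M' ≤ 1 / 2 ^ N := by
      rw [hqN, div_le_div_iff_of_pos_right hMp]; linarith
    refine ⟨?_, ?_⟩
    · intro y hy
      obtain ⟨t, ht, rfl⟩ := _root_.P073.Gauge.C110.mem_edge_iff.1 hy
      rw [← himg t ht]
      refine ⟨(mem_cell hmd hdm hb hη1).2 (hB (mem_edge_gam ht)), fun hcon => ?_⟩
      exact Set.disjoint_left.1 hR (mem_edge_gam ht) ((mem_cell_int hmd hdm hb hη2).1 hcon)
    · intro hcon
      have ht : (1 / 2 : ℝ) ∈ Icc (0:ℝ) 1 := ⟨by norm_num, by norm_num⟩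
      have h3 := hcon (mem_edge_gam (v := pt v N α) (e := e₂) ht)
      rw [frontier, ← himg _ ht] at h3
      apply h3.2
      rw [mem_cell_int hmd hdm hb hη1]
      intro j
      by_cases hj : j = i
      · have k : (w:ℝ) + 2 ≤ m * q := by exact_mod_cast hw2
        rw [hj, hci, hptj, hptm, add_sub_assoc, add_lt_add_iff_left, add_lt_add_iff_left,
          ← sub_div, div_lt_div_iff_of_pos_right hMp, div_lt_div_iff_of_pos_right hMp]
        constructor <;> linarith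
      · exact htr j hj _ ht 1 (by norm_num)

end line

end Vale.Agent.P073.H851.BC
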