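import Vale.Agent.P073.H851.BoxMap
import Vale.Agent.P073.H333.NetInC

/-!
# P073, [BOX-CELL]: the edge estimate for the conjugated map
-/

open MeasureTheory Set Filter Topology Metric
open scoped ENNReal

namespace Vale.Agent.P073.H851.BC

open Vale.Agent.P073.St (V)
open Vale.Agent.P073.SQ (ev)
open Vale.Agent.P073.AB
open Vale.Agent.P073.H333 (dvar_one)
open Vale.Agent.P073.H732 (conical_diff conical_edge)
open _root_.P073 (ConHomeo ConicalOn)
open _root_.P073.Gauge (gam dvar)
open _root_.P073.Gauge.O407 (jInt eInt_eq deriv_gam)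

/-- derivative of a composition with a Lipschitz function -/
theorem abs_deriv_le_of_lip {σ u : ℝ → ℝ} {t L u' : ℝ} {K : ℝ} (hK : 0 ≤ K)
    (hσ : ∀ x y, |σ x - σ y| ≤ K * |x - y|) (hu : HasDerivAt u u' t)
    (hL : HasDerivAt (fun s => σ (u s)) L t) : |L| ≤ K * |u'| := by
  have h1 := (hasDerivAt_iff_tendsto_slope.1 hL).abs
  have h2 := ((hasDerivAt_iff_tendsto_slope.1 hu).abs).const_mul K
  refine le_of_tendsto_of_tendsto' h1 h2 fun s => ?_
  rw [slope_def_field, slope_def_field, abs_div, abs_div, ← mul_div_assoc]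
  exact div_le_div_of_nonneg_right (hσ _ _) (abs_nonneg _)

theorem dvar_one' (h : V → V) (v : V) (e : Idx × Fin 3) (w : V) :
    dvar 1 h v e w = ∫⁻ t in Icc (0:ℝ) 1,
      ENNReal.ofReal ‖deriv (fun s => h (gam v e s)) t - w‖ := by
  unfold dvar
  simp_rw [Real.rpow_one]

theorem mem_edge_gam {v : V} {e : Idx × Fin 3} {t : ℝ} (ht : t ∈ Icc (0:ℝ) 1) :
    gam v e t ∈ edge v e := by
  rw [edge, segment_eq_image']
  refine ⟨t, ht, ?_⟩
  simp only [gam, add_sub_cancel_left]

theorem gam_apply_dir (v : V) (e : Idx × Fin 3) (t : ℝ) :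
    gam v e t e.2 = pt v e.1.1 e.1.2 e.2 + t / 2 ^ e.1.1 := by
  simp only [gam, Pi.add_apply, Pi.smul_apply, smul_eq_mul, ev]
  rw [Pi.single_eq_same]
  ring

theorem gam_apply_ne (v : V) (e : Idx × Fin 3) (t : ℝ) {j : Fin 3} (hj : j ≠ e.2) :
    gam v e t j = pt v e.1.1 e.1.2 j := by
  simp only [gam, Pi.add_apply, Pi.smul_apply, smul_eq_mul, ev]
  rw [Pi.single_eq_of_ne hj]
  ring

/-- **the core estimate**: `g` is close to the identity on the edge `e'`, which is the preimage of
the edge `e₁` -/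
theorem edge_core {O O' : Set V} (hO : IsOpen O) (hO' : IsOpen O') (g : ConHomeo O O') {a v : V}
    {r D : ℝ} (hD : 0 ≤ D) {e₁ e' : Idx × Fin 3} (h2 : e₁.2 = e'.2) {s κ : ℝ} (hs1 : 0 ≤ s)
    (hs2 : s ≤ 2) (hs : (1 / 2 ^ e₁.1.1 : ℝ) = s * (1 / 2 ^ e'.1.1))
    (hS : ∀ t ∈ Icc (0:ℝ) 1, SMi a r D (gam a e₁ t) = gam v e' t)
    (hslope : ∀ u, pt v e'.1.1 e'.1.2 e'.2 < u → u < pt v e'.1.1 e'.1.2 e'.2 + 1 / 2 ^ e'.1.1 →
      HasDerivAt (sg (a e'.2) r D) s u)
    (he' : edge v e' ⊆ O) (hκ0 : 0 ≤ κ)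
    (hclose : ∀ x ∈ edge v e', ‖g.toFun x - x‖ ≤ κ / 2 ^ e'.1.1)
    (hl1 : ∫⁻ t in Icc (0:ℝ) 1, ENNReal.ofReal ‖deriv (fun u => g.toFun (gam v e' u)) t -
      (1 / 2 ^ e'.1.1 : ℝ) • ev e'.2‖ ≤ ENNReal.ofReal (κ / 2 ^ e'.1.1)) :
    dvar 1 (conj a r hD hO hO' g).toFun a e₁ ((1 / 2 ^ e₁.1.1 : ℝ) • ev e₁.2) ≤
      ENNReal.ofReal (10 * κ / 2 ^ e'.1.1) := by
  set m : ℝ := 1 / 2 ^ e'.1.1 with hm
  have hm0 : 0 < m := by positivity
  set c : ℝ → V := fun t => g.toFun (gam v e' t) with hc
  set C : ℝ → V := fun t => SM a r D (c t) with hC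
  have hcc : ConicalOn c (Icc 0 1) := conical_edge g he'
  have hCc : ConicalOn C (Icc 0 1) := by
    have h1 : ConicalOn (SM a r D) (univ : Set V) := conical_SM a r D
    exact h1.comp hcc (fun _ _ => mem_univ _) (by
      refine g.cont.comp ?_ fun t ht => he' (mem_edge_gam ht)
      unfold gam
      fun_prop)
  rw [dvar_one']
  have hw : ((1 / 2 ^ e₁.1.1 : ℝ) • ev e₁.2 : V) = s • (m • ev e'.2) := by
    rw [hs, h2, mul_smul]
  -- the L1 hypothesis
  have hl1' : ∫⁻ t in Icc (0:ℝ) 1, ENNReal.ofReal ‖deriv c t - m • ev e'.2‖ ≤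
      ENNReal.ofReal (κ * m) := by
    refine hl1.trans (ENNReal.ofReal_le_ofReal (le_of_eq ?_))
    rw [hm]; ring
  -- the pointwise bound
  set bad : Set ℝ := Icc 0 κ ∪ Icc (1 - κ) 1 with hbad
  have hmeas : MeasurableSet bad := measurableSet_Icc.union measurableSet_Icc
  have key : ∀ᵐ t ∂(volume.restrict (Ioo (0:ℝ) 1)),
      ENNReal.ofReal ‖deriv (fun u => (conj a r hD hO hO' g).toFun (gam a e₁ u)) t -
        (1 / 2 ^ e₁.1.1 : ℝ) • ev e₁.2‖ ≤
      2 * ENNReal.ofReal ‖deriv c t - m • ev e'.2‖ +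
        bad.indicator (fun _ => ENNReal.ofReal (4 * m)) t := by
    rw [ae_restrict_iff' measurableSet_Ioo]
    filter_upwards [(conical_diff hcc).countable.ae_notMem volume,
      (conical_diff hCc).countable.ae_notMem volume] with t ht1 ht2 htI
    have hd1 : DifferentiableAt ℝ c t := by
      by_contra hn; exact ht1 ⟨htI, hn⟩
    have hd2 : DifferentiableAt ℝ C t := by
      by_contra hn; exact ht2 ⟨htI, hn⟩
    have hev : (fun u => (conj a r hD hO hO' g).toFun (gam a e₁ u)) =ᶠ[𝓝 t] C := by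
      filter_upwards [isOpen_Ioo.mem_nhds htI] with u hu
      rw [conj_toFun, hS u (Ioo_subset_Icc_self hu)]
    rw [hev.deriv_eq, hw]
    have hcj : ∀ j, HasDerivAt (fun u => c u j) (deriv c t j) t := hasDerivAt_pi.1 hd1.hasDerivAt
    have hCj : ∀ j, HasDerivAt (fun u => sg (a j) r D (c u j)) (deriv C t j) t :=
      hasDerivAt_pi.1 hd2.hasDerivAt
    set E : ℝ := ‖deriv c t - m • ev e'.2‖ with hE
    have hEj : ∀ j, |deriv c t j - (m • ev e'.2 : V) j| ≤ E := fun j => by
      have := norm_le_pi_norm (deriv c t - m • ev e'.2) j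
      rwa [Real.norm_eq_abs, Pi.sub_apply] at this
    have hE0 : 0 ≤ E := norm_nonneg _
    have hLip : ∀ j, |deriv C t j| ≤ 2 * |deriv c t j| := fun j =>
      abs_deriv_le_of_lip zero_le_two (fun x y => abs_sg_sub_le x y) (hcj j) (hCj j)
    -- the transversal components
    have hne : ∀ j, j ≠ e'.2 → |deriv C t j - (s • (m • ev e'.2) : V) j| ≤ 2 * E := by
      intro j hj
      have h0 : (ev e'.2 : V) j = 0 := by simp only [ev]; rw [Pi.single_eq_of_ne hj]
      have h1 := hEj j
      simp only [Pi.smul_apply, smul_eq_mul, h0, mul_zero, sub_zero] at h1 ⊢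
      exact (hLip j).trans (by linarith)
    have hdir1 : (ev e'.2 : V) e'.2 = 1 := by simp only [ev]; rw [Pi.single_eq_same]
    have hdirE := hEj e'.2
    simp only [Pi.smul_apply, smul_eq_mul, hdir1, mul_one] at hdirE
    by_cases htb : t ∈ bad
    · rw [indicator_of_mem htb]
      have hdir : |deriv C t e'.2 - (s • (m • ev e'.2) : V) e'.2| ≤ 2 * E + 4 * m := by
        simp only [Pi.smul_apply, smul_eq_mul, hdir1, mul_one]
        have h1 := hLip e'.2
        have h3 : |deriv c t e'.2| ≤ E + m := by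
          calc |deriv c t e'.2| = |(deriv c t e'.2 - m) + m| := by ring_nf
            _ ≤ |deriv c t e'.2 - m| + |m| := abs_add_le _ _
            _ ≤ E + m := by rw [abs_of_pos hm0]; linarith
        calc |deriv C t e'.2 - s * m| ≤ |deriv C t e'.2| + |s * m| := abs_sub _ _
          _ ≤ 2 * (E + m) + 2 * m := by
              refine add_le_add (h1.trans (by linarith)) ?_
              rw [abs_of_nonneg (by positivity)]
              nlinarith
          _ = _ := by ring
      have hall : ‖deriv C t - s • (m • ev e'.2)‖ ≤ 2 * E + 4 * m := by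
        refine (pi_norm_le_iff_of_nonneg (by positivity)).2 fun j => ?_
        rw [Real.norm_eq_abs, Pi.sub_apply]
        by_cases hj : j = e'.2
        · rw [hj]; exact hdir
        · exact (hne j hj).trans (by linarith)
      refine (ENNReal.ofReal_le_ofReal hall).trans (le_of_eq ?_)
      rw [ENNReal.ofReal_add (by positivity) (by positivity), ENNReal.ofReal_mul zero_le_two]
      simp
    · rw [indicator_of_notMem htb, add_zero]
      have ht3 : κ < t ∧ t < 1 - κ := by
        rw [hbad, mem_union, not_or] at htb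
        constructor
        · by_contra h
          exact htb.1 ⟨htI.1.le, not_lt.1 h⟩
        · by_contra h
          exact htb.2 ⟨not_lt.1 h, htI.2.le⟩
      have hct : |c t e'.2 - gam v e' t e'.2| ≤ κ * m := by
        have h1 := hclose _ (mem_edge_gam (v := v) (e := e') (Ioo_subset_Icc_self htI))
        have h3 := norm_le_pi_norm (g.toFun (gam v e' t) - gam v e' t) e'.2
        rw [Real.norm_eq_abs, Pi.sub_apply] at h3
        refine (h3.trans h1).trans (le_of_eq ?_)
        rw [hm]; ring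
      rw [gam_apply_dir] at hct
      have hct' := abs_le.1 hct
      have e1 : t / 2 ^ e'.1.1 = t * m := by rw [hm]; ring
      rw [e1] at hct'
      have h4 : HasDerivAt (sg (a e'.2) r D) s (c t e'.2) := by
        apply hslope
        · nlinarith [hct'.1, ht3.1, hct'.2, ht3.2]
        · nlinarith [hct'.1, ht3.1, hct'.2, ht3.2]
      have h5 : HasDerivAt (fun u => sg (a e'.2) r D (c u e'.2)) (s * deriv c t e'.2) t :=
        HasDerivAt.comp (h₂ := sg (a e'.2) r D) t h4 (hcj e'.2)
      have h6 : deriv C t e'.2 = s * deriv c t e'.2 := (hCj e'.2).unique h5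
      have hdir : |deriv C t e'.2 - (s • (m • ev e'.2) : V) e'.2| ≤ 2 * E := by
        simp only [Pi.smul_apply, smul_eq_mul, hdir1, mul_one]
        rw [h6, ← mul_sub, abs_mul, abs_of_nonneg hs1]
        exact mul_le_mul hs2 hdirE (abs_nonneg _) zero_le_two
      have hall : ‖deriv C t - s • (m • ev e'.2)‖ ≤ 2 * E := by
        refine (pi_norm_le_iff_of_nonneg (by positivity)).2 fun j => ?_
        rw [Real.norm_eq_abs, Pi.sub_apply]
        by_cases hj : j = e'.2
        · rw [hj]; exact hdir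
        · exact hne j hj
      refine (ENNReal.ofReal_le_ofReal hall).trans (le_of_eq ?_)
      rw [ENNReal.ofReal_mul zero_le_two]
      simp
  rw [← restrict_Ioo_eq_restrict_Icc]
  refine (lintegral_mono_ae key).trans ?_
  rw [lintegral_add_right _ (measurable_const.indicator hmeas), lintegral_const_mul' _ _ (by simp)]
  have hA : (2:ℝ≥0∞) * ∫⁻ t in Ioo (0:ℝ) 1, ENNReal.ofReal ‖deriv c t - m • ev e'.2‖ ≤
      ENNReal.ofReal (2 * (κ * m)) := by
    rw [restrict_Ioo_eq_restrict_Icc, ENNReal.ofReal_mul zero_le_two]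
    refine mul_le_mul' (by simp) hl1'
  have hB : ∫⁻ t in Ioo (0:ℝ) 1, bad.indicator (fun _ => ENNReal.ofReal (4 * m)) t ≤
      ENNReal.ofReal (8 * (κ * m)) := by
    refine (setLIntegral_le_lintegral _ _).trans ?_
    rw [lintegral_indicator hmeas, setLIntegral_const]
    have h1 : volume bad ≤ ENNReal.ofReal (2 * κ) := by
      refine (measure_union_le _ _).trans ?_
      rw [Real.volume_Icc, Real.volume_Icc, ← ENNReal.ofReal_add (by linarith) (by linarith)]
      exact ENNReal.ofReal_le_ofReal (by linarith)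
    refine (mul_le_mul' le_rfl h1).trans ?_
    rw [← ENNReal.ofReal_mul (by positivity)]
    exact ENNReal.ofReal_le_ofReal (by linarith)
  refine (add_le_add hA hB).trans ?_
  rw [← ENNReal.ofReal_add (by positivity) (by positivity)]
  refine ENNReal.ofReal_le_ofReal (le_of_eq ?_)
  rw [hm]; ring

end Vale.Agent.P073.H851.BC
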