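import Vale.Agent.P073.H851.BoxEdge

/-!
# P073, [BOX-CELL]: the fine edges of the conjugated map
-/

open MeasureTheory Set Filter Topology Metric
open scoped ENNReal

namespace Vale.Agent.P073.H851.BC

open Vale.Agent.P073.St (V)
open Vale.Agent.P073.SQ (ev)
open Vale.Agent.P073.AB
open Vale.Agent.P073.H333 (dvar_one)
open _root_.P073 (ConHomeo ConicalOn)
open _root_.P073.Net (dyc)
open _root_.P073.Gauge (gam dvar)
open _root_.P073.Gauge.O407 (eInt_le_sum)

/-- the box with the corner `α` of generation `N`, with `m` intervals in every direction, shrunk by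
`η` -/
def cbx (v : V) (N : ℕ) (α : Fin 3 → ℤ) (m : ℕ) (η : ℝ) : Set V :=
  {x | ∀ i, v i + α i / 2 ^ N + η ≤ x i ∧ x i ≤ v i + (α i + m) / 2 ^ N - η}

section fine

variable {v : V} {N : ℕ} {α : Fin 3 → ℤ} {m d b : ℕ}

theorem D_nonneg (N d : ℕ) : (0:ℝ) ≤ d / 2 ^ N := by positivity

/-- the lower end -/
theorem cell_lo {η : ℝ} (hη : η ≤ 1 / 2 ^ N) (i : Fin 3) :
    sg (pt v N α i) (1 / 2 ^ N) (d / 2 ^ N) (v i + α i / 2 ^ N + η) =
      pt v N α i + (((0 : Fin 3 → ℤ) i : ℝ)) / 2 ^ (N - b) + η := by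
  have e3 : ((0 : Fin 3 → ℤ) i : ℝ) = 0 := by simp
  rw [e3, zero_div, add_zero]
  exact sg_lo (D_nonneg N d) (by simp only [pt]; linarith)

/-- the upper end -/
theorem cell_hi (hmd : m + d = 2 ^ b) (hdm : d = 0 ∨ d + 2 ≤ m) (hb : b ≤ N) {η : ℝ}
    (hη : η ≤ 1 / 2 ^ N) (i : Fin 3) :
    sg (pt v N α i) (1 / 2 ^ N) (d / 2 ^ N) (v i + (α i + m) / 2 ^ N - η) =
      pt v N α i + (((0 : Fin 3 → ℤ) i : ℝ) + 1) / 2 ^ (N - b) - η := by
  have hN : (0:ℝ) < 2 ^ N := by positivity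
  have hmd' : (m:ℝ) + d = 2 ^ b := by exact_mod_cast hmd
  have e1 : (1:ℝ) / 2 ^ (N - b) = (m + d) / 2 ^ N := by
    rw [hmd', div_eq_div_iff (by positivity) hN.ne', one_mul, ← pow_add]
    congr 1; omega
  have e3 : ((0 : Fin 3 → ℤ) i : ℝ) = 0 := by simp
  rw [e3, zero_add, e1]
  rcases hdm with h0 | hdm
  · have h0' : (d:ℝ) = 0 := by exact_mod_cast h0
    simp only [h0', zero_div, add_zero, sg, pt]
    rw [min_eq_right (le_max_right _ _)]
    ring
  · have hdm' : (d:ℝ) + 2 ≤ m := by exact_mod_cast hdm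
    have e2 : ((m:ℝ) - d - 1) / 2 ^ N ≥ 1 / 2 ^ N := by
      apply div_le_div_of_nonneg_right _ hN.le
      linarith
    rw [sg_hi (D_nonneg N d)]
    · simp only [pt]; ring
    · have : (m:ℝ) / 2 ^ N = ((m:ℝ) - d - 1) / 2 ^ N + 1 / 2 ^ N + d / 2 ^ N := by ring
      simp only [pt]
      have h3 : ((α i:ℝ) + m) / 2 ^ N = α i / 2 ^ N + m / 2 ^ N := by ring
      linarith

/-- the box is mapped onto a dyadic cube -/
theorem mem_cell (hmd : m + d = 2 ^ b) (hdm : d = 0 ∨ d + 2 ≤ m) (hb : b ≤ N) {η : ℝ}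
    (hη : η ≤ 1 / 2 ^ N) {x : V} :
    SM (pt v N α) (1 / 2 ^ N) (d / 2 ^ N) x ∈ shrink (pt v N α) (N - b) 0 η ↔
      x ∈ cbx v N α m η := by
  simp only [shrink, cbx, mem_setOf_eq]
  refine forall_congr' fun i => ?_
  rw [← cell_lo (d := d) hη i, ← cell_hi hmd hdm hb hη i]
  exact and_congr sg_le_iff sg_le_iff

theorem interior_shrink (a : V) (n : ℕ) (z : Fin 3 → ℤ) (η : ℝ) :
    interior (shrink a n z η) =
      {x | ∀ k, a k + z k / 2 ^ n + η < x k ∧ x k < a k + (z k + 1) / 2 ^ n - η} := by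
  have h1 : shrink a n z η =
      univ.pi fun k => Icc (a k + z k / 2 ^ n + η) (a k + (z k + 1) / 2 ^ n - η) := by
    ext x; simp only [shrink, mem_setOf_eq, mem_univ_pi, mem_Icc]
  rw [h1, interior_pi_set finite_univ]
  ext x
  simp only [interior_Icc, mem_univ_pi, mem_Ioo, mem_setOf_eq]

/-- the open version -/
theorem mem_cell_int (hmd : m + d = 2 ^ b) (hdm : d = 0 ∨ d + 2 ≤ m) (hb : b ≤ N) {η : ℝ}
    (hη : η ≤ 1 / 2 ^ N) {x : V} :
    SM (pt v N α) (1 / 2 ^ N) (d / 2 ^ N) x ∈ interior (shrink (pt v N α) (N - b) 0 η) ↔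
      ∀ i, v i + α i / 2 ^ N + η < x i ∧ x i < v i + (α i + m) / 2 ^ N - η := by
  rw [interior_shrink]
  simp only [mem_setOf_eq]
  refine forall_congr' fun i => ?_
  rw [← cell_lo (d := d) hη i, ← cell_hi hmd hdm hb hη i]
  exact and_congr sg_lt_iff sg_lt_iff

theorem shrink_zero (a : V) (n : ℕ) (z : Fin 3 → ℤ) : shrink a n z 0 = dyc a n z := by
  ext x
  simp only [shrink, dyc, mem_setOf_eq, add_zero, sub_zero]

theorem mem_cell0 (hmd : m + d = 2 ^ b) (hdm : d = 0 ∨ d + 2 ≤ m) (hb : b ≤ N) {x : V} :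
    SM (pt v N α) (1 / 2 ^ N) (d / 2 ^ N) x ∈ dyc (pt v N α) (N - b) 0 ↔
      x ∈ cbx v N α m 0 := by
  rw [← shrink_zero]
  exact mem_cell hmd hdm hb (by positivity)

theorem mem_cell' (hmd : m + d = 2 ^ b) (hdm : d = 0 ∨ d + 2 ≤ m) (hb : b ≤ N) {η : ℝ}
    (hη : η ≤ 1 / 2 ^ N) {y : V} :
    SMi (pt v N α) (1 / 2 ^ N) (d / 2 ^ N) y ∈ cbx v N α m η ↔
      y ∈ shrink (pt v N α) (N - b) 0 η := by
  rw [← mem_cell hmd hdm hb hη, SM_SMi (D_nonneg N d)]

/-! ### One coordinate -/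

variable {F : ℕ}

theorem q_eq (hF : N ≤ F) : (1:ℝ) / 2 ^ N = (2 ^ (F - N) : ℤ) / 2 ^ F := by
  push_cast
  rw [div_eq_div_iff (by positivity) (by positivity), one_mul, ← pow_add]
  congr 1; omega

/-- transversal coordinates -/
theorem exists_Z (hF : N ≤ F) (a₀ : ℝ) (z : ℤ) :
    ∃ Z : ℤ, sgi a₀ (1 / 2 ^ N) (d / 2 ^ N) (a₀ + z / 2 ^ F) = a₀ + Z / 2 ^ (F + 1) := by
  have hp : (0:ℝ) < 2 ^ F := by positivity
  set q : ℤ := 2 ^ (F - N) with hq
  have hq1 : (1:ℝ) / 2 ^ N = q / 2 ^ F := q_eq hF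
  have hD : (d:ℝ) / 2 ^ N = d * q / 2 ^ F := by
    rw [div_eq_mul_one_div, hq1]; ring
  have hD0 : (0:ℝ) ≤ d / 2 ^ N := D_nonneg N d
  rcases le_total z q with h | h
  · refine ⟨2 * z, ?_⟩
    rw [sgi_lo hD0]
    · push_cast; rw [pow_succ]; field_simp
    · rw [hq1]
      have : (z:ℝ) ≤ q := by exact_mod_cast h
      gcongr
  rcases le_total z ((1 + 2 * d) * q) with h' | h'
  · refine ⟨z + q, ?_⟩
    rw [sgi_mid]
    · rw [hq1]; push_cast; rw [pow_succ]; field_simp; ring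
    · rw [hq1]
      have : (q:ℝ) ≤ z := by exact_mod_cast h
      gcongr
    · rw [hq1, hD]
      have h3 : (z:ℝ) ≤ (1 + 2 * d) * q := by exact_mod_cast h'
      have h4 : (z:ℝ) / 2 ^ F ≤ (1 + 2 * d) * q / 2 ^ F := by gcongr
      have h5 : (1 + 2 * (d:ℝ)) * q / 2 ^ F = q / 2 ^ F + 2 * (d * q / 2 ^ F) := by ring
      linarith
  · refine ⟨2 * z - 2 * d * q, ?_⟩
    rw [sgi_hi hD0]
    · rw [hD]; push_cast; rw [pow_succ]; field_simp; ring
    · rw [hq1, hD]
      have h3 : (1 + 2 * (d:ℝ)) * q ≤ z := by exact_mod_cast h'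
      have h4 : (1 + 2 * (d:ℝ)) * q / 2 ^ F ≤ z / 2 ^ F := by gcongr
      have h5 : (1 + 2 * (d:ℝ)) * q / 2 ^ F = q / 2 ^ F + 2 * (d * q / 2 ^ F) := by ring
      linarith

theorem pt_shift (hF : N ≤ F) (v : V) (α Z : Fin 3 → ℤ) (j : Fin 3) :
    pt v N α j + (Z j : ℝ) / 2 ^ (F + 1) =
      pt v (F + 1) (fun j => 2 * 2 ^ (F - N) * α j + Z j) j := by
  simp only [pt]
  push_cast
  have h1 : (2:ℝ) ^ (F + 1) = 2 ^ N * (2 * 2 ^ (F - N)) := by
    rw [← pow_succ', ← pow_add]; congr 1; omega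
  rw [add_div, h1]
  have h2 : (2 * 2 ^ (F - N) * (α j : ℝ)) / (2 ^ N * (2 * 2 ^ (F - N))) = α j / 2 ^ N := by
    field_simp
  rw [h2]; ring

/-- the preimage of a fine edge in the doubled part -/
theorem edge_mid (hF : N ≤ F) {e : Idx × Fin 3} (he : e.1.1 = F)
    (h1 : 2 ^ (F - N) ≤ e.1.2 e.2) (h2 : e.1.2 e.2 + 1 ≤ (1 + 2 * d) * 2 ^ (F - N)) :
    ∃ z' : Fin 3 → ℤ, (∀ t ∈ Icc (0:ℝ) 1,
      SMi (pt v N α) (1 / 2 ^ N) (d / 2 ^ N) (gam (pt v N α) e t) = gam v ((F + 1, z'), e.2) t) ∧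
      ∀ u, pt v (F + 1) z' e.2 < u → u < pt v (F + 1) z' e.2 + 1 / 2 ^ (F + 1) →
        HasDerivAt (sg (pt v N α e.2) (1 / 2 ^ N) (d / 2 ^ N)) 2 u := by
  obtain ⟨⟨F', z⟩, i⟩ := e
  obtain rfl : F' = F := he
  simp only at h1 h2
  have hp : (0:ℝ) < 2 ^ F' := by positivity
  set q : ℤ := 2 ^ (F' - N) with hq
  have hq1 : (1:ℝ) / 2 ^ N = q / 2 ^ F' := q_eq hF
  have hD : (d:ℝ) / 2 ^ N = d * q / 2 ^ F' := by
    rw [div_eq_mul_one_div, hq1]; ring
  choose Z hZ using fun j => exists_Z (d := d) hF (pt v N α j) (z j)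
  set Z' : Fin 3 → ℤ := Function.update Z i (z i + q) with hZ'
  refine ⟨fun j => 2 * 2 ^ (F' - N) * α j + Z' j, ?_, ?_⟩
  · intro t ht
    funext j
    show sgi _ _ _ (gam (pt v N α) ((F', z), i) t j) = _
    by_cases hj : j = i
    · subst hj
      have e1 := gam_apply_dir (pt v N α) ((F', z), j) t
      have e2 := gam_apply_dir v ((F' + 1, fun l => 2 * 2 ^ (F' - N) * α l + Z' l), j) t
      simp only at e1 e2
      rw [e1, e2, ← pt_shift hF]
      have e3 : Z' j = z j + q := by rw [hZ', Function.update_self]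
      have h3 : (q:ℝ) ≤ z j := by exact_mod_cast h1
      have h4 : (z j : ℝ) + 1 ≤ (1 + 2 * d) * q := by exact_mod_cast h2
      have e4 : pt (pt v N α) F' z j = pt v N α j + z j / 2 ^ F' := rfl
      rw [e4, sgi_mid]
      · rw [e3, hq1]; push_cast; rw [pow_succ]; field_simp; ring
      · rw [hq1, add_assoc, add_le_add_iff_left, ← add_div]
        apply div_le_div_of_nonneg_right _ hp.le
        linarith [ht.1]
      · rw [hq1, hD, add_assoc, ← add_div, add_assoc, add_le_add_iff_left, ← mul_div_assoc,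
          ← add_div]
        apply div_le_div_of_nonneg_right _ hp.le
        nlinarith [ht.2]
    · have e1 := gam_apply_ne (pt v N α) ((F', z), i) t (j := j) hj
      have e2 := gam_apply_ne v ((F' + 1, fun l => 2 * 2 ^ (F' - N) * α l + Z' l), i) t (j := j) hj
      simp only at e1 e2
      rw [e1, e2, ← pt_shift hF]
      have e3 : Z' j = Z j := by rw [hZ', Function.update_of_ne hj]
      rw [e3]
      exact hZ j
  · intro u hu1 hu2
    simp only at hu1 hu2 ⊢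
    rw [← pt_shift hF] at hu1 hu2
    have e3 : Z' i = z i + q := by rw [hZ', Function.update_self]
    rw [e3] at hu1 hu2
    have h3 : (q:ℝ) ≤ z i := by exact_mod_cast h1
    have h4 : (z i : ℝ) + 1 ≤ (1 + 2 * d) * q := by exact_mod_cast h2
    have h5 : pt v N α i + 1 / 2 ^ N < u := by
      refine lt_of_le_of_lt ?_ hu1
      rw [hq1, pow_succ, add_le_add_iff_left, div_le_div_iff₀ hp (by positivity)]
      push_cast
      nlinarith
    have h6 : u < pt v N α i + 1 / 2 ^ N + d / 2 ^ N := by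
      refine lt_of_lt_of_le hu2 ?_
      rw [hq1, hD, pow_succ, add_assoc, add_assoc, add_le_add_iff_left, ← add_div, ← add_div,
        div_le_div_iff₀ (by positivity) hp]
      push_cast
      nlinarith
    have h7 : HasDerivAt (fun t : ℝ => 2 * t - pt v N α i - 1 / 2 ^ N) 2 u := by
      simpa using (((hasDerivAt_id u).const_mul (2:ℝ)).sub_const (pt v N α i)).sub_const
        ((1:ℝ) / 2 ^ N)
    refine h7.congr_of_eventuallyEq ?_
    filter_upwards [Ioo_mem_nhds h5 h6] with t ht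
    exact sg_mid ht.1.le ht.2.le

/-- the preimage of a half of a fine edge in the other parts -/
theorem edge_side (hF : N ≤ F) {e : Idx × Fin 3} (he : e.1.1 = F)
    (h12 : e.1.2 e.2 + 1 ≤ 2 ^ (F - N) ∨ (1 + 2 * d) * 2 ^ (F - N) ≤ e.1.2 e.2) {l : ℕ}
    (hl : l < 2) :
    ∃ z' : Fin 3 → ℤ, (∀ t ∈ Icc (0:ℝ) 1,
      SMi (pt v N α) (1 / 2 ^ N) (d / 2 ^ N) (gam (pt v N α) (subEdge e 1 l) t) =
        gam v ((F + 1, z'), e.2) t) ∧
      ∀ u, pt v (F + 1) z' e.2 < u → u < pt v (F + 1) z' e.2 + 1 / 2 ^ (F + 1) →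
        HasDerivAt (sg (pt v N α e.2) (1 / 2 ^ N) (d / 2 ^ N)) 1 u := by
  obtain ⟨⟨F', z⟩, i⟩ := e
  obtain rfl : F' = F := he
  simp only at h12
  have hp : (0:ℝ) < 2 ^ F' := by positivity
  have hD0 : (0:ℝ) ≤ d / 2 ^ N := D_nonneg N d
  set q : ℤ := 2 ^ (F' - N) with hq
  have hq1 : (1:ℝ) / 2 ^ N = q / 2 ^ F' := q_eq hF
  have hD : (d:ℝ) / 2 ^ N = d * q / 2 ^ F' := by
    rw [div_eq_mul_one_div, hq1]; ring
  have hl0 : (0:ℝ) ≤ l := by positivity
  have hl1 : (l:ℝ) ≤ 1 := by exact_mod_cast (by omega : l ≤ 1)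
  choose Z hZ using fun j => exists_Z (d := d) hF (pt v N α j) (z j)
  -- the shift
  obtain ⟨c, hc⟩ : ∃ c : ℤ, c = if z i + 1 ≤ q then 0 else 2 * d * q := ⟨_, rfl⟩
  set Z' : Fin 3 → ℤ := Function.update Z i (2 * z i + l - c) with hZ'
  have hsub : subEdge ((F', z), i) 1 l =
      ((F' + 1, fun j => if j = i then 2 * z j + l else 2 * z j), i) := by
    unfold subEdge
    simp
  refine ⟨fun j => 2 * 2 ^ (F' - N) * α j + Z' j, ?_, ?_⟩
  · intro t ht
    funext j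
    rw [hsub]
    show sgi _ _ _ (gam (pt v N α) ((F' + 1, fun j => if j = i then 2 * z j + l else 2 * z j), i)
      t j) = _
    by_cases hj : j = i
    · subst hj
      have e1 := gam_apply_dir (pt v N α)
        ((F' + 1, fun l' => if l' = j then 2 * z l' + l else 2 * z l'), j) t
      have e2 := gam_apply_dir v ((F' + 1, fun l' => 2 * 2 ^ (F' - N) * α l' + Z' l'), j) t
      simp only at e1 e2
      rw [e1, e2, ← pt_shift hF]
      have e3 : Z' j = 2 * z j + l - c := by rw [hZ', Function.update_self]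
      have e4 : pt (pt v N α) (F' + 1) (fun l' => if l' = j then 2 * z l' + l else 2 * z l') j =
          pt v N α j + (2 * z j + l) / 2 ^ (F' + 1) := by
        simp [pt]
      rw [e4, e3]
      by_cases hcase : z j + 1 ≤ q
      · rw [if_pos hcase] at hc
        have h3 : (z j : ℝ) + 1 ≤ q := by exact_mod_cast hcase
        rw [sgi_lo hD0]
        · rw [hc]; push_cast; ring
        · rw [hq1, add_assoc, ← add_div, add_le_add_iff_left, pow_succ,
            div_le_div_iff₀ (by positivity) hp]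
          nlinarith [ht.2]
      · rw [if_neg hcase] at hc
        have h12' : (1 + 2 * d) * q ≤ z j := h12.resolve_left hcase
        have h3 : (1 + 2 * (d:ℝ)) * q ≤ z j := by exact_mod_cast h12'
        rw [sgi_hi hD0]
        · rw [hc, hD]; push_cast; rw [pow_succ]; field_simp; ring
        · rw [hq1, hD]
          have h5 : (1 + 2 * (d:ℝ)) * q / 2 ^ F' = q / 2 ^ F' + 2 * (d * q / 2 ^ F') := by ring
          have h4 : (1 + 2 * (d:ℝ)) * q / 2 ^ F' ≤ z j / 2 ^ F' := by gcongr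
          have h6 : (2 * (z j:ℝ) + l) / 2 ^ (F' + 1) = z j / 2 ^ F' + l / 2 ^ (F' + 1) := by
            rw [pow_succ]; field_simp
          have h7 : (0:ℝ) ≤ l / 2 ^ (F' + 1) := by positivity
          have h8 : (0:ℝ) ≤ t / 2 ^ (F' + 1) := div_nonneg ht.1 (by positivity)
          rw [h6]
          linarith
    · have e1 := gam_apply_ne (pt v N α)
        ((F' + 1, fun l' => if l' = i then 2 * z l' + l else 2 * z l'), i) t (j := j) hj
      have e2 := gam_apply_ne v ((F' + 1, fun l' => 2 * 2 ^ (F' - N) * α l' + Z' l'), i) t (j := j) hj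
      simp only at e1 e2
      rw [e1, e2, ← pt_shift hF]
      have e3 : Z' j = Z j := by rw [hZ', Function.update_of_ne hj]
      have e4 : pt (pt v N α) (F' + 1) (fun l' => if l' = i then 2 * z l' + l else 2 * z l') j =
          pt v N α j + z j / 2 ^ F' := by
        simp only [pt, if_neg hj]
        push_cast
        rw [pow_succ]
        field_simp
      rw [e3, e4]
      exact hZ j
  · intro u hu1 hu2
    simp only at hu1 hu2 ⊢
    rw [← pt_shift hF] at hu1 hu2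
    have e3 : Z' i = 2 * z i + l - c := by rw [hZ', Function.update_self]
    rw [e3] at hu1 hu2
    by_cases hcase : z i + 1 ≤ q
    · rw [if_pos hcase] at hc
      have h3 : (z i : ℝ) + 1 ≤ q := by exact_mod_cast hcase
      have h5 : u < pt v N α i + 1 / 2 ^ N := by
        refine lt_of_lt_of_le hu2 ?_
        rw [hc, hq1, pow_succ, add_assoc, ← add_div, add_le_add_iff_left,
          div_le_div_iff₀ (by positivity) hp]
        push_cast
        nlinarith
      refine (hasDerivAt_id u).congr_of_eventuallyEq ?_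
      filter_upwards [Iio_mem_nhds h5] with t ht
      exact sg_lo hD0 ht.le
    · rw [if_neg hcase] at hc
      have h12' : (1 + 2 * d) * q ≤ z i := h12.resolve_left hcase
      have h3 : (1 + 2 * (d:ℝ)) * q ≤ z i := by exact_mod_cast h12'
      have h5 : pt v N α i + 1 / 2 ^ N + d / 2 ^ N < u := by
        refine lt_of_le_of_lt ?_ hu1
        rw [hc, hq1, hD, pow_succ, add_assoc, add_le_add_iff_left, ← add_div,
          div_le_div_iff₀ hp (by positivity)]
        push_cast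
        nlinarith
      refine ((hasDerivAt_id u).add_const ((d:ℝ) / 2 ^ N)).congr_of_eventuallyEq ?_
      filter_upwards [Ioi_mem_nhds h5] with t ht
      exact sg_hi hD0 (le_of_lt ht)

/-- **the fine edges** -/
theorem own_edge {O O' : Set V} (hO : IsOpen O) (hO' : IsOpen O') (g : ConHomeo O O')
    (hmd : m + d = 2 ^ b) (hdm : d = 0 ∨ d + 2 ≤ m) (hb : b ≤ N) (hF : N ≤ F) {κ : ℝ} (hκ : 0 ≤ κ)
    (hC : cbx v N α m 0 ⊆ O) (hclose : ∀ x ∈ cbx v N α m 0, ‖g.toFun x - x‖ ≤ κ / 2 ^ F)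
    (hl1 : ∀ e' : Idx × Fin 3, e'.1.1 = F + 1 → edge v e' ⊆ cbx v N α m 0 →
      ∫⁻ t in Icc (0:ℝ) 1, ENNReal.ofReal ‖deriv (fun u => g.toFun (gam v e' u)) t -
        (1 / 2 ^ (F + 1) : ℝ) • ev e'.2‖ ≤ ENNReal.ofReal (κ / 2 ^ F))
    {e : Idx × Fin 3} (he : e.1.1 = F) (hsub : edge (pt v N α) e ⊆ dyc (pt v N α) (N - b) 0) :
    dvar 1 (conj (pt v N α) (1 / 2 ^ N) (D_nonneg N d) hO hO' g).toFun (pt v N α) e
      ((1 / 2 ^ e.1.1 : ℝ) • ev e.2) ≤ ENNReal.ofReal (20 * κ / 2 ^ F) := by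
  have hk2 : κ / 2 ^ F = 2 * κ / 2 ^ (F + 1) := by rw [pow_succ]; field_simp
  -- one piece
  have core : ∀ (e₁ : Idx × Fin 3) (z' : Fin 3 → ℤ) (s : ℝ), e₁.2 = e.2 → 0 ≤ s → s ≤ 2 →
      (1 / 2 ^ e₁.1.1 : ℝ) = s * (1 / 2 ^ (F + 1)) →
      (∀ t ∈ Icc (0:ℝ) 1, SMi (pt v N α) (1 / 2 ^ N) (d / 2 ^ N) (gam (pt v N α) e₁ t) =
        gam v ((F + 1, z'), e.2) t) →
      (∀ u, pt v (F + 1) z' e.2 < u → u < pt v (F + 1) z' e.2 + 1 / 2 ^ (F + 1) →
        HasDerivAt (sg (pt v N α e.2) (1 / 2 ^ N) (d / 2 ^ N)) s u) →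
      edge (pt v N α) e₁ ⊆ dyc (pt v N α) (N - b) 0 →
      dvar 1 (conj (pt v N α) (1 / 2 ^ N) (D_nonneg N d) hO hO' g).toFun (pt v N α) e₁
        ((1 / 2 ^ e₁.1.1 : ℝ) • ev e₁.2) ≤ ENNReal.ofReal (10 * κ / 2 ^ F) := by
    intro e₁ z' s h2 hs0 hs2 hs hS hsl hsub₁
    have hedge : edge v ((F + 1, z'), e.2) ⊆ cbx v N α m 0 := by
      intro x hx
      obtain ⟨t, ht, rfl⟩ := _root_.P073.Gauge.C110.mem_edge_iff.1 hx
      rw [← hS t ht, mem_cell' hmd hdm hb (by positivity), shrink_zero]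
      exact hsub₁ (mem_edge_gam ht)
    have h3 := edge_core hO hO' g (D_nonneg N d) (e₁ := e₁) (e' := ((F + 1, z'), e.2)) h2 hs0 hs2
      hs hS hsl (hedge.trans hC) (κ := 2 * κ) (by positivity)
      (fun x hx => by
        show _ ≤ 2 * κ / 2 ^ (F + 1)
        rw [← hk2]; exact hclose x (hedge hx))
      (by
        show _ ≤ ENNReal.ofReal (2 * κ / 2 ^ (F + 1))
        rw [← hk2]; exact hl1 _ rfl hedge)
    refine h3.trans (ENNReal.ofReal_le_ofReal (le_of_eq ?_))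
    show 10 * (2 * κ) / 2 ^ (F + 1) = _
    rw [pow_succ]; field_simp
  by_cases h1 : 2 ^ (F - N) ≤ e.1.2 e.2 ∧ e.1.2 e.2 + 1 ≤ (1 + 2 * d) * 2 ^ (F - N)
  · obtain ⟨z', hz1, hz2⟩ := edge_mid (v := v) (α := α) hF he h1.1 h1.2
    refine (core e z' 2 rfl zero_le_two le_rfl ?_ hz1 hz2 hsub).trans
      (ENNReal.ofReal_le_ofReal ?_)
    · rw [he, pow_succ]; field_simp
    · gcongr; linarith
  · have h12 : e.1.2 e.2 + 1 ≤ 2 ^ (F - N) ∨ (1 + 2 * d) * 2 ^ (F - N) ≤ e.1.2 e.2 := by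
      by_contra hcon
      rw [not_or, not_le, not_le] at hcon
      exact h1 ⟨by omega, by omega⟩
    rw [dvar_one]
    refine (eInt_le_sum (H333.edge_eq_sub (pt v N α) e 1) _).trans ?_
    have hp : ∀ l ∈ Finset.range (2 ^ 1), eInt (pt v N α) (subEdge e 1 l)
        (fun x => ENNReal.ofReal ‖lineDeriv ℝ (conj (pt v N α) (1 / 2 ^ N) (D_nonneg N d) hO hO'
          g).toFun x (ev e.2) - ev e.2‖) ≤ ENNReal.ofReal (10 * κ / 2 ^ F) := by
      intro l hl
      have hl' : l < 2 ^ 1 := Finset.mem_range.1 hl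
      obtain ⟨z', hz1, hz2⟩ := edge_side (v := v) (α := α) hF he h12 (l := l) (by simpa using hl')
      have h4 := core (subEdge e 1 l) z' 1 rfl zero_le_one (by norm_num)
        (by
          show (1 / 2 ^ (e.1.1 + 1) : ℝ) = _
          rw [he, one_mul]) hz1 hz2
        ((S308.subEdge_sub hl').trans hsub)
      rw [dvar_one] at h4
      exact h4
    refine (Finset.sum_le_sum hp).trans ?_
    rw [Finset.sum_const, Finset.card_range, nsmul_eq_mul]
    rw [show ((2 ^ 1 : ℕ) : ℝ≥0∞) = ENNReal.ofReal 2 by simp, ← ENNReal.ofReal_mul zero_le_two]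
    exact ENNReal.ofReal_le_ofReal (le_of_eq (by ring))

end fine

end Vale.Agent.P073.H851.BC
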