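import Vale.Agent.P073.H732.Dvar1

/-!
# P073, [BOX-CELL]: the coordinatewise piecewise linear map

`sg α r D t` is the identity for `t ≤ α + r`, has slope `2` on `[α + r, α + r + D]` and is the
translation by `D` above.  `SM a r D` is the product map of `V = Fin 3 → ℝ`.
-/

open Set Metric Topology Filter

namespace Vale.Agent.P073.H851.BC

open Vale.Agent.P073.St (V)
open _root_.P073

/-- the one-variable map -/
noncomputable def sg (α r D t : ℝ) : ℝ := t + min (max (t - α - r) 0) D

/-- its inverse -/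
noncomputable def sgi (α r D u : ℝ) : ℝ := u - min (max ((u - α - r) / 2) 0) D

variable {α r D : ℝ}

theorem sg_lo {t : ℝ} (hD : 0 ≤ D) (h : t ≤ α + r) : sg α r D t = t := by
  unfold sg
  rw [max_eq_right (by linarith), min_eq_left hD, add_zero]

theorem sg_mid {t : ℝ} (h : α + r ≤ t) (h' : t ≤ α + r + D) : sg α r D t = 2 * t - α - r := by
  unfold sg
  rw [max_eq_left (by linarith), min_eq_left (by linarith)]
  ring

theorem sg_hi {t : ℝ} (hD : 0 ≤ D) (h : α + r + D ≤ t) : sg α r D t = t + D := by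
  unfold sg
  rw [max_eq_left (by linarith), min_eq_right (by linarith)]

theorem sgi_lo {t : ℝ} (hD : 0 ≤ D) (h : t ≤ α + r) : sgi α r D t = t := by
  unfold sgi
  rw [max_eq_right (by linarith), min_eq_left hD, sub_zero]

theorem sgi_mid {t : ℝ} (h : α + r ≤ t) (h' : t ≤ α + r + 2 * D) :
    sgi α r D t = (t + α + r) / 2 := by
  unfold sgi
  rw [max_eq_left (by linarith), min_eq_left (by linarith)]
  ring

theorem sgi_hi {t : ℝ} (hD : 0 ≤ D) (h : α + r + 2 * D ≤ t) : sgi α r D t = t - D := by
  unfold sgi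
  rw [max_eq_left (by linarith), min_eq_right (by linarith)]

theorem sgi_sg (hD : 0 ≤ D) (t : ℝ) : sgi α r D (sg α r D t) = t := by
  rcases le_total t (α + r) with h | h
  · rw [sg_lo hD h, sgi_lo hD h]
  rcases le_total t (α + r + D) with h' | h'
  · rw [sg_mid h h', sgi_mid (by linarith) (by linarith)]
    ring
  · rw [sg_hi hD h', sgi_hi hD (by linarith)]
    ring

theorem sg_sgi (hD : 0 ≤ D) (t : ℝ) : sg α r D (sgi α r D t) = t := by
  rcases le_total t (α + r) with h | h
  · rw [sgi_lo hD h, sg_lo hD h]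
  rcases le_total t (α + r + 2 * D) with h' | h'
  · rw [sgi_mid h h', sg_mid (by linarith) (by linarith)]
    ring
  · rw [sgi_hi hD h', sg_hi hD (by linarith)]
    ring

theorem abs_clip_sub_le (D x y : ℝ) : |min (max x 0) D - min (max y 0) D| ≤ |x - y| :=
  (abs_min_sub_min_le_max _ _ _ _).trans (max_le ((abs_max_sub_max_le_abs _ _ _)) (by simp))

theorem clip_mono {x y : ℝ} (D : ℝ) (h : x ≤ y) : min (max x 0) D ≤ min (max y 0) D :=
  min_le_min (max_le_max h le_rfl) le_rfl

/-- `S` is `2`-Lipschitz -/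
theorem abs_sg_sub_le (s t : ℝ) : |sg α r D s - sg α r D t| ≤ 2 * |s - t| := by
  have h1 : sg α r D s - sg α r D t =
      (s - t) + (min (max (s - α - r) 0) D - min (max (t - α - r) 0) D) := by unfold sg; ring
  rw [h1]
  refine (abs_add_le _ _).trans ?_
  have h2 := abs_clip_sub_le D (s - α - r) (t - α - r)
  have h3 : s - α - r - (t - α - r) = s - t := by ring
  rw [h3] at h2
  linarith

/-- `S` is monotone with slope at least one -/
theorem sub_le_sg {s t : ℝ} (h : s ≤ t) : t - s ≤ sg α r D t - sg α r D s := by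
  have h2 := clip_mono D (show s - α - r ≤ t - α - r by linarith)
  unfold sg
  linarith

/-- the inverse is `1`-Lipschitz -/
theorem abs_sgi_sub_le (hD : 0 ≤ D) (s t : ℝ) : |sgi α r D s - sgi α r D t| ≤ |s - t| := by
  have key : ∀ s t : ℝ, s ≤ t → |sgi α r D s - sgi α r D t| ≤ |s - t| := by
    intro s t hst
    have h1 : sgi α r D s ≤ sgi α r D t := by
      by_contra hcon
      have h2 := sub_le_sg (α := α) (r := r) (D := D) (not_le.1 hcon).le
      rw [sg_sgi hD, sg_sgi hD] at h2
      linarith [not_le.1 hcon]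
    have h2 := sub_le_sg (α := α) (r := r) (D := D) h1
    rw [sg_sgi hD, sg_sgi hD] at h2
    rw [abs_sub_comm, abs_sub_comm s t, abs_of_nonneg (by linarith), abs_of_nonneg (by linarith)]
    exact h2
  rcases le_total s t with h | h
  · exact key s t h
  · rw [abs_sub_comm, abs_sub_comm s t]; exact key t s h

theorem sg_strictMono : StrictMono (sg α r D) := fun s t h => by
  have := sub_le_sg (α := α) (r := r) (D := D) h.le
  linarith

theorem sg_le_iff {s t : ℝ} : sg α r D s ≤ sg α r D t ↔ s ≤ t := sg_strictMono.le_iff_le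

theorem sg_lt_iff {s t : ℝ} : sg α r D s < sg α r D t ↔ s < t := sg_strictMono.lt_iff_lt

/-! ### The map of the space -/

/-- the product map -/
noncomputable def SM (a : V) (r D : ℝ) (x : V) : V := fun i => sg (a i) r D (x i)

/-- its inverse -/
noncomputable def SMi (a : V) (r D : ℝ) (x : V) : V := fun i => sgi (a i) r D (x i)

variable {a : V}

theorem SMi_SM (hD : 0 ≤ D) (x : V) : SMi a r D (SM a r D x) = x := by
  funext i; exact sgi_sg hD (x i)

theorem SM_SMi (hD : 0 ≤ D) (x : V) : SM a r D (SMi a r D x) = x := by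
  funext i; exact sg_sgi hD (x i)

theorem norm_SM_sub_le (x y : V) : ‖SM a r D x - SM a r D y‖ ≤ 2 * ‖x - y‖ := by
  refine (pi_norm_le_iff_of_nonneg (by positivity)).2 fun i => ?_
  have h1 := abs_sg_sub_le (α := a i) (r := r) (D := D) (x i) (y i)
  have h2 := norm_le_pi_norm (x - y) i
  rw [Real.norm_eq_abs, Pi.sub_apply] at h2
  rw [Real.norm_eq_abs, Pi.sub_apply]
  exact h1.trans (by linarith)

theorem norm_SMi_sub_le (hD : 0 ≤ D) (x y : V) : ‖SMi a r D x - SMi a r D y‖ ≤ ‖x - y‖ := by
  refine (pi_norm_le_iff_of_nonneg (by positivity)).2 fun i => ?_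
  have h1 := abs_sgi_sub_le (α := a i) (r := r) hD (x i) (y i)
  have h2 := norm_le_pi_norm (x - y) i
  rw [Real.norm_eq_abs, Pi.sub_apply] at h2
  rw [Real.norm_eq_abs, Pi.sub_apply]
  exact h1.trans h2

theorem continuous_SM : Continuous (SM a r D) := by
  unfold SM sg
  fun_prop

theorem continuous_SMi : Continuous (SMi a r D) := by
  unfold SMi sgi
  fun_prop

theorem conical_SM (a : V) (r D : ℝ) : ConicalOn (SM a r D) univ := by
  have hu : ConicalSet (univ : Set V) := isOpen_univ.conicalSet
  intro x hx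
  refine conicalWithinAt_pi (hu x hx) fun i => ?_
  have h1 : ConicalOn (fun y : V => y i) univ := conicalOn_linear (LinearMap.proj i : V →ₗ[ℝ] ℝ) hu
  have h2 : ConicalOn (fun y : V => y i - a i - r) univ :=
    (h1.sub (conicalOn_const (a i) hu)).sub (conicalOn_const r hu)
  have hc : ContinuousOn (fun y : V => y i - a i - r) univ := by fun_prop
  have h3 := h2.rmax (conicalOn_const (0:ℝ) hu) hc continuousOn_const
  have hc' : ContinuousOn (fun y : V => max (y i - a i - r) 0) univ := by fun_prop
  have h4 := h3.rmin (conicalOn_const D hu) hc' continuousOn_const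
  exact (h1.add h4) x hx

/-- the conical homeomorphism -/
noncomputable def SH (a : V) (r : ℝ) {D : ℝ} (hD : 0 ≤ D) : ConHomeo (univ : Set V) (univ : Set V) where
  toFun := SM a r D
  invFun := SMi a r D
  mapsTo := fun _ _ => mem_univ _
  mapsTo_inv := fun _ _ => mem_univ _
  left_inv := fun x _ => SMi_SM hD x
  right_inv := fun x _ => SM_SMi hD x
  cont := continuous_SM.continuousOn
  cont_inv := continuous_SMi.continuousOn
  conical := conical_SM a r D

/-- conjugation of a conical homeomorphism of open sets -/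
noncomputable def conj (a : V) (r : ℝ) {D : ℝ} (hD : 0 ≤ D) {O O' : Set V} (hO : IsOpen O)
    (hO' : IsOpen O') (g : ConHomeo O O') :
    ConHomeo (SM a r D '' O) (SM a r D '' O') :=
  (((SH a r hD).restr hO.conicalSet (subset_univ O)).symm.trans g).trans
    ((SH a r hD).restr hO'.conicalSet (subset_univ O'))

theorem conj_toFun (hD : 0 ≤ D) {O O' : Set V} (hO : IsOpen O)
    (hO' : IsOpen O') (g : ConHomeo O O') (y : V) :
    (conj a r hD hO hO' g).toFun y = SM a r D (g.toFun (SMi a r D y)) := rfl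

/-- conjugation back -/
noncomputable def conjb (a : V) (r : ℝ) {D : ℝ} (hD : 0 ≤ D) {O O' : Set V} (hO : IsOpen O)
    (hO' : IsOpen O') (g : ConHomeo (SM a r D '' O) (SM a r D '' O')) : ConHomeo O O' :=
  (((SH a r hD).restr hO.conicalSet (subset_univ O)).trans g).trans
    ((SH a r hD).restr hO'.conicalSet (subset_univ O')).symm

theorem conjb_toFun (hD : 0 ≤ D) {O O' : Set V} (hO : IsOpen O)
    (hO' : IsOpen O') (g : ConHomeo (SM a r D '' O) (SM a r D '' O')) (y : V) :
    (conjb a r hD hO hO' g).toFun y = SMi a r D (g.toFun (SM a r D y)) := rfl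

theorem mem_image_SM (hD : 0 ≤ D) {O : Set V} {y : V} : y ∈ SM a r D '' O ↔ SMi a r D y ∈ O := by
  constructor
  · rintro ⟨x, hx, rfl⟩; rwa [SMi_SM hD]
  · intro h; exact ⟨_, h, SM_SMi hD y⟩

theorem image_SM_eq (hD : 0 ≤ D) (O : Set V) : SM a r D '' O = SMi a r D ⁻¹' O := by
  ext y; exact mem_image_SM hD

theorem isOpen_image_SM (hD : 0 ≤ D) {O : Set V} (hO : IsOpen O) : IsOpen (SM a r D '' O) := by
  rw [image_SM_eq hD]; exact hO.preimage continuous_SMi

end Vale.Agent.P073.H851.BC
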