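import Vale.Agent.P073.H880.TopN
import Vale.Agent.P073.H155.NumX
import Vale.Agent.P073.H851.TopW

/-!
# P073, **[K3-TOP]**: the chain of all stages `S1` .. `S5`

`exists_chain5`: the stages with empty slots.
-/

set_option linter.unusedSectionVars false

open Set Metric Topology Filter
open scoped ENNReal

namespace Vale.Agent.P073.Top880

open _root_.P073 _root_.P073.Net _root_.P073.PA691 _root_.P073.H236 _root_.P073.H579
open _root_.P073.H142 (FStar)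
open _root_.P073.H345 (PK tg)
open _root_.P073.H155 (NumT TBand winE winE_le winE_card winE_sum notMem_wnd sqE_card_le)
open _root_.P073.H880.RP
open Vale.Agent.P073.St (V)
open Vale.Agent.P073.H471 Vale.Agent.P073.H267
open Vale.Agent.P073.H73 (Mesh)
open Vale.Agent.P073.H193 (Edges edges)
open Vale.Agent.P073.H304 (Nb In Zmax)
open Vale.Agent.P073.H926
open Vale.Agent.P073.H238.K3
open Vale.Agent.P073.H669 (sqE mem_sqE)
open Vale.Agent.P073.H687 (Marks)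
open Vale.Agent.P073.H267.K3
open Vale.Agent.P073.H345W
open Vale.Agent.P073.H212.K3 (muT muT_pos muT_le)
open _root_.P073.H429 (ebe eal eal_lt_ebe)

variable {c₀ n δ : ℝ} {j : ℕ} {Ω Λ : Set V} {v w : V} {ρ : V → ℝ} {M : Mesh Ω} {h : ConHomeo Ω Λ}
  {J₀ J : Set (ℕ × (Fin 3 → ℤ))} {P Z : Set M.ι} {K : BoxCx Λ w}

/-- the steps of ROUND P, against the displacement -/
theorem stp_le' {D : KIn3 c₀ n j δ v w ρ M h J₀ J P Z} {C : Cells ρ w K} {C₀ μT : ℝ}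
    {X : S1 D C C₀ μT} (Y₂ : S2 X) (s : K.S) (β : Bool) :
    stp (Y₂.L.N s β) (K.slo s (tg s β) + (D.G C).a s) (K.shi s (tg s β) - (D.G C).a s) ≤
      Y₂.muP s := by
  have h1 := Y₂.Lw.δμ s
  have h2 := Y₂.Lw.δ0 s
  have h3 := Y₂.Lw.om_le_two s β
  change Y₂.Lw.om s β ≤ Y₂.muP s
  linarith

/-- the flats of ROUND P, against the displacement -/
theorem c_le' {D : KIn3 c₀ n j δ v w ρ M h J₀ J P Z} {C : Cells ρ w K} {C₀ μT : ℝ}
    {X : S1 D C C₀ μT} (Y₂ : S2 X) (s : K.S) (β : Bool) : Y₂.L.c s β ≤ Y₂.muP s := by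
  have h1 := Y₂.Lw.δμ s
  have h2 := Y₂.Lw.δ0 s
  change Y₂.dP s / 8 ≤ Y₂.muP s
  linarith

/-- the numbers of the windows at an edge -/
theorem winE_num (D : KIn3 c₀ n j δ v w ρ M h J₀ J P Z) (C : Cells ρ w K)
    (hδn : 4096 * δ ≤ n * δ3 n) {J' R : K.S → ℝ} {Q : K.S → Bool → Finset ℝ}
    (hQ : Marks (D.G C) J' R Q) (hR : ∀ s, R s = 131072 * ω3S δ C s) (e : K.G) :
    (∀ p ∈ winE R Q e, p.1 ≤ p.2) ∧
    ∑ p ∈ winE R Q e, (p.2 - p.1) ≤ muT D C e / 32 * (ebe (D.W C) e - eal (D.W C) e) ∧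
    (winE R Q e).card ≤ 16 := by
  have hR0 : ∀ s, 0 ≤ R s := fun s => by
    rw [hR]
    have := D.ω3S_pos C s
    positivity
  have hc4 := sqE_card_le e
  refine ⟨winE_le hR0, ?_, (winE_card hQ.card).trans (by omega)⟩
  have h1 := winE_sum (e := e) (Rm := muT D C e / 1024 * (ebe (D.W C) e - eal (D.W C) e)) hQ.card hR0
    fun s hs => by
      have h2 := _root_.Vale.Agent.P073.H212.K3.win_muT D C e hδn hs
      rw [hR]
      linarith
  refine h1.trans ?_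
  have h2 : ((sqE e).card : ℝ) ≤ 4 := by exact_mod_cast hc4
  have h3 := eal_lt_ebe (D.W C) e
  have h4 := muT_pos D C e
  have h5 : 0 ≤ muT D C e / 1024 * (ebe (D.W C) e - eal (D.W C) e) :=
    mul_nonneg (by positivity) (by linarith)
  calc 8 * ((sqE e).card : ℝ) * (muT D C e / 1024 * (ebe (D.W C) e - eal (D.W C) e))
      ≤ 8 * 4 * (muT D C e / 1024 * (ebe (D.W C) e - eal (D.W C) e)) := by
        refine mul_le_mul_of_nonneg_right ?_ h5
        linarith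
    _ = muT D C e / 32 * (ebe (D.W C) e - eal (D.W C) e) := by ring

/-- **[K3-TOP]** the stages `S1`, .., `S5` -/
theorem exists_chain5 {C₀ : ℝ} (hC₀ : 1 ≤ C₀) (HS : S1Ex C₀)
    (D : KIn3 c₀ n j δ v w ρ M h J₀ J P Z) (C : Cells ρ w K) {μT : ℝ} (hμ : 0 < μT)
    (hlen : ∀ b ∈ pB C J₀,
      300 * ω3T δ C b ≤ μT * ((D.G C).thi true b b.ax - (D.G C).tlo true b b.ax))
    {Zw : Set (Set V)} (HZ : ZWall (D.G C) M h (Act D C) (pB C J₀) (ω3T δ C) Zw)
    {Ys : Set M.κ} {sc : Sharp} (hm0 : 0 < sc.m) (hm1 : sc.m < 1 / 4) (hK : 0 < sc.K)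
    (hρ : sc.ρ ≤ 1 / 2) (hSF : FW31.SpecSharpFace sc.m sc.K sc.e sc.β sc.ρ)
    (hδn : 4096 * δ ≤ n * δ3 n) (S : Slots D C C₀ μT Ys sc) :
    ∃ (N : RTn M C J₀) (X : S1 D C C₀ μT) (Y₂ : S2 X) (Y₃ : S3 Y₂ Ys sc) (Y₄ : S4 Y₃)
      (Y₅ : S5 Y₄), Ok5 S N Y₅ ∧ WallOut D C (edges M) Zw X.h1 := by
  classical
  have hn := D.pos
  have hn4 := D.lt
  have hT1 : ∀ b : pG C J₀, muT D C b.1 ≤ 1 := fun b => by
    have := muT_le D C b.1
    linarith
  -- the numbers of the tubes, for any number of slivers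
  have key := fun nT : pB C J₀ → ℕ => exists_numX D C (μ := fun b : pG C J₀ => muT D C b.1)
    (fun b => muT_pos D C b.1) hT1 nT
  choose η sT m es η0 sT0 m0 es0 hmη hma hm1' hm2' hsT H using key
  set S' : Slots D C C₀ μT Ys sc := S.inf
    { Slots.one with
      m := fun N s => m N.nT s
      m0 := fun N s => m0 N.nT s
      sT := fun N b => sT N.nT b
      sT0 := fun N b => sT0 N.nT b
      tol4 := fun {X} {_} _ _ _ s => es X.nT s.1
      tol40 := fun {X} {_} _ _ _ s => es0 X.nT s.1 } with hS'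
  obtain ⟨N, X, Y₂, Y₃, Y₄, H4, hwall⟩ := exists_chain4 hC₀ HS D C hμ hlen HZ hm0 hm1 hK hρ hSF S'
  have hl := H4.mono (S.inf_left _)
  have hr := H4.mono (S.inf_right _)
  have hmu : ∀ s, Y₂.muP s ≤ m N.nT s := hr.muP
  have hnum := fun b : pG C J₀ => winE_num D C hδn Y₂.marks H4.R b.1
  obtain ⟨-, Mn, k1, k2, e₀, k3, k4⟩ := H N.nT Y₄ hr.σ (fun b => by rw [H4.nT])
    (fun s β => (stp_le' Y₂ s β).trans (hmu s)) (fun s β => (c_le' Y₂ s β).trans (hmu s))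
    (fun s β q hq => H851.D_le_om Y₃ (funext H4.J) β s hq)
    (fun s => by rw [← H4.nT]; exact hr.ε4 s) (Xw := fun b => winE Y₂.R Y₂.Q b.1)
    (fun b => (hnum b).1) (fun b => (hnum b).2.1) (fun b => (hnum b).2.2)
    (fun b β s hes hβ t ht => (F3W_disp_out Y₂.Lw β s (notMem_wnd hes hβ ht)).trans (hmu s.1))
    (δT := S.δT Y₄) (S.δT0 Y₄)
  obtain ⟨Y₅, j1, j2, j3, j4, j5⟩ := k4 (fun b => min (S.εT Y₄ Mn b) (e₀ b))
    (fun b => lt_min (S.εT0 Y₄ Mn k1 b) (k3 b)) (fun b => min_le_right _ _) (S.tol5 Y₄) (S.tol50 Y₄)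
  have hM : (fun b => (Y₅.Th b).M) = Mn := funext j2
  refine ⟨N, X, Y₂, Y₃, Y₄, Y₅, ⟨hl, j1, fun b => ?_, fun b => ?_, fun b => ?_, η N.nT, η0 N.nT,
    fun b s hs => (hmu s).trans (hmη N.nT b s hs), j5⟩, hwall⟩
  · rw [j2]
    exact k2 b
  · rw [j3, hM]
    exact min_le_left _ _
  · rw [j4]

end Vale.Agent.P073.Top880
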