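import Vale.Agent.P073.H851.Nid
import Mathlib.LinearAlgebra.Matrix.Transvection

/-!
# P073, [LOCLIN] (2): linear maps of positive determinant are realised near the origin
-/

open Set Metric Topology Filter Matrix

namespace Vale.Agent.P073.H851

open _root_.P073 _root_.P073.Net
open Vale.Agent.P073.St (V)

/-- 3×3 matrices -/
abbrev M3 := Matrix (Fin 3) (Fin 3) ℝ

theorem conicalOn_mulVec (M : M3) : ConicalOn (fun y : V => M *ᵥ y) univ :=
  conicalOn_linear (Matrix.mulVecLin M) (IsOpen.conicalSet isOpen_univ)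

/-- a bound of the operator norm -/
theorem exists_mulVec_le (M : M3) : ∃ C : ℝ, 0 < C ∧ ∀ y : V, ‖M *ᵥ y‖ ≤ C * ‖y‖ := by
  have h : ∃ C, 0 < C ∧ ∀ y, ‖(Matrix.mulVecLin M).toContinuousLinearMap y‖ ≤ C * ‖y‖ :=
    (Matrix.mulVecLin M).toContinuousLinearMap.bound
  obtain ⟨C, hC, h⟩ := h
  exact ⟨C, hC, fun y => h y⟩

/-- `M` is realised near the origin by a homeomorphism supported in the unit ball -/
def Good (M : M3) : Prop := ∃ r : ℝ, 0 < r ∧ ∃ (L : ℝ) (Ψ : ConHomeo (univ : Set V) univ),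
  LH L Ψ ∧ ∀ y : V, ‖y‖ ≤ r → Ψ.toFun y = M *ᵥ y

theorem Good.one : Good 1 :=
  ⟨1, one_pos, 1, ConHomeo.refl (IsOpen.conicalSet isOpen_univ), LH.refl, fun y _ => by
    rw [Matrix.one_mulVec]; rfl⟩

theorem Good.mul {M M' : M3} (h : Good M) (h' : Good M') : Good (M * M') := by
  obtain ⟨r, hr, L, Ψ, hΨ, h1⟩ := h
  obtain ⟨r', hr', L', Ψ', hΨ', h1'⟩ := h'
  obtain ⟨C, hC, hb⟩ := exists_mulVec_le M'
  refine ⟨min r' (r / C), lt_min hr' (by positivity), _, Ψ'.trans Ψ, hΨ'.trans hΨ,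
    fun y hy => ?_⟩
  show Ψ.toFun (Ψ'.toFun y) = _
  rw [h1' y (hy.trans (min_le_left _ _)), h1, Matrix.mulVec_mulVec]
  refine (hb y).trans ?_
  have := hy.trans (min_le_right _ _)
  rwa [le_div_iff₀ hC, mul_comm] at this

theorem Good.pow {M : M3} (h : Good M) (n : ℕ) : Good (M ^ n) := by
  induction n with
  | zero => rw [pow_zero]; exact Good.one
  | succ n ih => rw [pow_succ]; exact ih.mul h

theorem Good.list_prod {l : List M3} (h : ∀ M ∈ l, Good M) : Good l.prod := by
  induction l with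
  | nil => rw [List.prod_nil]; exact Good.one
  | cons a l ih =>
    rw [List.prod_cons]
    exact (h a (by simp)).mul (ih fun M hM => h M (by simp [hM]))

theorem good_of_near {M : M3} (h : ∀ y : V, ‖(M - 1) *ᵥ y‖ ≤ 1 / 2 * ‖y‖) : Good M := by
  obtain ⟨Ψ, hΨ, h1⟩ := exists_nid (F := fun y => (M - 1) *ᵥ y)
    (fun x y => by rw [← Matrix.mulVec_sub]; exact h _) (conicalOn_mulVec _)
  refine ⟨1 / 2, by norm_num, 2, Ψ, hΨ, fun y hy => ?_⟩
  rw [h1 y ((h y).trans (by linarith)), Matrix.sub_mulVec, Matrix.one_mulVec]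
  abel

/-- entrywise criterion for diagonal matrices -/
theorem good_diagonal_near {d : Fin 3 → ℝ} (h : ∀ i, |d i - 1| ≤ 1 / 2) :
    Good (diagonal d) := by
  refine good_of_near fun y => ?_
  rw [pi_norm_le_iff_of_nonneg (by positivity)]
  intro i
  rw [Matrix.sub_mulVec, Matrix.one_mulVec, Pi.sub_apply, Matrix.mulVec_diagonal]
  have h1 : d i * y i - y i = (d i - 1) * y i := by ring
  rw [h1, norm_mul]
  have h2 := norm_le_pi_norm y i
  have h3 := h i
  rw [← Real.norm_eq_abs] at h3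
  exact mul_le_mul h3 h2 (norm_nonneg _) (by norm_num)

theorem good_diagonal_exp (t : Fin 3 → ℝ) : Good (diagonal fun i => Real.exp (t i)) := by
  have h1 : ∀ i, ∀ᶠ n : ℕ in atTop, |Real.exp (t i / n) - 1| ≤ 1 / 2 := by
    intro i
    have h2 : Tendsto (fun n : ℕ => Real.exp (t i / n) - 1) atTop (𝓝 0) := by
      have h3 : Tendsto (fun n : ℕ => t i / n) atTop (𝓝 0) :=
        tendsto_const_div_atTop_nhds_zero_nat (t i)
      have h4 := (Real.continuous_exp.tendsto 0).comp h3
      rw [Real.exp_zero] at h4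
      have h5 := h4.sub_const 1
      rw [sub_self] at h5
      exact h5
    have h6 := h2.abs
    rw [abs_zero] at h6
    exact (h6.eventually (gt_mem_nhds (show (0:ℝ) < 1 / 2 by norm_num))).mono fun n hn => hn.le
  have h2 : ∀ᶠ n : ℕ in atTop, ∀ i, |Real.exp (t i / n) - 1| ≤ 1 / 2 := by
    rw [eventually_all]; exact h1
  obtain ⟨n, hn, hn0⟩ := (h2.and (eventually_gt_atTop 0)).exists
  have h3 : diagonal (fun i => Real.exp (t i)) =
      (diagonal fun i => Real.exp (t i / n) : M3) ^ n := by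
    rw [Matrix.diagonal_pow]
    congr 1
    funext i
    rw [Pi.pow_apply, ← Real.exp_nat_mul]
    congr 1
    field_simp
  rw [h3]
  exact (good_diagonal_near hn).pow n

theorem good_diagonal_pos {d : Fin 3 → ℝ} (h : ∀ i, 0 < d i) : Good (diagonal d) := by
  have : d = fun i => Real.exp (Real.log (d i)) := by
    funext i; rw [Real.exp_log (h i)]
  rw [this]
  exact good_diagonal_exp _

theorem transvection_pow {i j : Fin 3} (h : i ≠ j) (c : ℝ) (n : ℕ) :
    (transvection i j c : M3) ^ n = transvection i j (n * c) := by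
  induction n with
  | zero => simp [transvection_zero]
  | succ n ih =>
    rw [pow_succ, ih, transvection_mul_transvection_same i j h]
    congr 1
    push_cast
    ring

theorem good_transvection {i j : Fin 3} (h : i ≠ j) (c : ℝ) : Good (transvection i j c) := by
  obtain ⟨n, hn⟩ := exists_nat_gt (2 * |c|)
  have hn0 : (0:ℝ) < n := lt_of_le_of_lt (by positivity) hn
  have h1 : (transvection i j c : M3) = transvection i j (c / n) ^ n := by
    rw [transvection_pow h]
    congr 1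
    field_simp
  rw [h1]
  refine Good.pow (good_of_near fun y => ?_) n
  rw [transvection, add_sub_cancel_left, pi_norm_le_iff_of_nonneg (by positivity)]
  intro k
  rw [Matrix.single_mulVec, Real.norm_eq_abs]
  rcases eq_or_ne k i with hk | hk
  · subst hk
    rw [Function.update_self, abs_mul]
    have h2 := norm_le_pi_norm y j
    rw [Real.norm_eq_abs] at h2
    have h3 : |c / n| ≤ 1 / 2 := by
      rw [abs_div, abs_of_pos hn0, div_le_iff₀ hn0]; linarith
    exact mul_le_mul h3 h2 (abs_nonneg _) (by norm_num)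
  · rw [Function.update_of_ne hk, Pi.zero_apply, abs_zero]
    positivity

/-- rotation by `π` in a coordinate plane -/
theorem good_neg_neg {i j : Fin 3} (h : i ≠ j) :
    Good (diagonal fun k => if k = i ∨ k = j then -1 else 1) := by
  have h1 : (diagonal fun k => if k = i ∨ k = j then (-1:ℝ) else 1) =
      (transvection i j 1 * transvection j i (-1) * transvection i j 1 : M3) ^ 2 := by
    ext a b
    fin_cases i <;> fin_cases j <;> first
      | exact absurd rfl h
      | (fin_cases a <;> fin_cases b <;>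
          simp [transvection, pow_two, Matrix.mul_apply, Fin.sum_univ_three, Matrix.single_apply,
            Matrix.diagonal_apply, Matrix.one_apply, Matrix.add_apply])
  rw [h1]
  exact (((good_transvection h 1).mul (good_transvection h.symm (-1))).mul
    (good_transvection h 1)).pow 2

theorem good_diagonal {d : Fin 3 → ℝ} (h : 0 < d 0 * d 1 * d 2) : Good (diagonal d) := by
  have h0 : d 0 ≠ 0 := by rintro h0; rw [h0] at h; simp at h
  have h1 : d 1 ≠ 0 := by rintro h1; rw [h1] at h; simp at h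
  have h2 : d 2 ≠ 0 := by rintro h2; rw [h2] at h; simp at h
  have hpos : ∀ i, 0 < |d i| := by
    intro i
    fin_cases i
    exacts [abs_pos.2 h0, abs_pos.2 h1, abs_pos.2 h2]
  have hg := good_diagonal_pos hpos
  rcases lt_or_gt_of_ne h0 with a0 | a0 <;> rcases lt_or_gt_of_ne h1 with a1 | a1 <;>
    rcases lt_or_gt_of_ne h2 with a2 | a2
  · exfalso
    have := mul_pos_of_neg_of_neg a0 a1
    have := mul_neg_of_pos_of_neg this a2
    linarith
  · have e : diagonal d = (diagonal fun k => if k = (0 : Fin 3) ∨ k = 1 then (-1:ℝ) else 1) *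
        diagonal (fun i => |d i|) := by
      rw [Matrix.diagonal_mul_diagonal]
      congr 1
      funext k
      fin_cases k <;> simp [abs_of_neg, abs_of_pos, a0, a1, a2]
    rw [e]; exact (good_neg_neg (by decide)).mul hg
  · have e : diagonal d = (diagonal fun k => if k = (0 : Fin 3) ∨ k = 2 then (-1:ℝ) else 1) *
        diagonal (fun i => |d i|) := by
      rw [Matrix.diagonal_mul_diagonal]
      congr 1
      funext k
      fin_cases k <;> simp [abs_of_neg, abs_of_pos, a0, a1, a2]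
    rw [e]; exact (good_neg_neg (by decide)).mul hg
  · exfalso
    have := mul_neg_of_neg_of_pos a0 a1
    have := mul_neg_of_neg_of_pos this a2
    linarith
  · have e : diagonal d = (diagonal fun k => if k = (1 : Fin 3) ∨ k = 2 then (-1:ℝ) else 1) *
        diagonal (fun i => |d i|) := by
      rw [Matrix.diagonal_mul_diagonal]
      congr 1
      funext k
      fin_cases k <;> simp [abs_of_neg, abs_of_pos, a0, a1, a2]
    rw [e]; exact (good_neg_neg (by decide)).mul hg
  · exfalso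
    have := mul_neg_of_pos_of_neg a0 a1
    have := mul_neg_of_neg_of_pos this a2
    linarith
  · exfalso
    have := mul_pos a0 a1
    have := mul_neg_of_pos_of_neg this a2
    linarith
  · have e : d = (fun i => |d i|) := by
      funext k
      fin_cases k <;> simp [abs_of_pos, a0, a1, a2]
    rw [e]; exact hg

/-- **matrices of positive determinant** -/
theorem good_of_det_pos {M : M3} (h : 0 < M.det) : Good M := by
  obtain ⟨L, L', D, hM⟩ := Pivot.exists_list_transvec_mul_diagonal_mul_list_transvec M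
  have hd : ∀ l : List (TransvectionStruct (Fin 3) ℝ),
      Good (l.map TransvectionStruct.toMatrix).prod := by
    intro l
    refine Good.list_prod fun T hT => ?_
    obtain ⟨t, _, rfl⟩ := List.mem_map.1 hT
    exact good_transvection t.hij t.c
  rw [hM]
  refine ((hd L).mul (good_diagonal ?_)).mul (hd L')
  have h1 : M.det = D 0 * D 1 * D 2 := by
    rw [hM, Matrix.det_mul, Matrix.det_mul, TransvectionStruct.det_toMatrix_prod,
      TransvectionStruct.det_toMatrix_prod, Matrix.det_diagonal, Fin.prod_univ_three]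
    ring
  rwa [← h1]

/-- the reflection -/
noncomputable def SS (e : ℝ) : M3 := diagonal ![e, 1, 1]

theorem SS_mulVec_norm {e : ℝ} (he : |e| = 1) (y : V) : ‖SS e *ᵥ y‖ = ‖y‖ := by
  have key : ∀ i, ‖(SS e *ᵥ y) i‖ = ‖y i‖ := by
    intro i
    rw [SS, Matrix.mulVec_diagonal, norm_mul]
    fin_cases i <;> simp [he]
  apply le_antisymm
  · rw [pi_norm_le_iff_of_nonneg (norm_nonneg _)]
    intro i; rw [key]; exact norm_le_pi_norm y i
  · rw [pi_norm_le_iff_of_nonneg (norm_nonneg _)]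
    intro i; rw [← key]; exact norm_le_pi_norm (SS e *ᵥ y) i

theorem SS_mul_self {e : ℝ} (he : |e| = 1) : SS e * SS e = 1 := by
  have h2 : e * e = 1 := by rw [← abs_mul_abs_self, he, one_mul]
  rw [SS, Matrix.diagonal_mul_diagonal, ← Matrix.diagonal_one]
  congr 1
  funext i
  fin_cases i <;> simp [h2]

theorem det_SS (e : ℝ) : (SS e).det = e := by
  rw [SS, Matrix.det_diagonal, Fin.prod_univ_three]
  simp

/-- every invertible matrix is realised, up to the reflection -/
theorem exists_good (M : M3) (h : M.det ≠ 0) : ∃ e : ℝ, (e = 1 ∨ e = -1) ∧ Good (M * SS e) := by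
  rcases lt_or_gt_of_ne h with h1 | h1
  · refine ⟨-1, Or.inr rfl, good_of_det_pos ?_⟩
    rw [Matrix.det_mul, det_SS]; linarith
  · refine ⟨1, Or.inl rfl, good_of_det_pos ?_⟩
    rw [Matrix.det_mul, det_SS]; linarith

/-! ### Contractions -/

theorem exists_contraction {r1 : ℝ} (h1 : 0 < r1) : ∃ L : ℝ, ∀ r, r1 ≤ r → r ≤ 1 →
    ∃ Ψ : ConHomeo (univ : Set V) univ, LH L Ψ ∧ ∀ y : V, ‖y‖ ≤ 7 / 8 → Ψ.toFun y = r • y := by
  have hN : ∃ n : ℕ, 0 < n ∧ (13:ℝ) / 14 ≤ r1 ^ ((1:ℝ) / n) := by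
    have h2 : Tendsto (fun n : ℕ => r1 ^ ((1:ℝ) / n)) atTop (𝓝 1) := by
      have h3 : Tendsto (fun n : ℕ => (1:ℝ) / n) atTop (𝓝 0) :=
        tendsto_const_div_atTop_nhds_zero_nat 1
      have h4 := (Real.continuous_const_rpow h1.ne').tendsto 0
      rw [Real.rpow_zero] at h4
      exact h4.comp h3
    obtain ⟨n, hn, hn0⟩ := ((h2.eventually (lt_mem_nhds (show (13:ℝ) / 14 < 1 by norm_num))).and
      (eventually_gt_atTop 0)).exists
    exact ⟨n, hn0, hn.le⟩
  obtain ⟨n, hn0, hn⟩ := hN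
  refine ⟨2 ^ n, fun r hr hr1 => ?_⟩
  have hr0 : 0 < r := h1.trans_le hr
  have hc0 : 0 < r ^ ((1:ℝ) / n) := Real.rpow_pos_of_pos hr0 _
  have hc1 : r ^ ((1:ℝ) / n) ≤ 1 := Real.rpow_le_one hr0.le hr1 (by positivity)
  have hc2 : 13 / 14 ≤ r ^ ((1:ℝ) / n) :=
    hn.trans (Real.rpow_le_rpow h1.le hr (by positivity))
  obtain ⟨c, hcn⟩ : ∃ c, c = r ^ ((1:ℝ) / n) := ⟨_, rfl⟩
  have hcp : c ^ n = r := by
    rw [hcn, ← Real.rpow_natCast, ← Real.rpow_mul hr0.le, one_div,
      inv_mul_cancel₀ (by positivity), Real.rpow_one]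
  rw [← hcn] at hc0 hc1 hc2
  obtain ⟨Ψ, hΨ, h2⟩ := exists_nid (F := fun y => (c - 1) • y) (fun x y => by
    rw [← smul_sub, norm_smul, Real.norm_eq_abs, abs_of_nonpos (by linarith)]
    exact mul_le_mul_of_nonneg_right (by linarith) (norm_nonneg _))
    ((conicalOn_id (IsOpen.conicalSet isOpen_univ)).const_smul (c - 1))
  refine ⟨itH Ψ n, hΨ.it n, ?_⟩
  rw [← hcp]
  have h3 : ∀ y : V, ‖y‖ ≤ 7 / 8 → Ψ.toFun y = c • y := by
    intro y hy
    rw [h2 y, sub_smul, one_smul]
    · abel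
    · rw [norm_smul, Real.norm_eq_abs, abs_of_nonpos (by linarith)]
      nlinarith [norm_nonneg y]
  clear hcn hcp hn
  induction n with
  | zero => intro y hy; rw [pow_zero, one_smul]; rfl
  | succ m ih =>
    intro y hy
    show Ψ.toFun ((itH Ψ m).toFun y) = _
    have h4 : (itH Ψ m).toFun y = c ^ m • y := by
      rcases Nat.eq_zero_or_pos m with h | h
      · subst h; rw [pow_zero, one_smul]; rfl
      · exact ih h y hy
    rw [h4, h3, smul_smul, pow_succ']
    rw [norm_smul, Real.norm_of_nonneg (by positivity)]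
    have h5 : c ^ m ≤ 1 := pow_le_one₀ hc0.le hc1
    nlinarith [norm_nonneg y]

/-- **[LOCLIN]** -/
theorem loclin (M : M3) (hM : M.det ≠ 0) : ∃ e : ℝ, (e = 1 ∨ e = -1) ∧ ∃ r0 : ℝ, 0 < r0 ∧
    r0 ≤ 1 ∧ (∀ y : V, r0 * ‖M *ᵥ y‖ ≤ 1 / 4 * ‖y‖) ∧
    ∀ r1, 0 < r1 → ∃ L : ℝ, ∀ r, r1 ≤ r → r ≤ r0 → ∀ q : V, ‖q‖ ≤ 1 / 4 →
    ∃ δ : ConHomeo (univ : Set V) univ, LH L δ ∧
      ∀ y : V, ‖y‖ ≤ 7 / 8 → δ.toFun y = r • ((M * SS e) *ᵥ y) + q := by
  obtain ⟨e, he, r, hr, L, Ψ, hΨ, h1⟩ := exists_good M hM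
  obtain ⟨C, hC, hb⟩ := exists_mulVec_le (M * SS e)
  refine ⟨e, he, min (min r 1) (1 / (4 * C)), by positivity,
    (min_le_left _ _).trans (min_le_right _ _), fun y => ?_, fun r1 hr1 => ?_⟩
  · have he1 : |e| = 1 := by rcases he with h | h <;> simp [h]
    have h3 := hb (SS e *ᵥ y)
    rw [Matrix.mulVec_mulVec, Matrix.mul_assoc, SS_mul_self he1, Matrix.mul_one,
      SS_mulVec_norm he1] at h3
    calc min (min r 1) (1 / (4 * C)) * ‖M *ᵥ y‖ ≤ 1 / (4 * C) * (C * ‖y‖) := by
          gcongr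
          exact min_le_right _ _
      _ = 1 / 4 * ‖y‖ := by field_simp
  obtain ⟨L1, hL1⟩ := exists_contraction hr1
  refine ⟨2 * (L * L1), fun s hs1 hs0 q hq => ?_⟩
  have hsr : s ≤ r := hs0.trans ((min_le_left _ _).trans (min_le_left _ _))
  have hs1' : s ≤ 1 := hs0.trans ((min_le_left _ _).trans (min_le_right _ _))
  have hsC : s * (4 * C) ≤ 1 := by
    have := hs0.trans (min_le_right _ _)
    rwa [le_div_iff₀ (by positivity)] at this
  have hsp : 0 < s := hr1.trans_le hs1
  obtain ⟨Ψ1, hΨ1, h2⟩ := hL1 s hs1 hs1'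
  obtain ⟨Ψ2, hΨ2, h3⟩ := exists_nid (F := fun _ => q) (fun x y => by
    rw [sub_self, norm_zero]; positivity) (conicalOn_const q (IsOpen.conicalSet isOpen_univ))
  refine ⟨(Ψ1.trans Ψ).trans Ψ2, (hΨ1.trans hΨ).trans hΨ2, fun y hy => ?_⟩
  show Ψ2.toFun (Ψ.toFun (Ψ1.toFun y)) = _
  have hsy : ‖s • y‖ ≤ s * (7 / 8) := by
    rw [norm_smul, Real.norm_of_nonneg hsp.le]; gcongr
  rw [h2 y hy, h1 _ (hsy.trans (by linarith)), h3, Matrix.mulVec_smul]
  have h4 := hb (s • y)
  have h5 : C * ‖s • y‖ ≤ C * (s * (7 / 8)) := by gcongr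
  nlinarith

end Vale.Agent.P073.H851
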