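import Vale.Agent.P073.GB1.Pert
import Vale.Agent.P073.Net.Maps
import Vale.Agent.P073.H471.FF

/-!
# P073, [LOCLIN] (1): localised conical homeomorphisms near the identity
-/

open Set Metric Topology Filter

namespace Vale.Agent.P073.H851

open _root_.P073 _root_.P073.Net
open Vale.Agent.P073.St (V)

/-! ### The clamp -/

/-- clamp of `a` to `[-m, m]` -/
noncomputable def cl (a m : ℝ) : ℝ := max (-m) (min a m)

theorem cl_of_abs_le {a m : ℝ} (h : |a| ≤ m) : cl a m = a := by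
  rw [cl, min_eq_left (le_of_abs_le h), max_eq_right (neg_le_of_abs_le h)]

theorem abs_cl_le {a m : ℝ} (hm : 0 ≤ m) : |cl a m| ≤ m := by
  rw [abs_le]
  exact ⟨le_max_left _ _, max_le (by linarith) (min_le_right _ _)⟩

theorem abs_cl_le' (a : ℝ) {m : ℝ} (hm : 0 ≤ m) : |cl a m| ≤ |a| := by
  rw [abs_le]
  constructor
  · rcases le_total a 0 with h | h
    · rw [abs_of_nonpos h, neg_neg]
      exact le_trans (le_min le_rfl (by linarith)) (le_max_right _ _)
    · rw [abs_of_nonneg h]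
      exact le_trans (le_min (by linarith) (by linarith)) (le_max_right _ _)
  · exact max_le (by linarith [abs_nonneg a]) ((min_le_left _ _).trans (le_abs_self a))

theorem cl_zero (a : ℝ) : cl a 0 = 0 := by
  have := abs_cl_le (a := a) (m := 0) le_rfl
  exact abs_eq_zero.1 (le_antisymm this (abs_nonneg _))

theorem abs_cl_sub_le (a b m n : ℝ) : |cl a m - cl b n| ≤ max |a - b| |m - n| := by
  have h1 := abs_max_sub_max_le_max (-m) (min a m) (-n) (min b n)
  have h2 := abs_min_sub_min_le_max a m b n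
  have h3 : |(-m) - (-n)| = |m - n| := by rw [neg_sub_neg, abs_sub_comm]
  rw [h3] at h1
  exact h1.trans (max_le (le_max_right _ _) h2)

/-- the cut-off radius -/
noncomputable def mm (c : V) (ρ : ℝ) (y : V) : ℝ := max 0 ((ρ - ‖y - c‖) / 2)

theorem mm_nonneg (c : V) (ρ : ℝ) (y : V) : 0 ≤ mm c ρ y := le_max_left _ _

theorem mm_of_ge {c y : V} {ρ : ℝ} (h : ρ ≤ ‖y - c‖) : mm c ρ y = 0 :=
  max_eq_left (by linarith)

theorem mm_of_le {c y : V} {ρ : ℝ} (h : ‖y - c‖ ≤ ρ) : mm c ρ y = (ρ - ‖y - c‖) / 2 :=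
  max_eq_right (by linarith)

theorem abs_mm_sub_le (c : V) (ρ : ℝ) (x y : V) : |mm c ρ x - mm c ρ y| ≤ 1 / 2 * ‖x - y‖ := by
  have h1 := abs_max_sub_max_le_max (0:ℝ) ((ρ - ‖x - c‖) / 2) 0 ((ρ - ‖y - c‖) / 2)
  rw [sub_self, abs_zero] at h1
  have h2 : |(ρ - ‖x - c‖) / 2 - (ρ - ‖y - c‖) / 2| ≤ 1 / 2 * ‖x - y‖ := by
    have h3 := abs_norm_sub_norm_le (y - c) (x - c)
    have h4 : (ρ - ‖x - c‖) / 2 - (ρ - ‖y - c‖) / 2 = (‖y - c‖ - ‖x - c‖) / 2 := by ring
    rw [h4, abs_div, abs_of_pos (by norm_num : (0:ℝ) < 2)]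
    have h5 : y - c - (x - c) = -(x - y) := by abel
    rw [h5, norm_neg] at h3
    linarith
  exact h1.trans (max_le (by positivity) h2)

theorem continuous_mm (c : V) (ρ : ℝ) : Continuous (mm c ρ) := by
  unfold mm; fun_prop

theorem conicalOn_mm (c : V) (ρ : ℝ) : ConicalOn (mm c ρ) univ := by
  have hu : ConicalSet (univ : Set V) := IsOpen.conicalSet isOpen_univ
  have h1 : ConicalOn (fun y : V => ‖y - c‖) univ := by
    intro y _
    obtain ⟨r, hr, h⟩ := conicalOn_norm (y - c) (mem_univ _)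
    refine ⟨r, hr, fun v hv _ t ht => ⟨mem_univ _, ?_⟩⟩
    have h2 := (h v hv (mem_univ _) t ht).2
    simp only at h2 ⊢
    rw [add_sub_right_comm, h2, add_sub_right_comm]
  have h2 : ConicalOn (fun y : V => (1 / 2 : ℝ) * (ρ - ‖y - c‖)) univ :=
    ((conicalOn_const ρ hu).sub h1).const_smul (1 / 2 : ℝ)
  have h3 := (conicalOn_const (0:ℝ) hu).rmax h2 (by fun_prop) (by fun_prop)
  refine h3.congr fun y _ => ?_
  show mm c ρ y = max 0 (1 / 2 * (ρ - ‖y - c‖))
  rw [mm]; congr 1; ring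

/-! ### Localised perturbations -/

/-- the perturbation `F` cut off at the boundary of the ball -/
noncomputable def cutF (c : V) (ρ : ℝ) (F : V → V) (y : V) : V := fun i => cl (F y i) (mm c ρ y)

theorem cutF_of_ge {c y : V} {ρ : ℝ} (F : V → V) (h : ρ ≤ ‖y - c‖) : cutF c ρ F y = 0 := by
  funext i
  rw [cutF, mm_of_ge h, cl_zero, Pi.zero_apply]

theorem cutF_of_le {c y : V} {ρ : ℝ} {F : V → V} (h : ‖F y‖ ≤ (ρ - ‖y - c‖) / 2) :
    cutF c ρ F y = F y := by
  funext i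
  have h1 : ‖y - c‖ ≤ ρ := by linarith [norm_nonneg (F y)]
  rw [cutF, mm_of_le h1, cl_of_abs_le]
  have := norm_le_pi_norm (F y) i
  rw [Real.norm_eq_abs] at this
  exact this.trans h

theorem cutF_sub_le {F : V → V} (hF : ∀ x y, ‖F x - F y‖ ≤ 1 / 2 * ‖x - y‖) (c : V) (ρ : ℝ)
    (x y : V) : ‖cutF c ρ F x - cutF c ρ F y‖ ≤ 1 / 2 * ‖x - y‖ := by
  rw [pi_norm_le_iff_of_nonneg (by positivity)]
  intro i
  rw [Pi.sub_apply, Real.norm_eq_abs]
  refine (abs_cl_sub_le _ _ _ _).trans (max_le ?_ (abs_mm_sub_le c ρ x y))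
  have := norm_le_pi_norm (F x - F y) i
  rw [Pi.sub_apply, Real.norm_eq_abs] at this
  exact this.trans (hF x y)

theorem conicalOn_cutF {F : V → V} (hF : ∀ x y, ‖F x - F y‖ ≤ 1 / 2 * ‖x - y‖)
    (hc : ConicalOn F univ) (c : V) (ρ : ℝ) : ConicalOn (cutF c ρ F) univ := by
  have hu : ConicalSet (univ : Set V) := IsOpen.conicalSet isOpen_univ
  have hFc : Continuous F := by
    have : LipschitzWith ⟨1 / 2, by norm_num⟩ F := LipschitzWith.of_dist_le_mul fun x y => by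
      rw [dist_eq_norm, dist_eq_norm]; exact hF x y
    exact this.continuous
  intro x hx
  refine conicalWithinAt_pi (hu x hx) fun i => ?_
  have h1 : ConicalOn (fun y => F y i) univ := hc.linear_comp (LinearMap.proj i : V →ₗ[ℝ] ℝ)
  have h2 := conicalOn_mm c ρ
  have h3 := continuous_mm c ρ
  have h4 : Continuous fun y => F y i := by fun_prop
  exact (h2.neg.rmax (h1.rmin h2 h4.continuousOn h3.continuousOn) h3.neg.continuousOn
    (h4.min h3).continuousOn) x hx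

/-! ### The package: a bi-Lipschitz conical homeomorphism supported in the unit ball -/

/-- `Ψ` is the identity off the unit ball and is `L`-bi-Lipschitz -/
structure LH (L : ℝ) (Ψ : ConHomeo (univ : Set V) (univ : Set V)) : Prop where
  one_le : 1 ≤ L
  off : ∀ y, 1 ≤ ‖y‖ → Ψ.toFun y = y
  lip : ∀ x y, ‖Ψ.toFun x - Ψ.toFun y‖ ≤ L * ‖x - y‖
  lip' : ∀ x y, ‖x - y‖ ≤ L * ‖Ψ.toFun x - Ψ.toFun y‖

theorem LH.mono {L L' : ℝ} {Ψ : ConHomeo (univ : Set V) (univ : Set V)} (h : LH L Ψ)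
    (hL : L ≤ L') : LH L' Ψ :=
  ⟨h.one_le.trans hL, h.off, fun x y => (h.lip x y).trans (by gcongr),
    fun x y => (h.lip' x y).trans (by gcongr)⟩

theorem LH.refl : LH 1 (ConHomeo.refl (IsOpen.conicalSet isOpen_univ)) :=
  ⟨le_rfl, fun _ _ => rfl, fun x y => by rw [one_mul]; exact le_rfl,
    fun x y => by rw [one_mul]; exact le_rfl⟩

theorem LH.symm {L : ℝ} {Ψ : ConHomeo (univ : Set V) (univ : Set V)} (h : LH L Ψ) :
    LH L Ψ.symm := by
  refine ⟨h.one_le, fun y hy => ?_, fun x y => ?_, fun x y => ?_⟩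
  · show Ψ.invFun y = y
    have := Ψ.left_inv (mem_univ y)
    rwa [h.off y hy] at this
  · have := h.lip' (Ψ.invFun x) (Ψ.invFun y)
    rwa [Ψ.right_inv (mem_univ x), Ψ.right_inv (mem_univ y)] at this
  · have := h.lip (Ψ.invFun x) (Ψ.invFun y)
    rwa [Ψ.right_inv (mem_univ x), Ψ.right_inv (mem_univ y)] at this

theorem LH.trans {L L' : ℝ} {Ψ Ψ' : ConHomeo (univ : Set V) (univ : Set V)} (h : LH L Ψ)
    (h' : LH L' Ψ') : LH (L' * L) (Ψ.trans Ψ') := by
  have h1 := h.one_le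
  have h2 := h'.one_le
  refine ⟨by nlinarith, fun y hy => ?_, fun x y => ?_, fun x y => ?_⟩
  · show Ψ'.toFun (Ψ.toFun y) = y
    rw [h.off y hy, h'.off y hy]
  · refine (h'.lip _ _).trans ?_
    rw [mul_assoc]
    exact mul_le_mul_of_nonneg_left (h.lip x y) (by linarith)
  · refine (h.lip' x y).trans ?_
    rw [mul_comm L' L, mul_assoc]
    exact mul_le_mul_of_nonneg_left (h'.lip' _ _) (by linarith)

/-- iteration -/
noncomputable def itH (Ψ : ConHomeo (univ : Set V) (univ : Set V)) :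
    ℕ → ConHomeo (univ : Set V) (univ : Set V)
  | 0 => ConHomeo.refl (IsOpen.conicalSet isOpen_univ)
  | n + 1 => (itH Ψ n).trans Ψ

theorem LH.it {L : ℝ} {Ψ : ConHomeo (univ : Set V) (univ : Set V)} (h : LH L Ψ) (n : ℕ) :
    LH (L ^ n) (itH Ψ n) := by
  induction n with
  | zero => rw [pow_zero]; exact LH.refl
  | succ n ih => rw [pow_succ']; exact ih.trans h

/-- **localised perturbations of the identity** -/
theorem exists_nid {F : V → V} (hF : ∀ x y, ‖F x - F y‖ ≤ 1 / 2 * ‖x - y‖)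
    (hc : ConicalOn F univ) : ∃ Ψ : ConHomeo (univ : Set V) (univ : Set V), LH 2 Ψ ∧
      ∀ y, ‖F y‖ ≤ (1 - ‖y‖) / 2 → Ψ.toFun y = y + F y := by
  obtain ⟨Ψ, hΨ⟩ := GB1.exists_pert (u := cutF 0 1 F) (c := 1 / 2) (by norm_num) (by norm_num)
    (cutF_sub_le hF 0 1) (conicalOn_cutF hF hc 0 1)
  have key : ∀ x y, ‖cutF 0 1 F x - cutF 0 1 F y‖ ≤ 1 / 2 * ‖x - y‖ := cutF_sub_le hF 0 1
  refine ⟨Ψ, ⟨by norm_num, fun y hy => ?_, fun x y => ?_, fun x y => ?_⟩, fun y hy => ?_⟩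
  · rw [hΨ, cutF_of_ge F (by rwa [sub_zero]), add_zero]
  · have h1 : Ψ.toFun x - Ψ.toFun y = (x - y) + (cutF 0 1 F x - cutF 0 1 F y) := by
      rw [hΨ, hΨ]; abel
    rw [h1]
    have := norm_add_le (x - y) (cutF 0 1 F x - cutF 0 1 F y)
    linarith [key x y, norm_nonneg (x - y)]
  · have h1 : x - y = (Ψ.toFun x - Ψ.toFun y) - (cutF 0 1 F x - cutF 0 1 F y) := by
      rw [hΨ, hΨ]; abel
    have h2 : ‖x - y‖ ≤ ‖Ψ.toFun x - Ψ.toFun y‖ + ‖cutF 0 1 F x - cutF 0 1 F y‖ := by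
      conv_lhs => rw [h1]
      exact norm_sub_le _ _
    linarith [key x y]
  · rw [hΨ, cutF_of_le (by rwa [sub_zero])]

end Vale.Agent.P073.H851
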