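import Vale.Agent.P073.H851.TtIn
import Vale.Agent.P073.H304.K3C
import Vale.Agent.P073.H687.Til

/-!
# P073, [R2-COST], geometry: the cells of Round 2

`g₂` is the output of the theorem with 3-cells for `h = Tt ∘ h₁`.

* `Pre2.far_eq`: far from the skeleton `Tt ∘ h₁ = T ∘ h₁`;
* `Pre2.locLip0`, `Pre2.locLip`: local Lipschitz constants of `Tt`;
* `Pre2.cell_box`: a passive cell and its neighbours are in one kept box;
-/

open Set Metric Topology Filter Matrix MeasureTheory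
open scoped ENNReal

namespace Vale.Agent.P073.H851

open _root_.P073
open _root_.P073.Net (dyc dyo IsTile SizeFn)
open Vale.Agent.P073.St (V)
open Vale.Agent.P073.H471 (Cubes TI zt st cB_eq B_eq cubes_tiles st_pos)
open Vale.Agent.P073.H304 (Nb In)
open Vale.Agent.P073.H73 (Mesh sqr onSeg)

variable {Λ : Set V} {ρ s : V → ℝ} {w : V}

/-- everything about Round 2 before the core theorem -/
structure Pre2 {ρ : V → ℝ} {w : V} {K : Type*} (N : ℕ) (κ₀ : ℝ) (Ω Λ V₀ X : Set V) (T : V → V)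
    (s : V → ℝ) (η : ℝ) (c : TI ρ w → V) (Mi : TI ρ w → M3) (bi : TI ρ w → V)
    (g : ConHomeo Λ Λ) (A : K → M3) (b : K → V) (D : K → Set V) (a r0 L : K → ℝ) (v : V) (Cg : ℝ)
    (κ : TI ρ w → K) (e : TI ρ w → ℝ) (n : TI ρ w → ℕ) (wd : TI ρ w → Fin 3 → ℤ)
    (Ξ : TI ρ w → V → V) (Tt : ConHomeo Λ Λ) (h1 : ConHomeo Ω Λ) : Prop extends
    Pre N Ω Λ V₀ X s η c Mi bi g.toFun A b D r0 L v Cg κ e n wd Ξ Tt.toFun h1.toFun where
  ΩO : IsOpen Ω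
  ΛO : IsOpen Λ
  κN : 2 * kp N ≤ κ₀
  κ1 : κ₀ ≤ 1 / 2
  core : ∀ y ∈ Λ, y ∈ V₀ → ∀ i, κ₀ * st ρ w i < ‖g.toFun y - c i‖
  hole : ∀ i, ∀ x ∈ X, 2 * κ₀ * st ρ w i < ‖x - c i‖
  cz : ∀ i, ‖c i - zt ρ w i‖ ≤ st ρ w i / 2
  near : ∀ y ∈ Λ, ‖g.toFun y - T y‖ ≤ s (T y) / 16
  near' : ∀ y ∈ Λ, ∀ i, g.toFun y ∈ closedBall (zt ρ w i) (st ρ w i) →
    ‖g.toFun y - T y‖ ≤ κ₀ / 4 * st ρ w i
  far : ∀ y ∈ Λ, (∀ x ∈ X, s (T y) / 16 < ‖T y - x‖) → g.toFun y = T y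
  V0X : ∀ y ∈ Λ, y ∈ V₀ → T y ∈ X
  kept : Kept Λ V₀ A b D
  int : ∀ x ∈ Ω, h1.toFun x ∉ V₀ → ∃ k, x ∈ interior (D k)
  apos : ∀ k, 0 < a k
  bd : ∀ k y, ‖A k *ᵥ y‖ ≤ a k * ‖y‖
  rpos : ∀ k, 0 < r0 k
  L1 : ∀ k, 1 ≤ L k
  Cg1 : 1 ≤ Cg

variable {K : Type*} {Ω V₀ X : Set V} {N : ℕ} {η δ c₀ κ₀ : ℝ} {T : V → V}
  {c : TI ρ w → V} {Mi : TI ρ w → M3} {bi : TI ρ w → V} {g : ConHomeo Λ Λ}
  {A : K → M3} {b : K → V} {D : K → Set V} {a r0 L : K → ℝ} {v : V} {Cg : ℝ} {κ : TI ρ w → K}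
  {e : TI ρ w → ℝ} {n : TI ρ w → ℕ} {wd : TI ρ w → Fin 3 → ℤ} {Ξ : TI ρ w → V → V}
  {Tt : ConHomeo Λ Λ} {h1 : ConHomeo Ω Λ}

/-- the points of `Λ` whose `g`-image is in a tile near the skeleton -/
def NearS (ρ : V → ℝ) (w : V) (X : Set V) (s : V → ℝ) (g : V → V) : Set V :=
  {y | ∃ t ∈ NearX X s (zt ρ w), g y ∈ closedBall (zt ρ w t) (st ρ w t)}

section pre2

variable (S : Pre2 N κ₀ Ω Λ V₀ X T s η c Mi bi g A b D a r0 L v Cg κ e n wd Ξ Tt h1)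

include S

theorem Pre2.exists_tile' {y : V} (hy : y ∈ Λ) :
    ∃ t : TI ρ w, y ∈ closedBall (zt ρ w t) (st ρ w t) := by
  obtain ⟨m, z, htile, hmem⟩ := KW.exists_tile (v := w) S.hρ hy
  exact ⟨⟨(m, z), htile⟩, by rw [cB_eq]; exact hmem⟩

theorem Pre2.near8 (y : V) (hy : y ∈ Λ) (i : TI ρ w)
    (h : g.toFun y ∈ closedBall (zt ρ w i) (st ρ w i)) : ‖g.toFun y - T y‖ ≤ st ρ w i / 8 := by
  refine (S.near' y hy i h).trans ?_
  nlinarith [S.κ1, st_pos i]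

theorem Pre2.κpos : 0 < κ₀ := by linarith [S.κN, kp_pos N]

/-- a core point is near the skeleton, but is not collapsed -/
theorem Pre2.core_near {y : V} (hy : y ∈ Λ) {t : TI ρ w} (ht : t ∈ NearX X s (zt ρ w))
    (h : ‖g.toFun y - c t‖ ≤ κ₀ * st ρ w t) : T y ∉ X ∧ y ∈ NearS ρ w X s g.toFun := by
  have hσ := st_pos t
  have hmem : g.toFun y ∈ closedBall (zt ρ w t) (st ρ w t) := by
    rw [mem_closedBall, dist_eq_norm]
    have e1 : g.toFun y - zt ρ w t = (g.toFun y - c t) + (c t - zt ρ w t) := by abel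
    rw [e1]
    refine (norm_add_le _ _).trans ?_
    have := S.cz t
    nlinarith [S.κ1]
  refine ⟨?_, t, ht, hmem⟩
  refine core_off (c := c) (z := zt ρ w) (σ := st ρ w) (κ₀ := κ₀) S.hole (fun y hy i hi => ?_)
    S.cz S.κ1 (fun i => st_pos i) hy h
  refine (S.near' y hy i hi).trans ?_
  nlinarith [S.κpos, st_pos i]

/-- a collapsed point is near the skeleton -/
theorem Pre2.near_of_X {y : V} (hy : y ∈ Λ) (hX : T y ∈ X) : y ∈ NearS ρ w X s g.toFun := by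
  obtain ⟨t, ht⟩ := S.exists_tile' (g.mapsTo hy)
  refine ⟨t, mem_nearX_dist S.hρs (by rwa [cB_eq] at ht) hX ((S.near8 y hy t ht).trans ?_), ht⟩
  have e1 : (6:ℝ) / 2 ^ t.1.1 = 6 * (1 / 2 ^ t.1.1) := by ring
  rw [e1, two_st]
  linarith [st_pos t]

/-- the complement of the zone near the skeleton is open -/
theorem Pre2.eventually_far {y : V} (hy : y ∈ Λ) (h : y ∉ NearS ρ w X s g.toFun) :
    ∀ᶠ y' in 𝓝 y, y' ∈ Λ ∧ y' ∉ NearS ρ w X s g.toFun := by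
  obtain ⟨U, hU, hf⟩ := (cubes_tiles S.hρ w).fin _ (g.mapsTo hy)
  have h1 : ∀ᶠ u in 𝓝 (g.toFun y), ∀ t ∈ NearX X s (zt ρ w),
      u ∉ closedBall (zt ρ w t) (st ρ w t) := by
    have h2 : ⋂ t ∈ {t | (closedBall (zt ρ w t) (st ρ w t) ∩ U).Nonempty} ∩
        NearX X s (zt ρ w), (closedBall (zt ρ w t) (st ρ w t))ᶜ ∈ 𝓝 (g.toFun y) := by
      refine (Filter.biInter_mem (hf.subset inter_subset_left)).2 fun t ht => ?_
      exact isClosed_closedBall.isOpen_compl.mem_nhds fun hm => h ⟨t, ht.2, hm⟩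
    filter_upwards [h2, hU] with u hu1 hu2 t ht hut
    exact (mem_iInter₂.1 hu1) t ⟨⟨u, hut, hu2⟩, ht⟩ hut
  have h2 : ContinuousAt g.toFun y := g.cont.continuousAt (S.ΛO.mem_nhds hy)
  filter_upwards [h2.eventually h1, S.ΛO.mem_nhds hy] with y' hy1 hy2
  exact ⟨hy2, fun ⟨t, ht, hm⟩ => hy1 t ht hm⟩

/-- far from the skeleton nothing happens -/
theorem Pre2.far_point {y : V} (hy : y ∈ Λ) (h : y ∉ NearS ρ w X s g.toFun) :
    T y ∉ X ∧ y ∉ V₀ ∧ Tt.toFun y = T y := by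
  have hX : T y ∉ X := fun hX => h (S.near_of_X hy hX)
  refine ⟨hX, fun h0 => hX (S.V0X y hy h0), ?_⟩
  have h1 : Tt.toFun y = g.toFun y := S.tt.off y hy fun t ht hm =>
    h ⟨t, ht, ball_subset_closedBall hm⟩
  rw [h1]
  refine S.far y hy fun x hx => ?_
  obtain ⟨t, ht⟩ := S.exists_tile' (g.mapsTo hy)
  have h2 : t ∉ NearX X s (zt ρ w) := fun htn => h ⟨t, htn, ht⟩
  have h3 : s (zt ρ w t) / 2 < ‖zt ρ w t - x‖ := by
    by_contra hle
    push Not at hle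
    exact h2 ⟨x, hx, hle⟩
  have h4 := S.near y hy
  have h5 := st_le S.hρs t
  have h6 := S.lips (T y) (zt ρ w t)
  rw [mem_closedBall, dist_eq_norm] at ht
  have e1 : T y - zt ρ w t = (g.toFun y - zt ρ w t) - (g.toFun y - T y) := by abel
  have n1 := norm_sub_le (g.toFun y - zt ρ w t) (g.toFun y - T y)
  rw [← e1] at n1
  have e2 : zt ρ w t - x = (T y - x) - (T y - zt ρ w t) := by abel
  have n2 := norm_sub_le (T y - x) (T y - zt ρ w t)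
  rw [← e2] at n2
  have h7 : 0 ≤ s (T y) := by linarith [norm_nonneg (g.toFun y - T y)]
  linarith [st_pos t]

omit S in
theorem notMem_Nb {X : Set V} (hρs : ∀ y, ρ y ≤ s y / 64) (hs : ∀ x y, s x ≤ s y + ‖x - y‖)
    (hρ : SizeFn Λ ρ) (hc : c₀ ≤ 1 / 64) {u : V} (hu : u ∈ Λ)
    (h : ∀ t ∈ NearX X s (zt ρ w), u ∉ closedBall (zt ρ w t) (st ρ w t)) :
    u ∉ Nb w (onT ρ w X) c₀ := by
  rintro ⟨t, ht, p, hp, hup⟩
  obtain ⟨m, z, htile, hmem⟩ := KW.exists_tile (v := w) hρ hu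
  have hm : u ∈ closedBall (zt ρ w ⟨(m, z), htile⟩) (st ρ w ⟨(m, z), htile⟩) := by
    rw [cB_eq]; exact hmem
  refine h _ (mem_near hρs hs ht ((KW.isClosed_dyc _ _ _).frontier_subset hp) ?_ hm) hm
  refine hup.trans ?_
  gcongr
  linarith

/-- **[R2-COST] (a)**: far from the skeleton -/
theorem Pre2.far_eq (hc : c₀ ≤ 1 / 64) {g₂ : V → V}
    (off : ∀ x ∈ Ω, Tt.toFun (h1.toFun x) ∉ Nb w (onT ρ w X) c₀ →
      g₂ x = Tt.toFun (h1.toFun x)) {x : V} (hx : x ∈ Ω)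
    (hn : h1.toFun x ∉ NearS ρ w X s g.toFun) :
    ∃ k, x ∈ interior (D k) ∧ T (h1.toFun x) ∉ X ∧
      ∀ᶠ x' in 𝓝 x, g₂ x' = T (A k *ᵥ x' + b k) := by
  have hy := h1.mapsTo hx
  obtain ⟨hX, h0, -⟩ := S.far_point hy hn
  obtain ⟨k, hk⟩ := S.int x hx h0
  refine ⟨k, hk, hX, ?_⟩
  have hcont : ContinuousAt h1.toFun x := h1.cont.continuousAt (S.ΩO.mem_nhds hx)
  filter_upwards [hcont.eventually (S.eventually_far hy hn), S.ΩO.mem_nhds hx,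
    mem_interior_iff_mem_nhds.1 hk] with x' h2 h3 h4
  obtain ⟨hX', -, h5⟩ := S.far_point h2.1 h2.2
  rw [off x' h3, h5, S.aff k x' h4]
  refine notMem_Nb S.hρs S.lips S.hρ hc (Tt.mapsTo h2.1) fun t ht hm => h2.2 ⟨t, ht, ?_⟩
  exact (S.tt.cube _ h2.1 t).1 hm

/-! ### local Lipschitz constants -/

/-- the kept box of a core -/
theorem Pre2.kappa_eq {y : V} (hy : y ∈ Λ) {k : K}
    (hk : y ∈ (fun x => A k *ᵥ x + b k) '' D k) {t : TI ρ w}
    (ht : ‖g.toFun y - c t‖ ≤ kp N * st ρ w t) : κ t = k := by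
  have hσ := st_pos t
  have hkp := kp_pos N
  have hp0 : 0 < kp N * st ρ w t := mul_pos hkp hσ
  have hBΛ : closedBall (c t) (kp N * st ρ w t) ⊆ Λ := by
    refine Subset.trans (fun y hy => ?_) ((cubes_tiles S.hρ w).sub t)
    rw [mem_closedBall, dist_eq_norm] at hy ⊢
    have e1 : y - zt ρ w t = (y - c t) + (c t - zt ρ w t) := by abel
    rw [e1]
    refine (norm_add_le _ _).trans ?_
    have h1 := S.cz t
    have h2 : kp N * st ρ w t ≤ 1 / 4 * st ρ w t :=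
      mul_le_mul_of_nonneg_right (by linarith [S.κN, S.κ1]) hσ.le
    linarith
  obtain ⟨k', hk'⟩ := S.kept.exists_box S.ΛO (S := g.invFun '' closedBall (c t) (kp N * st ρ w t))
    (((convex_closedBall _ _).isPreconnected).image _ (g.cont_inv.mono hBΛ))
    ⟨_, c t, mem_closedBall_self hp0.le, rfl⟩
    (by rintro _ ⟨u, hu, rfl⟩; exact g.mapsTo_inv (hBΛ hu))
    (by
      rintro _ ⟨u, hu, rfl⟩ h0
      have h1 := S.core _ (g.mapsTo_inv (hBΛ hu)) h0 t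
      rw [g.right_inv (hBΛ hu)] at h1
      rw [mem_closedBall, dist_eq_norm] at hu
      have h2 : kp N * st ρ w t ≤ κ₀ * st ρ w t :=
        mul_le_mul_of_nonneg_right (by linarith [S.κN]) hσ.le
      linarith)
  have huniq : ∀ (k k' : K) (y : V), y ∈ (fun x => A k *ᵥ x + b k) '' D k →
      y ∈ (fun x => A k' *ᵥ x + b k') '' D k' → k = k' := by
    rintro k k' y ⟨x, hx, rfl⟩ ⟨x', hx', h⟩
    by_contra hne
    exact S.kept.disj k' k (Ne.symm hne) x' hx' x hx h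
  have h1 : y ∈ (fun x => A k' *ᵥ x + b k') '' D k' := by
    refine hk' ⟨g.toFun y, ?_, g.left_inv hy⟩
    rw [mem_closedBall, dist_eq_norm]; exact ht
  have h2 : k = k' := huniq k k' y hk h1
  have hctr : Net.ctr v (n t) (wd t) ∈ dyc v (n t) (wd t) := by
    rw [dyc_ball]; exact mem_closedBall_self (hs_pos' _).le
  have hc := S.tt.cell t
  have h3 := hc.core _ hctr
  have h4 := hc.mem _ hctr
  have h5 : A (κ t) *ᵥ Net.ctr v (n t) (wd t) + b (κ t) ∈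
      (fun x => A k' *ᵥ x + b k') '' D k' := by
    refine hk' ⟨g.toFun _, ?_, g.left_inv h4⟩
    rw [mem_closedBall, dist_eq_norm]
    linarith
  rw [h2]
  exact huniq _ _ _ ⟨_, hc.sub hctr, rfl⟩ h5

/-- the local Lipschitz constant off the cores -/
theorem Pre2.locLip0 {y : V} (hy : y ∈ Λ)
    (h : ∀ t ∈ NearX X s (zt ρ w), kp N * st ρ w t < ‖g.toFun y - c t‖) :
    LocLip Tt.toFun y (28 * 2 ^ N * Cg) := S.tt.lip0 y hy h

/-- the local Lipschitz constant in a kept box -/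
theorem Pre2.locLip {y : V} (hy : y ∈ Λ) {k : K}
    (hk : y ∈ (fun x => A k *ᵥ x + b k) '' D k) :
    LocLip Tt.toFun y (28 * 4 ^ N * Cg * L k) := by
  have hC := S.Cg1
  have hL := S.L1 k
  have h4 : (0:ℝ) < 4 ^ N := by positivity
  have h24 : (2:ℝ) ^ N ≤ 4 ^ N := by gcongr; norm_num
  by_cases h : ∀ t ∈ NearX X s (zt ρ w), kp N * st ρ w t < ‖g.toFun y - c t‖
  · refine (S.locLip0 hy h).mono ?_
    calc 28 * 2 ^ N * Cg ≤ 28 * 4 ^ N * Cg := by gcongr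
      _ = 28 * 4 ^ N * Cg * 1 := by ring
      _ ≤ 28 * 4 ^ N * Cg * L k := by gcongr
  · push Not at h
    obtain ⟨t, ht, h⟩ := h
    have h1 := S.tt.lip t ht y hy h
    rw [S.kappa_eq hy hk h] at h1
    refine h1.mono ?_
    calc 8 * 4 ^ N * L k * Cg = 8 * (4 ^ N * Cg * L k) := by ring
      _ ≤ 28 * (4 ^ N * Cg * L k) := by gcongr; norm_num
      _ = 28 * 4 ^ N * Cg * L k := by ring

/-- Lipschitz constant of `Tt ∘ h₁` on a convex subset of a kept box -/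
theorem Pre2.lip_cell {Q : Set V} (hc : Convex ℝ Q) {k : K} (hQ : Q ⊆ D k) {B : ℝ} (hB0 : 0 ≤ B)
    (hB : ∀ x ∈ Q, LocLip Tt.toFun (h1.toFun x) B) :
    ∀ x ∈ Q, ∀ y ∈ Q, ‖Tt.toFun (h1.toFun x) - Tt.toFun (h1.toFun y)‖ ≤ B * a k * ‖x - y‖ := by
  intro x hx y hy
  rw [S.aff k x (hQ hx), S.aff k y (hQ hy)]
  refine seg_lip_of_locLip (f := fun x => Tt.toFun (A k *ᵥ x + b k)) fun x' hx' => ?_
  have hx'' := hc.segment_subset hx hy hx'
  have h2 := hB x' hx''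
  rw [S.aff k x' (hQ hx'')] at h2
  refine LocLip.comp (g := fun x => A k *ᵥ x + b k) h2 ⟨1, one_pos, fun u _ u' _ => ?_⟩ hB0
    (S.apos k).le
  rw [add_sub_add_right_eq_sub, ← Matrix.mulVec_sub]
  exact S.bd k _

end pre2

end Vale.Agent.P073.H851
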