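import Vale.Agent.P073.H851.R2Geo
import Vale.Agent.P073.H819.GCAlign

/-!
# P073, [TGT], part A: measures

* `nuS`: the weight measure `Σ_k wt k (φ k)_# (dx on D k)`;
* `volume_collapsed`: the volume of the collapsed part is at most `3 h |Λ|`;
* `sum_collapsed`: its cost.
-/

open Set Metric Topology Filter Matrix MeasureTheory
open scoped ENNReal

namespace Vale.Agent.P073.H851

open _root_.P073
open Vale.Agent.P073.St (V)

/-- the affine map `x ↦ A x + b` -/
def afm (A : M3) (b : V) (x : V) : V := A *ᵥ x + b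

theorem continuous_afm (A : M3) (b : V) : Continuous (afm A b) := by
  have : Continuous fun x : V => A *ᵥ x :=
    (Matrix.mulVecLin A).continuous_of_finiteDimensional
  exact this.add continuous_const

theorem measurable_afm (A : M3) (b : V) : Measurable (afm A b) := (continuous_afm A b).measurable

theorem afm_inv {A : M3} (hA : A.det ≠ 0) (b x : V) : A⁻¹ *ᵥ (afm A b x - b) = x := by
  rw [afm, add_sub_cancel_right, Matrix.mulVec_mulVec,
    Matrix.nonsing_inv_mul _ (isUnit_iff_ne_zero.2 hA), Matrix.one_mulVec]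

theorem afm_inv' {A : M3} (hA : A.det ≠ 0) (b y : V) : afm A b (A⁻¹ *ᵥ (y - b)) = y := by
  rw [afm, Matrix.mulVec_mulVec, Matrix.mul_nonsing_inv _ (isUnit_iff_ne_zero.2 hA),
    Matrix.one_mulVec, sub_add_cancel]

theorem afm_image {A : M3} (hA : A.det ≠ 0) (b : V) (U : Set V) :
    afm A b '' U = (fun y => A⁻¹ *ᵥ (y - b)) ⁻¹' U := by
  ext y
  constructor
  · rintro ⟨x, hx, rfl⟩
    show A⁻¹ *ᵥ (afm A b x - b) ∈ U
    rwa [afm_inv hA]
  · intro hy
    exact ⟨_, hy, afm_inv' hA b y⟩

theorem afm_image_open {A : M3} (hA : A.det ≠ 0) (b : V) {U : Set V} (hU : IsOpen U) :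
    IsOpen (afm A b '' U) := by
  rw [afm_image hA]
  refine hU.preimage ?_
  have : Continuous fun x : V => A⁻¹ *ᵥ x :=
    (Matrix.mulVecLin A⁻¹).continuous_of_finiteDimensional
  exact this.comp (continuous_id.sub continuous_const)

theorem afm_injective {A : M3} (hA : A.det ≠ 0) (b : V) : Function.Injective (afm A b) :=
  fun x y h => by rw [← afm_inv hA b x, h, afm_inv hA]

/-- change of variables -/
theorem volume_afm_image (A : M3) (b : V) (E : Set V) :
    volume (afm A b '' E) = ENNReal.ofReal |A.det| * volume E := by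
  have h1 : afm A b '' E = (fun y => y + b) '' ((Matrix.mulVecLin A) '' E) := by
    rw [← image_comp]; rfl
  rw [h1, image_add_right, measure_preimage_add_right, ← Matrix.toLin'_apply',
    Measure.addHaar_image_linearMap, LinearMap.det_toLin']

section nu

variable {B : Type} {A : B → M3} {b : B → V} {D : B → Set V} {wt : B → ℝ≥0∞} {Λ : Set V}

/-- the weight measure -/
noncomputable def nuS (A : B → M3) (b : B → V) (D : B → Set V) (wt : B → ℝ≥0∞) : Measure V :=
  Measure.sum fun k => wt k • (volume.restrict (D k)).map (afm (A k) (b k))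

theorem nuS_apply {S : Set V} (hS : MeasurableSet S) :
    nuS A b D wt S = ∑' k, wt k * volume {x | x ∈ D k ∧ afm (A k) (b k) x ∈ S} := by
  rw [nuS, Measure.sum_apply _ hS]
  refine tsum_congr fun k => ?_
  rw [Measure.smul_apply, smul_eq_mul, Measure.map_apply (measurable_afm _ _) hS,
    Measure.restrict_apply (measurable_afm _ _ hS)]
  congr 2
  ext x
  simp only [mem_inter_iff, mem_preimage, mem_ofPred_eq]
  exact and_comm

theorem le_nuS (S : Set V) :
    ∑' k, wt k * volume {x | x ∈ D k ∧ afm (A k) (b k) x ∈ S} ≤ nuS A b D wt S := by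
  rw [← measure_toMeasurable (μ := nuS A b D wt) S, nuS_apply (measurableSet_toMeasurable _ _)]
  refine ENNReal.tsum_le_tsum fun k => mul_le_mul' le_rfl (measure_mono fun x hx => ?_)
  exact ⟨hx.1, subset_toMeasurable _ _ hx.2⟩

theorem nuS_lt_top (hD : ∀ k, IsCompact (D k)) (hwt : ∀ k, wt k ≠ ⊤)
    (lf : ∀ C ⊆ Λ, IsCompact C → {k | (afm (A k) (b k) '' D k ∩ C).Nonempty}.Finite) :
    ∀ C ⊆ Λ, IsCompact C → nuS A b D wt C < ∞ := by
  intro C hC hCc
  rw [nuS_apply hCc.measurableSet]
  have hf := lf C hC hCc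
  rw [tsum_eq_sum (s := hf.toFinset) fun k hk => ?_]
  · refine ENNReal.sum_lt_top.2 fun k _ => ENNReal.mul_lt_top (hwt k).lt_top ?_
    exact (measure_mono fun x hx => hx.1).trans_lt (hD k).measure_lt_top
  · rw [Finite.mem_toFinset] at hk
    have : {x | x ∈ D k ∧ afm (A k) (b k) x ∈ C} = ∅ := by
      ext x
      simp only [mem_ofPred_eq, mem_empty_iff_false, iff_false]
      rintro ⟨h1, h2⟩
      exact hk ⟨_, ⟨x, h1, rfl⟩, h2⟩
    rw [this, measure_empty, mul_zero]

end nu

/-! ### the collapsed part -/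

section coll

open Vale.Agent.P073.H726 (Coll)

variable {Λ V₀ X : Set V} {h : ℝ} {T : V → V}

theorem measurableSet_X (C : Coll Λ V₀ X h T) : MeasurableSet X := C.measurable_X

theorem measurableSet_collapsed (C : Coll Λ V₀ X h T) : MeasurableSet {y | y ∈ Λ ∧ T y ∈ X} :=
  C.opn.measurableSet.inter (C.continuous.measurable C.measurable_X)

theorem volume_collapsed (C : Coll Λ V₀ X h T) (hΛ : volume Λ ≠ ⊤) :
    volume {y | y ∈ Λ ∧ T y ∈ X} ≤ ENNReal.ofReal (3 * h) * volume Λ := by
  have h0 := C.h0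
  have hm := measurableSet_collapsed C
  have hsub : {y | y ∈ Λ ∧ T y ∈ X} ⊆ Λ := fun y hy => hy.1
  have h1 : volume {y | y ∈ Λ ∧ T y ∈ X} + volume {y | y ∈ Λ ∧ T y ∉ X} = volume Λ := by
    rw [← measure_inter_add_sdiff Λ hm]
    congr 2
    · ext y; constructor
      · exact fun hy => ⟨hy.1, hy⟩
      · exact fun hy => hy.2
    · ext y; constructor
      · exact fun hy => ⟨hy.1, fun h => hy.2 h.2⟩
      · exact fun hy => ⟨hy.1, fun h => hy.2 ⟨hy.1, h⟩⟩
  rw [C.good] at h1
  have hfin : ENNReal.ofReal ((1 + h) ^ 3)⁻¹ * volume Λ ≠ ⊤ :=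
    ENNReal.mul_ne_top ENNReal.ofReal_ne_top hΛ
  have h2 : ENNReal.ofReal (3 * h) * volume Λ + ENNReal.ofReal ((1 + h) ^ 3)⁻¹ * volume Λ ≥
      volume Λ := by
    rw [← add_mul, ← ENNReal.ofReal_add (by positivity) (by positivity)]
    have h3 : 1 ≤ 3 * h + ((1 + h) ^ 3)⁻¹ := by
      have hp : 0 < (1 + h) ^ 3 := by positivity
      rw [← sub_le_iff_le_add', le_inv_comm₀ _ hp]
      · rw [inv_eq_one_div, le_div_iff₀]
        · nlinarith [mul_nonneg h0 h0, mul_nonneg (mul_nonneg h0 h0) h0,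
            mul_nonneg (mul_nonneg h0 h0) (mul_nonneg h0 h0)]
        · linarith [C.h1]
      · linarith [C.h1]
    calc volume Λ = ENNReal.ofReal 1 * volume Λ := by rw [ENNReal.ofReal_one, one_mul]
      _ ≤ _ := by gcongr
  refine (ENNReal.add_le_add_iff_right hfin).1 ?_
  rw [h1]
  exact h2

end coll

/-- the cost of a set, in terms of its volume -/
theorem sum_cost {B : Type} {A : B → M3} {b : B → V} {D : B → Set V} {α : B → ℝ≥0∞}
    (hA : ∀ k, (A k).det ≠ 0) (hD : ∀ k, IsCompact (D k))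
    (hdis : ∀ k l, k ≠ l → Disjoint (afm (A k) (b k) '' D k) (afm (A l) (b l) '' D l))
    {M₀ ε : ℝ} (hM : 0 < M₀)
    (hα : ∑' k : {k : B // ENNReal.ofReal (M₀ * |(A k).det|) < α k}, α k.1 * volume (D k.1) ≤
      ENNReal.ofReal ε) {S : Set V} (hS : MeasurableSet S) :
    ∑' k, α k * volume {x | x ∈ D k ∧ afm (A k) (b k) x ∈ S} ≤
      ENNReal.ofReal M₀ * volume S + ENNReal.ofReal ε := by
  classical
  set P : B → Prop := fun k => ENNReal.ofReal (M₀ * |(A k).det|) < α k with hP
  set E : B → Set V := fun k => {x | x ∈ D k ∧ afm (A k) (b k) x ∈ S} with hE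
  have hEm : ∀ k, MeasurableSet (E k) := fun k =>
    (hD k).measurableSet.inter (measurable_afm _ _ hS)
  have h1 : ∀ k, α k * volume (E k) ≤ ENNReal.ofReal M₀ * volume (afm (A k) (b k) '' E k) +
      (if P k then α k * volume (D k) else 0) := by
    intro k
    by_cases hk : P k
    · rw [if_pos hk]
      refine le_add_left ?_
      gcongr
      exact fun x hx => hx.1
    · rw [if_neg hk, add_zero, volume_afm_image, ← mul_assoc, ← ENNReal.ofReal_mul hM.le]
      gcongr
      exact not_lt.1 hk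
  calc ∑' k, α k * volume (E k) ≤ ∑' k, (ENNReal.ofReal M₀ * volume (afm (A k) (b k) '' E k) +
        (if P k then α k * volume (D k) else 0)) := ENNReal.tsum_le_tsum h1
    _ = ENNReal.ofReal M₀ * ∑' k, volume (afm (A k) (b k) '' E k) +
        ∑' k, (if P k then α k * volume (D k) else 0) := by
      rw [ENNReal.tsum_add, ENNReal.tsum_mul_left]
    _ ≤ _ := by
      gcongr ENNReal.ofReal M₀ * ?_ + ?_
      · refine ENNReal.summable.tsum_le_of_sum_le fun F => ?_
        rw [← measure_biUnion_finset]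
        · refine measure_mono (iUnion₂_subset fun k _ => ?_)
          rintro _ ⟨x, hx, rfl⟩
          exact hx.2
        · intro k _ l _ hkl
          exact (hdis k l hkl).mono (image_mono fun x hx => hx.1) (image_mono fun x hx => hx.1)
        · intro k _
          exact (hEm k).image_of_continuousOn_injOn (continuous_afm _ _).continuousOn
            (afm_injective (hA k) _).injOn
      · have hα' : ∑' k : ↥{k | P k}, α k.1 * volume (D k.1) ≤ ENNReal.ofReal ε := hα
        rw [tsum_subtype {k | P k} fun k => α k * volume (D k)] at hα'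
        refine le_trans (le_of_eq ?_) hα'
        refine tsum_congr fun k => ?_
        by_cases hk : P k
        · rw [if_pos hk, indicator_of_mem (show k ∈ {k | P k} from hk)]
        · rw [if_neg hk, indicator_of_notMem (show k ∉ {k | P k} from hk)]

/-- locally finite unions of closed sets -/
theorem isClosed_lf {B : Type*} {Λ : Set V} (hΛ : IsOpen Λ) {E : B → Set V}
    (hE : ∀ k, IsClosed (E k))
    (lf : ∀ y ∈ Λ, ∃ U ∈ 𝓝 y, {k | (E k ∩ U).Nonempty}.Finite) : IsClosed ((⋃ k, E k) ∪ Λᶜ) := by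
  rw [← isOpen_compl_iff, isOpen_iff_mem_nhds]
  intro y hy
  rw [mem_compl_iff, mem_union, not_or, mem_compl_iff, not_not] at hy
  obtain ⟨U, hU, hf⟩ := lf y hy.2
  have h1 : ⋂ k ∈ {k | (E k ∩ U).Nonempty}, (E k)ᶜ ∈ 𝓝 y :=
    (Filter.biInter_mem hf).2 fun k _ => (hE k).isOpen_compl.mem_nhds fun h =>
      hy.1 (mem_iUnion.2 ⟨k, h⟩)
  filter_upwards [h1, hU, hΛ.mem_nhds hy.2] with u hu1 hu2 hu3 hn
  rcases hn with h | h
  · obtain ⟨k, h2⟩ := mem_iUnion.1 h
    exact (mem_iInter₂.1 hu1) k ⟨u, h2, hu2⟩ h2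
  · exact h hu3

/-- local finiteness, from compact sets to neighbourhoods -/
theorem lf_of_compact {B : Type*} {Λ : Set V} (hΛ : IsOpen Λ) {E : B → Set V}
    (lf : ∀ C ⊆ Λ, IsCompact C → {k | (E k ∩ C).Nonempty}.Finite) :
    ∀ y ∈ Λ, ∃ U ∈ 𝓝 y, {k | (E k ∩ U).Nonempty}.Finite := by
  intro y hy
  obtain ⟨r, hr, hb⟩ := Metric.nhds_basis_closedBall.mem_iff.1 (hΛ.mem_nhds hy)
  exact ⟨closedBall y r, closedBall_mem_nhds _ hr, lf _ hb (isCompact_closedBall _ _)⟩

end Vale.Agent.P073.H851
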