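import Vale.Agent.P073.H851.TtIn
import Vale.Agent.P073.H851.TgtA

/-!
# P073, [TGT], part B: the total target homeomorphism and its tiles

`TP`: everything about the target (no domain, no `h₁`).
-/

open Set Metric Topology Filter Matrix MeasureTheory
open scoped ENNReal

namespace Vale.Agent.P073.H851

open _root_.P073
open _root_.P073.Net (dyc dyo IsTile SizeFn)
open Vale.Agent.P073.St (V)
open Vale.Agent.P073.H471 (Cubes TI zt st cB_eq B_eq cubes_tiles st_pos)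
open Vale.Agent.P073.H304 (Nb In)

variable {Λ : Set V} {ρ s : V → ℝ} {w : V}

/-- everything about the target -/
structure TP {ρ : V → ℝ} {w : V} {K : Type*} (N : ℕ) (κ₀ : ℝ) (Λ V₀ X : Set V) (T : V → V)
    (s : V → ℝ) (η : ℝ) (c : TI ρ w → V) (Mi : TI ρ w → M3) (bi : TI ρ w → V)
    (g : ConHomeo Λ Λ) (A : K → M3) (b : K → V) (D : K → Set V) (r0 L : K → ℝ) (v : V) (Cg : ℝ)
    (κ : TI ρ w → K) (e : TI ρ w → ℝ) (n : TI ρ w → ℕ) (wd : TI ρ w → Fin 3 → ℤ)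
    (Ξ : TI ρ w → V → V) (Tt : ConHomeo Λ Λ) : Prop where
  hρ : SizeFn Λ ρ
  hρs : ∀ y, ρ y ≤ s y / 64
  lips : ∀ x y, s x ≤ s y + ‖x - y‖
  η0 : 0 < η
  η1 : η < 1 / 2
  tt : IsTTot N Λ V₀ X (zt ρ w) (st ρ w) (fun _ => η) c Mi bi g.toFun (NearX X s (zt ρ w)) A b D
      r0 L v Cg κ e n wd Ξ Tt.toFun
  ΛO : IsOpen Λ
  κN : 2 * kp N ≤ κ₀
  κ1 : κ₀ ≤ 1 / 2
  core : ∀ y ∈ Λ, y ∈ V₀ → ∀ i, κ₀ * st ρ w i < ‖g.toFun y - c i‖
  hole : ∀ i, ∀ x ∈ X, 2 * κ₀ * st ρ w i < ‖x - c i‖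
  cz : ∀ i, ‖c i - zt ρ w i‖ ≤ st ρ w i / 2
  near : ∀ y ∈ Λ, ‖g.toFun y - T y‖ ≤ s (T y) / 16
  near' : ∀ y ∈ Λ, ∀ i, g.toFun y ∈ closedBall (zt ρ w i) (st ρ w i) →
    ‖g.toFun y - T y‖ ≤ κ₀ / 4 * st ρ w i
  far : ∀ y ∈ Λ, (∀ x ∈ X, s (T y) / 16 < ‖T y - x‖) → g.toFun y = T y
  V0X : ∀ y ∈ Λ, y ∈ V₀ → T y ∈ X
  kept : Kept Λ V₀ A b D
  L1 : ∀ k, 1 ≤ L k
  Cg1 : 1 ≤ Cg

variable {K : Type*} {V₀ X : Set V} {N : ℕ} {η κ₀ : ℝ} {T : V → V}
  {c : TI ρ w → V} {Mi : TI ρ w → M3} {bi : TI ρ w → V} {g : ConHomeo Λ Λ}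
  {A : K → M3} {b : K → V} {D : K → Set V} {r0 L : K → ℝ} {v : V} {Cg : ℝ} {κ : TI ρ w → K}
  {e : TI ρ w → ℝ} {n : TI ρ w → ℕ} {wd : TI ρ w → Fin 3 → ℤ} {Ξ : TI ρ w → V → V}
  {Tt : ConHomeo Λ Λ}

section tp

variable (S : TP N κ₀ Λ V₀ X T s η c Mi bi g A b D r0 L v Cg κ e n wd Ξ Tt)

include S

theorem TP.exists_tile' {y : V} (hy : y ∈ Λ) :
    ∃ t : TI ρ w, y ∈ closedBall (zt ρ w t) (st ρ w t) := by
  obtain ⟨m, z, htile, hmem⟩ := KW.exists_tile (v := w) S.hρ hy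
  exact ⟨⟨(m, z), htile⟩, by rw [cB_eq]; exact hmem⟩

theorem TP.near8 (y : V) (hy : y ∈ Λ) (i : TI ρ w)
    (h : g.toFun y ∈ closedBall (zt ρ w i) (st ρ w i)) : ‖g.toFun y - T y‖ ≤ st ρ w i / 8 := by
  refine (S.near' y hy i h).trans ?_
  nlinarith [S.κ1, st_pos i]

theorem TP.κpos : 0 < κ₀ := by linarith [S.κN, kp_pos N]

theorem TP.core_mem {y : V} {t : TI ρ w}
    (h : ‖g.toFun y - c t‖ ≤ κ₀ * st ρ w t) : g.toFun y ∈ closedBall (zt ρ w t) (st ρ w t) := by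
  rw [mem_closedBall, dist_eq_norm]
  have e1 : g.toFun y - zt ρ w t = (g.toFun y - c t) + (c t - zt ρ w t) := by abel
  rw [e1]
  refine (norm_add_le _ _).trans ?_
  have := S.cz t
  nlinarith [S.κ1, st_pos t]

/-- a core point is not collapsed -/
theorem TP.core_X {y : V} (hy : y ∈ Λ) {t : TI ρ w}
    (h : ‖g.toFun y - c t‖ ≤ κ₀ * st ρ w t) : T y ∉ X := by
  refine core_off (c := c) (z := zt ρ w) (σ := st ρ w) (κ₀ := κ₀) S.hole (fun y hy i hi => ?_)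
    S.cz S.κ1 (fun i => st_pos i) hy h
  refine (S.near' y hy i hi).trans ?_
  nlinarith [S.κpos, st_pos i]

/-- a collapsed point is near the skeleton -/
theorem TP.near_of_X {y : V} (hy : y ∈ Λ) (hX : T y ∈ X) {t : TI ρ w}
    (ht : g.toFun y ∈ closedBall (zt ρ w t) (st ρ w t)) : t.1 ∈ onT ρ w X := by
  refine ⟨t.2, g.toFun y, by rwa [cB_eq] at ht, T y, hX, (S.near8 y hy t ht).trans ?_⟩
  have e1 : (6:ℝ) / 2 ^ t.1.1 = 6 * (1 / 2 ^ t.1.1) := by ring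
  rw [e1, two_st]
  linarith [st_pos t]

/-- the complement of the zone near the skeleton is open -/
theorem TP.eventually_far {y : V} (hy : y ∈ Λ)
    (h : ∀ t ∈ NearX X s (zt ρ w), g.toFun y ∉ closedBall (zt ρ w t) (st ρ w t)) :
    ∀ᶠ y' in 𝓝 y, y' ∈ Λ ∧
      ∀ t ∈ NearX X s (zt ρ w), g.toFun y' ∉ closedBall (zt ρ w t) (st ρ w t) := by
  obtain ⟨U, hU, hf⟩ := (cubes_tiles S.hρ w).fin _ (g.mapsTo hy)
  have h1 : ∀ᶠ u in 𝓝 (g.toFun y), ∀ t ∈ NearX X s (zt ρ w),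
      u ∉ closedBall (zt ρ w t) (st ρ w t) := by
    have h2 : ⋂ t ∈ {t | (closedBall (zt ρ w t) (st ρ w t) ∩ U).Nonempty} ∩
        NearX X s (zt ρ w), (closedBall (zt ρ w t) (st ρ w t))ᶜ ∈ 𝓝 (g.toFun y) := by
      refine (Filter.biInter_mem (hf.subset inter_subset_left)).2 fun t ht => ?_
      exact isClosed_closedBall.isOpen_compl.mem_nhds fun hm => h t ht.2 hm
    filter_upwards [h2, hU] with u hu1 hu2 t ht hut
    exact (mem_iInter₂.1 hu1) t ⟨⟨u, hut, hu2⟩, ht⟩ hut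
  have h2 : ContinuousAt g.toFun y := g.cont.continuousAt (S.ΛO.mem_nhds hy)
  filter_upwards [h2.eventually h1, S.ΛO.mem_nhds hy] with y' hy1 hy2
  exact ⟨hy2, hy1⟩

/-- far from the skeleton nothing happens -/
theorem TP.far_point {y : V} (hy : y ∈ Λ)
    (h : ∀ t ∈ NearX X s (zt ρ w), g.toFun y ∉ closedBall (zt ρ w t) (st ρ w t)) :
    T y ∉ X ∧ Tt.toFun y = T y := by
  obtain ⟨t, ht⟩ := S.exists_tile' (g.mapsTo hy)
  have hX : T y ∉ X := fun hX => h t (onT_near S.hρs (S.near_of_X hy hX ht)) ht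
  refine ⟨hX, ?_⟩
  have h1 : Tt.toFun y = g.toFun y := S.tt.off y hy fun t ht hm =>
    h t ht (ball_subset_closedBall hm)
  rw [h1]
  refine S.far y hy fun x hx => ?_
  have h2 : t ∉ NearX X s (zt ρ w) := fun htn => h t htn ht
  have h3 : s (zt ρ w t) / 2 < ‖zt ρ w t - x‖ := by
    by_contra hle
    push Not at hle
    exact h2 ⟨x, hx, hle⟩
  have h4 := S.near y hy
  have h5 := st_le S.hρs t
  have h6 := S.lips (T y) (zt ρ w t)
  rw [mem_closedBall, dist_eq_norm] at ht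
  have e1 : T y - zt ρ w t = (g.toFun y - zt ρ w t) - (g.toFun y - T y) := by abel
  have n1 := norm_sub_le (g.toFun y - zt ρ w t) (g.toFun y - T y)
  rw [← e1] at n1
  have e2 : zt ρ w t - x = (T y - x) - (T y - zt ρ w t) := by abel
  have n2 := norm_sub_le (T y - x) (T y - zt ρ w t)
  rw [← e2] at n2
  have h7 : 0 ≤ s (T y) := by linarith [norm_nonneg (g.toFun y - T y)]
  linarith [st_pos t]

/-- `Tt y` and `g y` are in the same tiles -/
theorem TP.tile_iff {y : V} (hy : y ∈ Λ) (t : TI ρ w) :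
    Tt.toFun y ∈ dyc w t.1.1 t.1.2 ↔ g.toFun y ∈ closedBall (zt ρ w t) (st ρ w t) := by
  rw [← cB_eq]; exact S.tt.cube y hy t

/-- the kept box of a core -/
theorem TP.kappa_eq {y : V} (hy : y ∈ Λ) {k : K}
    (hk : y ∈ (fun x => A k *ᵥ x + b k) '' D k) {t : TI ρ w}
    (ht : ‖g.toFun y - c t‖ ≤ kp N * st ρ w t) : κ t = k := by
  have hσ := st_pos t
  have hkp := kp_pos N
  have hp0 : 0 < kp N * st ρ w t := mul_pos hkp hσ
  have hBΛ : closedBall (c t) (kp N * st ρ w t) ⊆ Λ := by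
    refine Subset.trans (fun y hy => ?_) ((cubes_tiles S.hρ w).sub t)
    rw [mem_closedBall, dist_eq_norm] at hy ⊢
    have e1 : y - zt ρ w t = (y - c t) + (c t - zt ρ w t) := by abel
    rw [e1]
    refine (norm_add_le _ _).trans ?_
    have h1 := S.cz t
    have h2 : kp N * st ρ w t ≤ 1 / 4 * st ρ w t :=
      mul_le_mul_of_nonneg_right (by linarith [S.κN, S.κ1]) hσ.le
    linarith
  obtain ⟨k', hk'⟩ := S.kept.exists_box S.ΛO (S := g.invFun '' closedBall (c t) (kp N * st ρ w t))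
    (((convex_closedBall _ _).isPreconnected).image _ (g.cont_inv.mono hBΛ))
    ⟨_, c t, mem_closedBall_self hp0.le, rfl⟩
    (by rintro _ ⟨u, hu, rfl⟩; exact g.mapsTo_inv (hBΛ hu))
    (by
      rintro _ ⟨u, hu, rfl⟩ h0
      have h1 := S.core _ (g.mapsTo_inv (hBΛ hu)) h0 t
      rw [g.right_inv (hBΛ hu)] at h1
      rw [mem_closedBall, dist_eq_norm] at hu
      have h2 : kp N * st ρ w t ≤ κ₀ * st ρ w t :=
        mul_le_mul_of_nonneg_right (by linarith [S.κN]) hσ.le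
      linarith)
  have huniq : ∀ (k k' : K) (y : V), y ∈ (fun x => A k *ᵥ x + b k) '' D k →
      y ∈ (fun x => A k' *ᵥ x + b k') '' D k' → k = k' := by
    rintro k k' y ⟨x, hx, rfl⟩ ⟨x', hx', h⟩
    by_contra hne
    exact S.kept.disj k' k (Ne.symm hne) x' hx' x hx h
  have h1 : y ∈ (fun x => A k' *ᵥ x + b k') '' D k' := by
    refine hk' ⟨g.toFun y, ?_, g.left_inv hy⟩
    rw [mem_closedBall, dist_eq_norm]; exact ht
  have h2 : k = k' := huniq k k' y hk h1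
  have hctr : Net.ctr v (n t) (wd t) ∈ dyc v (n t) (wd t) := by
    rw [dyc_ball]; exact mem_closedBall_self (hs_pos' _).le
  have hc := S.tt.cell t
  have h3 := hc.core _ hctr
  have h4 := hc.mem _ hctr
  have h5 : A (κ t) *ᵥ Net.ctr v (n t) (wd t) + b (κ t) ∈
      (fun x => A k' *ᵥ x + b k') '' D k' := by
    refine hk' ⟨g.toFun _, ?_, g.left_inv h4⟩
    rw [mem_closedBall, dist_eq_norm]
    linarith
  rw [h2]
  exact huniq _ _ _ ⟨_, hc.sub hctr, rfl⟩ h5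

/-- the local Lipschitz constant in a kept box -/
theorem TP.locLip {y : V} (hy : y ∈ Λ) {k : K}
    (hk : y ∈ (fun x => A k *ᵥ x + b k) '' D k) :
    LocLip Tt.toFun y (28 * 4 ^ N * Cg * L k) := by
  have hC := S.Cg1
  have hL := S.L1 k
  have h4 : (0:ℝ) < 4 ^ N := by positivity
  have h24 : (2:ℝ) ^ N ≤ 4 ^ N := by gcongr; norm_num
  by_cases h : ∀ t ∈ NearX X s (zt ρ w), kp N * st ρ w t < ‖g.toFun y - c t‖
  · refine (S.tt.lip0 y hy h).mono ?_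
    calc 28 * 2 ^ N * Cg ≤ 28 * 4 ^ N * Cg := by gcongr
      _ = 28 * 4 ^ N * Cg * 1 := by ring
      _ ≤ 28 * 4 ^ N * Cg * L k := by gcongr
  · push Not at h
    obtain ⟨t, ht, h⟩ := h
    have h1 := S.tt.lip t ht y hy h
    rw [S.kappa_eq hy hk h] at h1
    refine h1.mono ?_
    calc 8 * 4 ^ N * L k * Cg = 8 * (4 ^ N * Cg * L k) := by ring
      _ ≤ 28 * (4 ^ N * Cg * L k) := by gcongr; norm_num
      _ = 28 * 4 ^ N * Cg * L k := by ring

/-- the points near `V₀` are in the processed tiles, with their neighbours -/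
theorem TP.V0_ring {y : V} (hy : y ∈ Λ) (h0 : y ∈ V₀) {a j : TI ρ w}
    (ha : Tt.toFun y ∈ dyc w a.1.1 a.1.2) {u : V} (hu : u ∈ dyc w j.1.1 j.1.2)
    (huy : ‖u - Tt.toFun y‖ ≤ 1 / 64 / 2 ^ a.1.1) : j.1 ∈ onT ρ w X := by
  have hga := (S.tile_iff hy a).1 ha
  have hX := S.V0X y hy h0
  have h2 := S.near8 y hy a hga
  have h2s := two_st a
  have hsz : 1 / 2 ^ a.1.1 ≤ 10 * st ρ w j :=
    H471.size_of_near S.hρ (p := Tt.toFun y) ha hu le_rfl (by rw [norm_sub_rev]; exact huy)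
  refine ⟨j.2, u, hu, T y, hX, ?_⟩
  have e1 : u - T y = (u - Tt.toFun y) + (Tt.toFun y - zt ρ w a) -
      (g.toFun y - zt ρ w a) + (g.toFun y - T y) := by abel
  have e2 : (6:ℝ) / 2 ^ j.1.1 = 6 * (1 / 2 ^ j.1.1) := by ring
  have e3 : (1:ℝ) / 64 / 2 ^ a.1.1 = 1 / 64 * (1 / 2 ^ a.1.1) := by ring
  rw [e2, two_st, e1]
  rw [e3, h2s] at huy
  rw [h2s] at hsz
  rw [← cB_eq] at ha
  rw [mem_closedBall, dist_eq_norm] at ha hga
  have n1 := norm_add_le ((u - Tt.toFun y) + (Tt.toFun y - zt ρ w a) -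
      (g.toFun y - zt ρ w a)) (g.toFun y - T y)
  have n2 := norm_sub_le ((u - Tt.toFun y) + (Tt.toFun y - zt ρ w a))
    (g.toFun y - zt ρ w a)
  have n3 := norm_add_le (u - Tt.toFun y) (Tt.toFun y - zt ρ w a)
  linarith [st_pos j, st_pos a]

/-- the size of the tile of `Tt y` -/
theorem TP.size {y : V} (hy : y ∈ Λ) {t : TI ρ w} (ht : Tt.toFun y ∈ dyc w t.1.1 t.1.2) :
    1 / 2 ^ t.1.1 ≤ s (T y) / 50 := by
  have h1 := (S.tile_iff hy t).1 ht
  have h2 := S.near y hy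
  have h3 := st_le S.hρs t
  have h4 := S.lips (zt ρ w t) (T y)
  rw [mem_closedBall, dist_eq_norm] at h1
  have h5 : ‖zt ρ w t - T y‖ ≤ st ρ w t + s (T y) / 16 := by
    have e1 : zt ρ w t - T y = (g.toFun y - T y) - (g.toFun y - zt ρ w t) := by abel
    rw [e1]
    exact (norm_sub_le _ _).trans (by linarith)
  have h6 : 0 ≤ s (T y) := by linarith [norm_nonneg (g.toFun y - T y)]
  rw [two_st]
  linarith

/-- closeness of `Tt` and `T` -/
theorem TP.close {y : V} (hy : y ∈ Λ) : ‖Tt.toFun y - T y‖ ≤ s (T y) / 8 := by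
  obtain ⟨t, ht⟩ := S.exists_tile' (g.mapsTo hy)
  have h1 := (S.tt.cube y hy t).2 ht
  have h2 := S.size hy ((S.tile_iff hy t).2 ht)
  rw [two_st] at h2
  have h3 := S.near y hy
  rw [mem_closedBall, dist_eq_norm] at h1 ht
  have e1 : Tt.toFun y - T y = (Tt.toFun y - zt ρ w t) - (g.toFun y - zt ρ w t) +
      (g.toFun y - T y) := by abel
  rw [e1]
  have n1 := norm_add_le ((Tt.toFun y - zt ρ w t) - (g.toFun y - zt ρ w t)) (g.toFun y - T y)
  have n2 := norm_sub_le (Tt.toFun y - zt ρ w t) (g.toFun y - zt ρ w t)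
  have h6 : 0 ≤ s (T y) := by linarith [norm_nonneg (g.toFun y - T y)]
  linarith

end tp

end Vale.Agent.P073.H851
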