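import Vale.Agent.P073.H851.TP
import Vale.Agent.P073.H696.BSpec
import Vale.Agent.P073.H239.GC

/-!
# P073, [TGT], part C: from `TP` to the structure `H696.Tgt`
-/

open Set Metric Topology Filter Matrix MeasureTheory
open scoped ENNReal

namespace Vale.Agent.P073.H851

open _root_.P073
open _root_.P073.Net (dyc dyo IsTile SizeFn)
open Vale.Agent.P073.St (V)
open Vale.Agent.P073.AB (Idx)
open Vale.Agent.P073.H471 (Cubes TI zt st cB_eq B_eq cubes_tiles st_pos)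
open Vale.Agent.P073.H304 (Nb)
open Vale.Agent.P073.H696 (Tgt)

section sets

variable {ρ s : V → ℝ} {Λ X : Set V}

/-- the active zone -/
def ActS (Λ : Set V) (ρ : V → ℝ) (X : Set V) (s : V → ℝ) (g : V → V) : Set V :=
  {y | y ∈ Λ ∧ ∃ t ∈ NearX X s (zt ρ 0), g y ∈ closedBall (zt ρ 0 t) (st ρ 0 t)}

/-- the closed cores -/
def CoreS (Λ : Set V) (ρ : V → ℝ) (X : Set V) (s : V → ℝ) (g : V → V) (c : TI ρ 0 → V) (κ : ℝ) :
    Set V := {y | y ∈ Λ ∧ ∃ t ∈ NearX X s (zt ρ 0), ‖g y - c t‖ ≤ κ * st ρ 0 t}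

/-- the open cores -/
def CoreT (Λ : Set V) (ρ : V → ℝ) (X : Set V) (s : V → ℝ) (g : V → V) (c : TI ρ 0 → V) (κ : ℝ) :
    Set V := {y | y ∈ Λ ∧ ∃ t ∈ NearX X s (zt ρ 0), ‖g y - c t‖ < κ * st ρ 0 t}

end sets

variable {Λ : Set V} {ρ s : V → ℝ} {B : Type} {X : Set V} {N : ℕ} {η κ₀ : ℝ} {T : V → V}
  {c : TI ρ (0 : V) → V} {Mi : TI ρ (0 : V) → M3} {bi : TI ρ (0 : V) → V} {g : ConHomeo Λ Λ}
  {A : B → M3} {b : B → V} {D : B → Set V} {r0 L : B → ℝ} {v : V} {Cg : ℝ}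
  {κ : TI ρ (0 : V) → B} {e : TI ρ (0 : V) → ℝ} {n : TI ρ (0 : V) → ℕ}
  {wd : TI ρ (0 : V) → Fin 3 → ℤ} {Ξ : TI ρ (0 : V) → V → V} {Tt : ConHomeo Λ Λ}

section tgt

variable (S : TP N κ₀ Λ (H696.V0 Λ A b D) X T s η c Mi bi g A b D r0 L v Cg κ e n wd Ξ Tt)

include S

theorem TP.cell_int (hA : ∀ k, (A k).det ≠ 0) (t : TI ρ (0 : V)) :
    dyc v (n t) (wd t) ⊆ interior (D (κ t)) := by
  intro x hx
  have hc := S.tt.cell t
  have hy := hc.mem x hx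
  have h1 := hc.core x hx
  have hσ := st_pos t
  have h0 : A (κ t) *ᵥ x + b (κ t) ∉ H696.V0 Λ A b D := by
    intro h0
    have h2 := S.core _ hy h0 t
    have h3 : kp N * st ρ 0 t ≤ κ₀ * st ρ 0 t :=
      mul_le_mul_of_nonneg_right (by linarith [S.κN, kp_pos N]) hσ.le
    linarith [mul_pos (kp_pos N) hσ]
  have h2 : ∃ k, ∃ x' ∈ interior (D k), A k *ᵥ x' + b k = A (κ t) *ᵥ x + b (κ t) := by
    by_contra hn
    push Not at hn
    exact h0 ⟨hy, hn⟩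
  obtain ⟨k, x', hx', h3⟩ := h2
  have hk : k = κ t := by
    by_contra hne
    exact S.kept.disj k (κ t) hne x' (interior_subset hx') x (hc.sub hx) h3
  subst hk
  rwa [← mulVec_inj (hA _) (add_right_cancel h3)]

theorem TP.core_closed {κ' : ℝ} (hκ' : κ' ≤ κ₀) :
    IsClosed (CoreS Λ ρ X s g.toFun c κ' ∪ Λᶜ) := by
  have hBΛ : ∀ t : TI ρ (0 : V), closedBall (c t) (κ' * st ρ 0 t) ⊆
      closedBall (zt ρ 0 t) (st ρ 0 t) := by
    intro t y hy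
    rw [mem_closedBall, dist_eq_norm] at hy ⊢
    have e1 : y - zt ρ 0 t = (y - c t) + (c t - zt ρ 0 t) := by abel
    rw [e1]
    refine (norm_add_le _ _).trans ?_
    have h1 := S.cz t
    have h2 : κ' * st ρ 0 t ≤ 1 / 2 * st ρ 0 t :=
      mul_le_mul_of_nonneg_right (by linarith [S.κ1]) (st_pos t).le
    linarith
  have hW := cubes_tiles S.hρ (0 : V)
  have heq : CoreS Λ ρ X s g.toFun c κ' =
      ⋃ t : {t // t ∈ NearX X s (zt ρ (0 : V))}, g.invFun '' closedBall (c t.1) (κ' * st ρ 0 t.1) := by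
    ext y
    rw [mem_iUnion]
    constructor
    · rintro ⟨hy, t, ht, h⟩
      exact ⟨⟨t, ht⟩, g.toFun y, by rwa [mem_closedBall, dist_eq_norm], g.left_inv hy⟩
    · rintro ⟨⟨t, ht⟩, u, hu, rfl⟩
      have huΛ := hW.sub t (hBΛ t hu)
      refine ⟨g.mapsTo_inv huΛ, t, ht, ?_⟩
      rw [g.right_inv huΛ]
      rwa [mem_closedBall, dist_eq_norm] at hu
  rw [heq]
  refine isClosed_lf S.ΛO (fun t => ?_) fun y hy => ?_
  · exact ((isCompact_closedBall _ _).image_of_continuousOn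
      (g.cont_inv.mono ((hBΛ t.1).trans (hW.sub t.1)))).isClosed
  · obtain ⟨U, hU, hf⟩ := hW.fin _ (g.mapsTo hy)
    have hc : ContinuousAt g.toFun y := g.cont.continuousAt (S.ΛO.mem_nhds hy)
    refine ⟨g.toFun ⁻¹' U, hc hU, ?_⟩
    refine Set.Finite.subset (hf.preimage Subtype.val_injective.injOn) ?_
    rintro t ⟨_, ⟨u, hu, rfl⟩, hu2⟩
    rw [mem_preimage, g.right_inv (hW.sub t.1 (hBΛ t.1 hu))] at hu2
    exact ⟨u, hBΛ t.1 hu, hu2⟩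

theorem TP.core_open (κ' : ℝ) : IsOpen (CoreT Λ ρ X s g.toFun c κ') := by
  have heq : CoreT Λ ρ X s g.toFun c κ' =
      ⋃ t ∈ NearX X s (zt ρ (0 : V)), Λ ∩ g.toFun ⁻¹' ball (c t) (κ' * st ρ 0 t) := by
    ext y
    simp only [mem_iUnion, CoreT, mem_ofPred_eq, mem_inter_iff, mem_preimage, mem_ball,
      dist_eq_norm, exists_prop]
    constructor
    · rintro ⟨hy, t, ht, h⟩; exact ⟨t, ht, hy, h⟩
    · rintro ⟨t, ht, hy, h⟩; exact ⟨hy, t, ht, h⟩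
  rw [heq]
  exact isOpen_biUnion fun t _ => g.cont.isOpen_inter_preimage S.ΛO isOpen_ball

/-- the collapsed zone -/
theorem TP.act_sub {y : V} (hy : y ∈ ActS Λ ρ X s g.toFun) :
    (y ∈ Λ ∧ T y ∈ X) ∨ (y ∈ Λ ∧ T y ∉ X ∧ ∃ x' ∈ X, ‖T y - x'‖ ≤ s (T y)) := by
  obtain ⟨hyΛ, t, ht, h⟩ := hy
  by_cases hX : T y ∈ X
  · exact Or.inl ⟨hyΛ, hX⟩
  · refine Or.inr ⟨hyΛ, hX, ?_⟩
    exact near_of_active S.lips (S.near y hyΛ) (by linarith [st_le S.hρs t, st_pos t]) ht h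

theorem TP.coreN_sub {y : V} (hy : y ∈ CoreT Λ ρ X s g.toFun c κ₀) :
    y ∈ Λ ∧ T y ∉ X ∧ ∃ x' ∈ X, ‖T y - x'‖ ≤ s (T y) := by
  obtain ⟨hyΛ, t, ht, h⟩ := hy
  refine ⟨hyΛ, S.core_X hyΛ h.le, ?_⟩
  exact near_of_active S.lips (S.near y hyΛ) (by linarith [st_le S.hρs t, st_pos t]) ht
    (S.core_mem h.le)

/-- **[TGT]**: the structure `Tgt`. `Zo`: an exceptional zone where `T` is not near an isometry. -/
theorem TP.tgt {ε ε₁ : ℝ} {Lc : M3 → ℝ} {α W : B → ℝ≥0∞} {δt : V → ℝ} [Nonempty B]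
    (hA : ∀ k, (A k).det ≠ 0)
    (hDΛ : ∀ k, (fun x => A k *ᵥ x + b k) '' D k ⊆ Λ) {Zo : Set V} (hZo : Zo ⊆ Λ)
    (hoff : ∀ y ∈ Λ, T y ∉ X → y ∉ Zo →
      ∀ᶠ y' in 𝓝 y, ‖(T y' - T y) - (y' - y)‖ ≤ ε * ‖y' - y‖)
    (hε1 : ∀ y ∈ Λ, ‖T y - y‖ ≤ ε₁)
    (hs : ∀ y ∈ Λ, s (T y) ≤ δt y ∧ s (T y) ≤ ε) (hε2 : ε₁ + ε / 8 ≤ ε)
    (hr0 : ∀ k, 0 < r0 k ∧ r0 k ≤ 1) (hLc1 : ∀ k, 28 * 4 ^ N * Cg * L k ≤ Lc (A k))
    (hLc2 : ∀ k, 2 * 2 ^ N / r0 k ≤ Lc (A k))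
    (hcost : ∑' k, α k * volume {x | x ∈ D k ∧ A k *ᵥ x + b k ∈ ActS Λ ρ X s g.toFun ∪ Zo} ≤
      ENNReal.ofReal ε)
    (hcostC : ∑' k, W k * volume {x | x ∈ D k ∧ A k *ᵥ x + b k ∈ CoreT Λ ρ X s g.toFun c κ₀} ≤
      ENNReal.ofReal ε) :
    ∃ (κ' : Idx → B) (n' : Idx → ℕ) (w' : Idx → Fin 3 → ℤ),
      Tgt (28 * 2 ^ N * Cg) Lc Λ ε η A b D α W δt v ρ (onT ρ 0 X) (nearT ρ 0 X s) κ' n' w'
        (ActS Λ ρ X s g.toFun ∪ Zo) (CoreS Λ ρ X s g.toFun c (kp N)) (CoreT Λ ρ X s g.toFun c κ₀)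
        Tt := by
  classical
  have hκp := S.κpos
  have hkp := kp_pos N
  obtain ⟨κ', hκ'⟩ : ∃ κ' : Idx → B, ∀ t : TI ρ (0 : V), κ' t.1 = κ t :=
    ⟨fun t => if h : IsTile ρ 0 t.1 t.2 then κ ⟨t, h⟩ else Classical.arbitrary B, fun t =>
      dif_pos t.2⟩
  obtain ⟨n', hn'⟩ : ∃ n' : Idx → ℕ, ∀ t : TI ρ (0 : V), n' t.1 = n t :=
    ⟨fun t => if h : IsTile ρ 0 t.1 t.2 then n ⟨t, h⟩ else 0, fun t => dif_pos t.2⟩
  obtain ⟨w', hw'⟩ : ∃ w' : Idx → Fin 3 → ℤ, ∀ t : TI ρ (0 : V), w' t.1 = wd t :=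
    ⟨fun t => if h : IsTile ρ 0 t.1 t.2 then wd ⟨t, h⟩ else 0, fun t => dif_pos t.2⟩
  have hs0 : ∀ y ∈ Λ, 0 ≤ s (T y) := fun y hy => by
    linarith [norm_nonneg (g.toFun y - T y), S.near y hy]
  refine ⟨κ', n', w', ?_⟩
  refine
    { size := S.hρ
      tile := ?_
      sub := onT_sub S.hρs
      nbr := ?_
      fine := ?_
      close := ?_
      cell := ?_
      diag := ?_
      fac := ?_
      szC := ?_
      mid := ?_
      V0 := ?_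
      V0n := ?_
      lip0 := ?_
      lip := ?_
      act := ?_
      coreC' := S.core_closed (by linarith [S.κN])
      coreO := S.core_open κ₀
      core := ⟨?_, ?_, union_subset (fun y hy => hy.1) hZo⟩
      coreV0 := ?_
      coreC := ?_
      off := ?_
      cost := hcost
      costC := hcostC }
  · -- tile
    rintro _ ⟨t, -, rfl⟩
    exact t.2
  · -- nbr
    rintro t ht t' ht' ⟨u, hu, u', hu', huu⟩
    exact ⟨⟨t', ht'⟩, mem_near S.hρs S.lips ht hu' huu (by rw [cB_eq]; exact hu), rfl⟩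
  · -- fine
    intro t ht y hy h
    have h1 := S.size hy (t := ⟨t, ht⟩) h
    have h2 := hs0 y hy
    linarith [(hs y hy).1]
  · -- close
    intro y hy
    have e1 : Tt.toFun y - y = (Tt.toFun y - T y) + (T y - y) := by abel
    rw [e1]
    refine (norm_add_le _ _).trans ?_
    linarith [S.close hy, hε1 y hy, (hs y hy).2]
  · -- cell
    rintro _ ⟨t, ht, rfl⟩
    rw [hκ', hn', hw']
    exact S.cell_int hA t
  · -- diag
    rintro _ ⟨t, ht, rfl⟩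
    rw [hκ', hn', hw']
    refine ⟨![e t, 1, 1], fun j => ?_, fun x hx j => ?_⟩
    · fin_cases j
      · exact S.tt.sign t
      · exact Or.inl rfl
      · exact Or.inl rfl
    · rw [S.tt.diag t ht x hx, Pi.add_apply, Pi.smul_apply, SS_mulVec_apply, smul_eq_mul,
        Pi.sub_apply]
      have e1 : zt ρ 0 t j = H73.ctr 0 t.1.1 t.1.2 j := rfl
      have e2 : Net.ctr v (n t) (wd t) j = H73.ctr v (n t) (wd t) j := rfl
      rw [e1, e2]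
      unfold st Net.hs
      ring
  · -- fac
    rintro _ ⟨t, ht, rfl⟩
    rw [hκ', hn']
    refine le_trans ?_ (hLc2 (κ t))
    have h1 := (S.tt.cell t).ge
    have h2 := (hr0 (κ t)).1
    unfold st Net.hs at h1
    have p1 : (0:ℝ) < 2 ^ t.1.1 := by positivity
    have p2 : (0:ℝ) < 2 ^ n t := by positivity
    rw [div_le_div_iff₀ p1 h2]
    have h3 : r0 (κ t) * (1 / 2 / 2 ^ t.1.1) * (2 * (2 ^ t.1.1 * 2 ^ n t)) ≤
        2 * (2 ^ N * (1 / 2 / 2 ^ n t)) * (2 * (2 ^ t.1.1 * 2 ^ n t)) := by gcongr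
    have e1 : r0 (κ t) * (1 / 2 / 2 ^ t.1.1) * (2 * (2 ^ t.1.1 * 2 ^ n t)) =
        2 ^ n t * r0 (κ t) := by field_simp
    have e2 : (2:ℝ) * (2 ^ N * (1 / 2 / 2 ^ n t)) * (2 * (2 ^ t.1.1 * 2 ^ n t)) =
        2 * 2 ^ N * 2 ^ t.1.1 := by field_simp
    rw [e1, e2] at h3
    exact h3
  · -- szC
    rintro _ ⟨t, ht, rfl⟩
    rw [hn']
    have h1 := (S.tt.cell t).le
    have h2 := (hr0 (κ t)).2
    unfold st Net.hs at h1
    have p1 : (0:ℝ) < 2 ^ t.1.1 := by positivity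
    have p2 : (0:ℝ) < 2 ^ n t := by positivity
    have p3 : (1:ℝ) ≤ 2 ^ N := one_le_pow₀ (by norm_num)
    have h3 : (1:ℝ) / 2 / 2 ^ n t ≤ 1 / 2 / 2 ^ t.1.1 := by
      calc (1:ℝ) / 2 / 2 ^ n t = 1 * (1 / 2 / 2 ^ n t) := by ring
        _ ≤ 2 ^ N * (1 / 2 / 2 ^ n t) := by gcongr
        _ ≤ r0 (κ t) * (1 / 2 / 2 ^ t.1.1) := h1
        _ ≤ 1 * (1 / 2 / 2 ^ t.1.1) := by gcongr
        _ = _ := by ring
    rw [div_le_div_iff_of_pos_left (by norm_num) p2 p1] at h3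
    exact (pow_le_pow_iff_right₀ (by norm_num : (1:ℝ) < 2)).1 h3
  · -- mid
    rintro _ ⟨t, ht, rfl⟩ y hy h
    rw [hκ', hn', hw']
    refine S.tt.mid t ht y hy ?_
    unfold H304.mid at h
    rw [mem_closedBall, dist_eq_norm] at h
    refine h.trans (le_of_eq ?_)
    show _ = (1 - η) * st ρ 0 t
    unfold st
    ring
  · -- V0
    intro y hy
    have hyΛ : y ∈ Λ := hy.1
    obtain ⟨t, ht⟩ := S.exists_tile' (g.mapsTo hyΛ)
    have hX := S.V0X y hyΛ hy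
    have h1 := S.near_of_X hyΛ hX ht
    have h2 := onT_near S.hρs h1
    have h3 := S.tt.V0 y hyΛ hy t (Or.inl h2)
    have h4 := (S.tt.cube y hyΛ t).2 ht
    rw [mem_closedBall, dist_eq_norm] at h4
    obtain ⟨x, hx, hx2⟩ := exists_frontier (st_pos t) h4 h3.le
    refine ⟨t.1, h1, x, ?_, hx2.trans ?_⟩
    · rwa [cB_eq] at hx
    · have e1 : η / 2 ^ t.1.1 = η * (1 / 2 ^ t.1.1) := by ring
      rw [e1, two_st]
      nlinarith [st_pos t, S.η0]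
  · -- V0n
    rintro y hy t t' ht hTt ht' ⟨u, hu, huy⟩
    exact S.V0_ring hy.1 hy (a := ⟨t, ht⟩) (j := ⟨t', ht'⟩) hTt hu huy
  · -- lip0
    intro y hy hyC
    refine S.tt.lip0 y hy fun t ht => ?_
    by_contra hle
    push Not at hle
    exact hyC ⟨hy, t, ht, hle⟩
  · -- lip
    intro k x hx
    exact (S.locLip (hDΛ k ⟨x, hx, rfl⟩) ⟨x, hx, rfl⟩).mono (hLc1 k)
  · -- act
    rintro y hy _ ⟨t, ht, rfl⟩ h
    exact Or.inl ⟨hy, t, ht, (S.tile_iff hy t).1 h⟩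
  · -- core
    rintro y ⟨hy, t, ht, h⟩
    refine ⟨hy, t, ht, h.trans_lt ?_⟩
    exact mul_lt_mul_of_pos_right (by linarith [S.κN]) (st_pos t)
  · rintro y ⟨hy, t, ht, h⟩
    exact Or.inl ⟨hy, t, ht, S.core_mem h.le⟩
  · -- coreV0
    rw [disjoint_left]
    rintro y ⟨hy, t, ht, h⟩ h0
    have h2 := S.core y hy h0 t
    have h3 : kp N * st ρ 0 t ≤ κ₀ * st ρ 0 t :=
      mul_le_mul_of_nonneg_right (by linarith [S.κN]) (st_pos t).le
    linarith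
  · -- coreC
    rintro _ ⟨t, ht, rfl⟩
    rw [hκ', hn', hw']
    rintro _ ⟨x, hx, rfl⟩
    refine ⟨(S.tt.cell t).mem x hx, t, ht, ?_⟩
    have h1 := (S.tt.cell t).core x hx
    have h2 := mul_pos hkp (st_pos t)
    show ‖g.toFun (A (κ t) *ᵥ x + b (κ t)) - c t‖ ≤ _
    linarith
  · -- off
    intro y hy hyA
    rw [mem_union, not_or] at hyA
    have hn : ∀ t ∈ NearX X s (zt ρ (0 : V)), g.toFun y ∉ closedBall (zt ρ 0 t) (st ρ 0 t) :=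
      fun t ht h => hyA.1 ⟨hy, t, ht, h⟩
    obtain ⟨hX, h1⟩ := S.far_point hy hn
    filter_upwards [S.eventually_far hy hn, hoff y hy hX hyA.2] with y' h3 h4
    obtain ⟨-, h5⟩ := S.far_point h3.1 h3.2
    rw [h5, h1]
    exact h4

end tgt

end Vale.Agent.P073.H851
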