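import Vale.Agent.P073.H851.AlignF
import Vale.Agent.P073.H239.PlateD
import Vale.Agent.P073.H239.Sharp

/-!
# P073, block B10, [TGT-P], part 2: the target near the plates

* `exists_tp_all`: the total target homeomorphism for every approximant of the collapse; the size of
  the tiles may be chosen after the adapted function `s`;
* `apx_plates`: squeeze of the plates after an approximant;
* `exists_gen`: constant tile size near a compact set;
* `TP.deep`: deep sets.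
-/

open Set Metric Topology Filter WithLp MeasureTheory Matrix
open scoped ENNReal

namespace Vale.Agent.P073.H851

open _root_.P073
open _root_.P073.Net (dyc dyo IsTile SizeFn Adm)
open Vale.Agent.P073.St (V)
open Vale.Agent.P073.AB (Idx)
open Vale.Agent.P073.H471 (Cubes TI zt st cB_eq B_eq cubes_tiles st_pos)
open Vale.Agent.P073.H726 (LBOn)
open Vale.Agent.P073.H239 (GC AdaptedN Approx Deep PFam fam kks Num bx dd DD fam_off)
open Vale.Agent.P073.H819 (AlignN)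

/-! ### The total target homeomorphism for all approximants -/

/-- **[TGT-GC]**, all approximants: `s` first, then `cρ`, then `c`, `M`, `b` and the closeness `δ₁`,
then the approximant `g`. -/
theorem exists_tp_all {B : Type} {Λ X : Set V} {T : V → V} {A : B → M3} {b : B → V}
    {D : B → Set V} {N : ℕ} {C₀ m₀ : ℝ} (hGC : GC N C₀ m₀ Λ (H696.V0 Λ A b D) X T) (hN : 1 ≤ N)
    (hm : m₀ ≤ 2) {N' : ℕ} (hN' : 8 ≤ N') (hκ : 2 * kp N' ≤ 1 / (14 * (N:ℝ)))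
    (hA : ∀ k, (A k).det ≠ 0) (hD : ∀ k, IsCompact (D k))
    (hdis : ∀ k l, k ≠ l → Disjoint ((fun x => A k *ᵥ x + b k) '' D k)
      ((fun x => A l *ᵥ x + b l) '' D l))
    (hlf : ∀ C ⊆ Λ, IsCompact C → {k | ((fun x => A k *ᵥ x + b k) '' D k ∩ C).Nonempty}.Finite)
    {wt : B → ℝ≥0∞} (hwt : ∀ k, wt k ≠ ⊤) {δ : V → ℝ} (hδ : LBOn Λ δ) {ε₀ : ℝ≥0∞}
    (hε₀ : ε₀ ≠ 0) {r0 L : M3 → ℝ} (hrL : ConstM r0 L) (v : V) :
    ∃ s : V → ℝ, AdaptedN N Λ X T δ (nuS A b D wt) ε₀ s ∧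
      ∀ (η ε₁ cρ Cg : ℝ), 0 < η → η < 1 / 2 → 0 < ε₁ → 0 < cρ → cρ ≤ 1 → 2 * (C₀ + ε₁) ≤ Cg →
        1 ≤ Cg → ∀ ρ : V → ℝ, (∀ y, ρ y = min (s y / 64) cρ) →
        ∃ (c : TI ρ (0 : V) → V) (Mi : TI ρ (0 : V) → M3) (bi : TI ρ (0 : V) → V) (δ₁ : V → ℝ),
          LBOn Λ δ₁ ∧ ∀ g : ConHomeo Λ Λ, IsApx C₀ Λ X T δ₁ ε₁ g →
            AlignN N C₀ m₀ Λ (H696.V0 Λ A b D) X T s (zt ρ 0) (st ρ 0) (fun _ => η) ε₁ c Mi bi
              g.toFun ∧
            ∃ (κ : TI ρ (0 : V) → B) (e : TI ρ (0 : V) → ℝ) (n : TI ρ (0 : V) → ℕ)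
              (wd : TI ρ (0 : V) → Fin 3 → ℤ) (Ξ : TI ρ (0 : V) → V → V) (Tt : ConHomeo Λ Λ),
              TP N' (1 / (14 * (N:ℝ))) Λ (H696.V0 Λ A b D) X T s η c Mi bi g A b D
                (fun k => r0 (A k)) (fun k => L (A k)) v Cg κ e n wd Ξ Tt := by
  have hNr : (1:ℝ) ≤ N := by exact_mod_cast hN
  have hκ0 : (0:ℝ) < 1 / (14 * (N:ℝ)) := by positivity
  have hκ1 : (1:ℝ) / (14 * (N:ℝ)) ≤ 1 / 14 := by
    apply one_div_le_one_div_of_le (by norm_num)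
    linarith
  obtain ⟨s, Ad⟩ := H819.gc_exists_adapted hGC hδ (nuS_lt_top (A := A) (b := b) hD hwt hlf) hε₀
  refine ⟨s, Ad, ?_⟩
  intro η ε₁ cρ Cg hη0 hη1 hε₁ hcρ hcρ1 hCg hCg1 ρ hρd'
  have hρd : ρ = fun y => min (s y / 64) cρ := funext hρd'
  have hρ : SizeFn Λ ρ := by rw [hρd]; exact sizeFn_of_lip Ad.lip Ad.pos Ad.off hcρ hcρ1
  have hρs : ∀ y, ρ y ≤ s y / 64 := fun y => by rw [hρd]; exact min_le_left _ _
  have hσ16 : ∀ i : TI ρ (0 : V), st ρ 0 i ≤ s (zt ρ 0 i) / 16 := fun i => by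
    linarith [st_le hρs i, st_pos i]
  obtain ⟨c, Mi, bi, δ₁, hδ₁, AN'⟩ := gc_align_all hGC hN hm Ad (cubes_tiles hρ (0 : V)) hσ16
    (k := fun _ => η) (fun _ => hη0) (ε := ε₁) hε₁
  refine ⟨c, Mi, bi, δ₁, hδ₁, fun g hg' => ?_⟩
  have AN := AN' g hg'
  have hκ' : ∀ t : ℝ, t / (56 * (N:ℝ)) = 1 / (14 * (N:ℝ)) / 4 * t := fun t => by
    field_simp
    ring
  have hkept := kept_of (A := A) (b := b) hGC.opn hD hdis hlf
  have hC0 : 0 ≤ C₀ + ε₁ := by linarith [hGC.C0]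
  have hg : ∀ y y', ‖g.toFun y - g.toFun y'‖ ≤ Cg * ‖y - y'‖ := by
    intro y y'
    refine (lip_sup_of_eu hC0 AN.lip y y').trans ?_
    gcongr
  obtain ⟨κ, e, n, wd, Ξ, Tt, HT⟩ := exists_ttot (N := N') hN' hGC.opn
    (AN.toAlignM.mono (fun i => st_pos i) (by linarith [kp_pos N'])) (cubes_tiles hρ (0 : V))
    (fun i => st_le_one i) (fun _ => hη0) (fun _ => hη1) hkept hA
    (r0 := fun k => r0 (A k)) (L := fun k => L (A k))
    (fun i k => hrL.loc (A k) (hA k) (Mi i) (AN.bd i)) hCg1 hg v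
    (NearX X s (zt ρ (0 : V)))
  exact ⟨AN, κ, e, n, wd, Ξ, Tt,
    { hρ := hρ
      hρs := hρs
      lips := Ad.lip
      η0 := hη0
      η1 := hη1
      tt := HT
      ΛO := hGC.opn
      κN := hκ
      κ1 := by linarith
      core := AN.core
      hole := AN.hole
      cz := AN.cz
      near := AN.near
      near' := fun y hy i hi => (AN.near' y hy i hi).trans (hκ' _).le
      far := AN.far
      V0X := hGC.V0X
      kept := hkept
      L1 := fun k => hrL.one (A k)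
      Cg1 := hCg1 }⟩

/-! ### The plates -/

section plates

variable {N : ℕ} {C m : ℝ} {Λ V₀ X : Set V} {T : V → V}
  {ι : Type*} {bp : ℝ} {l : ι → Fin 3} {lo hi : ι → V} {R : ι → ℝ}

theorem IsApx.mono {δ δ' : V → ℝ} {ε ε' : ℝ} {g : ConHomeo Λ Λ} (h : IsApx C Λ X T δ ε g)
    (hm : MapsTo T Λ Λ) (hδ : ∀ y ∈ Λ, δ y ≤ δ' y) (hε : ε ≤ ε') : IsApx C Λ X T δ' ε' g where
  cont := h.cont
  off := h.off
  close y hy := (h.close y hy).trans (hδ _ (hm hy))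
  far y hy hX := h.far y hy fun x hx => (hδ _ (hm hy)).trans_lt (hX x hx)
  lip y y' := (h.lip y y').trans (mul_le_mul_of_nonneg_right (by linarith) (norm_nonneg _))

/-- composition of approximants -/
theorem IsApx.comp {C₀ : ℝ} {X₀ : Set V} {T₀ : V → V} {δ : V → ℝ} {ε₀ ε c : ℝ}
    {g g₀ : ConHomeo Λ Λ} (hC₀ : 0 ≤ C₀) (hε₀ : 0 ≤ ε₀)
    (hT : MapsTo T Λ Λ) (hm₀ : MapsTo T₀ Λ Λ)
    (hlip₀ : ∀ y y', ‖toLp 2 (T₀ y - T₀ y')‖ ≤ C₀ * ‖toLp 2 (y - y')‖)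
    (hδ0 : ∀ y ∈ Λ, 0 < δ y) (hc : 4 * (C₀ + ε₀) * c ≤ 1) (hc0 : 0 ≤ c)
    (h₀ : IsApx C₀ Λ X₀ T₀ (fun x => 1 / 2 * δ x) ε₀ g₀)
    (h : IsApx C Λ X T (fun x => c * δ (T₀ x)) ε g) {ε' : ℝ}
    (hε' : (C₀ + ε₀) * (C + ε) ≤ C₀ * C + ε') :
    IsApx (C₀ * C) Λ (T₀ '' X ∪ X₀) (fun y => T₀ (T y)) δ ε' (g.trans g₀) where
  cont := h₀.cont.comp h.cont
  off y hy := by
    show g₀.toFun (g.toFun y) = y
    rw [h.off y hy, h₀.off y hy]
  close y hy := by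
    show ‖g₀.toFun (g.toFun y) - T₀ (T y)‖ ≤ δ (T₀ (T y))
    have hδp := hδ0 _ (hm₀ (hT hy))
    have e1 := h₀.close (T y) (hT hy)
    have e2 := (H239.norm_le_toLp _).trans (h₀.lip (g.toFun y) (T y))
    have e3 := H239.norm_toLp_le (g.toFun y - T y)
    have e4 := h.close y hy
    have e5 : (C₀ + ε₀) * ‖toLp 2 (g.toFun y - T y)‖ ≤ (C₀ + ε₀) * (2 * (c * δ (T₀ (T y)))) := by
      gcongr
      linarith
    have e6 : (C₀ + ε₀) * (2 * (c * δ (T₀ (T y)))) ≤ 1 / 2 * δ (T₀ (T y)) := by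
      nlinarith
    have e7 : g₀.toFun (g.toFun y) - T₀ (T y) =
        (g₀.toFun (g.toFun y) - g₀.toFun (T y)) + (g₀.toFun (T y) - T₀ (T y)) := by abel
    rw [e7]
    refine (norm_add_le _ _).trans ?_
    linarith
  far y hy hX := by
    have hδp := hδ0 _ (hm₀ (hT hy))
    have e1 : g.toFun y = T y := by
      apply h.far y hy
      intro x hx
      by_contra hcon
      push Not at hcon
      have k1 := hX (T₀ x) (Or.inl ⟨x, hx, rfl⟩)
      have k2 := (H239.norm_le_toLp _).trans (hlip₀ (T y) x)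
      have k3 := H239.norm_toLp_le (T y - x)
      have k4 : C₀ * ‖toLp 2 (T y - x)‖ ≤ C₀ * (2 * (c * δ (T₀ (T y)))) := by
        gcongr
        linarith
      have k5 : C₀ * (2 * (c * δ (T₀ (T y)))) ≤ 1 / 2 * δ (T₀ (T y)) := by
        have k6 : 4 * C₀ * c ≤ 1 := by nlinarith [mul_nonneg hε₀ hc0]
        nlinarith
      linarith
    show g₀.toFun (g.toFun y) = T₀ (T y)
    rw [e1]
    apply h₀.far (T y) (hT hy)
    intro x hx
    have k1 := hX x (Or.inr hx)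
    linarith
  lip y y' := by
    show ‖toLp 2 (g₀.toFun (g.toFun y) - g₀.toFun (g.toFun y'))‖ ≤ _
    refine (h₀.lip _ _).trans ?_
    have k1 := h.lip y y'
    have k2 : (C₀ + ε₀) * ‖toLp 2 (g.toFun y - g.toFun y')‖ ≤
        (C₀ + ε₀) * ((C + ε) * ‖toLp 2 (y - y')‖) := by gcongr
    refine k2.trans ?_
    rw [← mul_assoc]
    gcongr

/-- the squeeze of the plates is an approximant of their collapse -/
theorem isApx_fam (F : PFam Λ bp l lo hi R) [Finite ι] (hΛ : IsOpen Λ) {δ : V → ℝ}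
    (hδ : LBOn Λ δ) {lam : ℝ} (hlam : 0 < lam) :
    ∃ κ : ι → ℝ, (∀ z, Num bp (R z) (κ z) ∧ 0 < κ z ∧ κ z * R z ≤ lam) ∧
      ∃ g : ConHomeo Λ Λ, g.toFun = fam l lo hi bp R κ ∧
        IsApx (1 + 3 * bp) Λ (kks lo hi R) (fam l lo hi bp R fun _ => 0) δ 0 g := by
  have hc : ∀ z, ∃ c > 0, ∀ x ∈ bx (lo z) (hi z) (R z), c ≤ δ x := fun z =>
    hδ.exists_le H239.isCompact_bx (F.sub z)
  choose c hc0 hcδ using hc
  obtain ⟨κ, hκd⟩ : ∃ κ : ι → ℝ, ∀ z, κ z = min (1 / 2) (min (c z) lam / R z) :=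
    ⟨_, fun _ => rfl⟩
  have hκ0 : ∀ z, 0 < κ z := fun z => by
    rw [hκd]
    exact lt_min (by norm_num) (div_pos (lt_min (hc0 z) hlam) (F.R0 z))
  have H : ∀ z, Num bp (R z) (κ z) := fun z =>
    ⟨F.b0, F.b1, F.R0 z, (hκ0 z).le, by rw [hκd]; exact (min_le_left _ _).trans_lt (by norm_num)⟩
  have hκR : ∀ z, κ z * R z ≤ min (c z) lam := fun z => by
    have := F.R0 z
    calc κ z * R z ≤ min (c z) lam / R z * R z := by
          rw [hκd]; gcongr; exact min_le_right _ _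
      _ = min (c z) lam := div_mul_cancel₀ _ this.ne'
  obtain ⟨h1, h2⟩ := F.approx_aux H hδ hcδ fun z => (hκR z).trans (min_le_left _ _)
  obtain ⟨g, hg⟩ := F.exists_homeo hΛ H hκ0
  refine ⟨κ, fun z => ⟨H z, hκ0 z, (hκR z).trans (min_le_right _ _)⟩, g, hg,
    ⟨by rw [hg]; exact F.cont H, fun y hy => by rw [hg]; exact F.off hy,
    fun y hy => by rw [hg]; exact h1 y hy, fun y hy hX => by rw [hg]; exact h2 y hy hX,
    fun y y' => ?_⟩⟩
  rw [hg, add_zero]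
  exact F.lip H y y'

/-- **the squeeze of the plates after an approximant `γ` of `T`** -/
theorem apx_plates (G : GC N C m Λ V₀ X T) (F : PFam Λ bp l lo hi R) [Finite ι] {δ : V → ℝ}
    (hδ : LBOn Λ δ) {ε lam : ℝ} (hε : 0 < ε) (hlam : 0 < lam) :
    ∃ (κ : ι → ℝ) (δ' : V → ℝ) (ε' : ℝ),
      (∀ z, Num bp (R z) (κ z) ∧ 0 < κ z ∧ κ z * R z ≤ lam) ∧ LBOn Λ δ' ∧ 0 < ε' ∧
      ∀ γ : ConHomeo Λ Λ, IsApx C Λ X T δ' ε' γ → ∃ g : ConHomeo Λ Λ,
        (∀ y, g.toFun y = fam l lo hi bp R κ (γ.toFun y)) ∧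
        IsApx ((1 + 3 * bp) * C) Λ (fam l lo hi bp R (fun _ => 0) '' X ∪ kks lo hi R)
          (fun y => fam l lo hi bp R (fun _ => 0) (T y)) δ ε g := by
  obtain ⟨κ, hκ, g₀, hg₀, H₀⟩ := isApx_fam F G.opn (H239.LBOn.cmul hδ (c := 1 / 2)
    (by norm_num)) hlam
  have hb := F.b0
  have hc0 : 0 < 1 / (4 * (1 + 3 * bp)) := by positivity
  have hcont : Continuous (fam l lo hi bp R fun _ => 0) := F.cont F.num0
  have hmaps : MapsTo (fam l lo hi bp R fun _ => 0) Λ Λ := F.maps F.num0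
  refine ⟨κ, fun x => 1 / (4 * (1 + 3 * bp)) * δ (fam l lo hi bp R (fun _ => 0) x),
    ε / (1 + 3 * bp), hκ, H239.LBOn.comp hδ hcont hmaps hc0, by positivity,
    fun γ hγ => ⟨γ.trans g₀, fun y => ?_, ?_⟩⟩
  · show g₀.toFun (γ.toFun y) = _
    rw [hg₀]
  · refine IsApx.comp (ε₀ := 0) (by positivity) le_rfl G.maps hmaps (F.lip F.num0)
      (fun y hy => hδ.pos hy) (le_of_eq ?_) hc0.le H₀ hγ (le_of_eq ?_)
    · field_simp
      ring
    · field_simp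
      ring

/-- in the full zone of a plate the squeeze keeps the tangential coordinates and the normal
coordinate is close to the plate -/
theorem fam_core (F : PFam Λ bp l lo hi R) {κ : ι → ℝ} (H : ∀ z, Num bp (R z) (κ z)) {z : ι}
    {u : V} (hu : |u (l z) - lo z (l z)| ≤ bp * (R z - dd (l z) (lo z) (hi z) u)) :
    u ∈ bx (lo z) (hi z) (R z) ∧ (∀ i, i ≠ l z → fam l lo hi bp R κ u i = u i) ∧
      |fam l lo hi bp R κ u (l z) - lo z (l z)| ≤ κ z * R z := by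
  have hb := F.b0
  have hb1 := F.b1
  have hd := H239.dd_nonneg (l := l z) (lo := lo z) (hi := hi z) u
  have h0 : 0 ≤ R z - dd (l z) (lo z) (hi z) u := by
    by_contra hn
    push Not at hn
    have := abs_nonneg (u (l z) - lo z (l z))
    nlinarith
  have hmem : u ∈ bx (lo z) (hi z) (R z) := by
    show DD (lo z) (hi z) u ≤ R z
    rw [H239.DD_eq (F.flat z)]
    refine max_le (hu.trans ?_) (by linarith)
    nlinarith
  refine ⟨hmem, fun i hi' => ?_, ?_⟩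
  · rw [F.fam_eq hmem]
    exact H239.pm_ne hi' u
  · have h1 := (F.fam_close H hmem).1
    have h2 : fam l lo hi bp R (fun _ => 0) u (l z) = lo z (l z) := by
      rw [F.fam_eq hmem, H239.pm_core (F.num0 z) hu, Function.update_self, zero_mul, add_zero]
    have h3 := norm_le_pi_norm (fam l lo hi bp R κ u - fam l lo hi bp R (fun _ => 0) u) (l z)
    rw [Pi.sub_apply, h2, Real.norm_eq_abs] at h3
    exact h3.trans h1

end plates

/-! ### Constant tile size -/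

/-- a cube of generation `m` on which `ρ` is constant `= 1 / 2 ^ m` is a tile -/
theorem isTile_of_const {ρ : V → ℝ} {w : V} {m : ℕ} {z : Fin 3 → ℤ} (h1 : ∀ y, ρ y ≤ 1 / 2 ^ m)
    (h2 : ∀ y ∈ dyc w m z, 1 / 2 ^ m ≤ ρ y) : IsTile ρ w m z := by
  refine ⟨h2, fun m' z' hm hsub hadm => ?_⟩
  have hne : (dyc w m z).Nonempty := by
    refine ⟨fun k => w k + z k / 2 ^ m, fun k => ⟨le_rfl, ?_⟩⟩
    have : (z k : ℝ) / 2 ^ m ≤ (z k + 1) / 2 ^ m := by gcongr; linarith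
    linarith
  obtain ⟨y, hy⟩ := hne
  have h3 := (hadm y (hsub hy)).trans (h1 y)
  rw [div_le_div_iff_of_pos_left one_pos (by positivity) (by positivity)] at h3
  have h4 := (pow_le_pow_iff_right₀ (by norm_num : (1:ℝ) < 2)).1 h3
  omega

/-- **constant tile size near a compact set** -/
theorem exists_gen {s : V → ℝ} (hs : ∀ x y, s x ≤ s y + ‖x - y‖) {K : Set V} (hK : IsCompact K)
    (hp : ∀ y ∈ K, 0 < s y) (m₀ : ℕ) :
    ∃ m₁, m₀ ≤ m₁ ∧ ∀ m, m₁ ≤ m → ∀ ρ : V → ℝ, (∀ y, ρ y = min (s y / 64) (1 / 2 ^ m)) →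
      ∀ (w : V) (z : Fin 3 → ℤ), (∃ y ∈ K, ∃ u ∈ dyc w m z, ‖u - y‖ ≤ 8 / 2 ^ m) →
        IsTile ρ w m z := by
  have hsc : Continuous s := H726.continuous_of_lip hs
  obtain ⟨s₀, hs₀, hs1⟩ : ∃ s₀ > 0, ∀ y ∈ K, s₀ ≤ s y := by
    rcases K.eq_empty_or_nonempty with rfl | hne
    · exact ⟨1, one_pos, fun y hy => absurd hy (notMem_empty y)⟩
    · obtain ⟨y₀, hy₀, h⟩ := hK.exists_isMinOn hne hsc.continuousOn
      exact ⟨s y₀, hp y₀ hy₀, fun y hy => h hy⟩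
  obtain ⟨m₁, hm₁⟩ : ∃ m₁ : ℕ, (1:ℝ) / 2 ^ m₁ ≤ s₀ / 73 := by
    obtain ⟨n, hn⟩ := exists_pow_lt_of_lt_one (show (0:ℝ) < s₀ / 73 by positivity)
      (show (1 / 2 : ℝ) < 1 by norm_num)
    exact ⟨n, by rw [← _root_.one_div_pow]; exact hn.le⟩
  refine ⟨max m₀ m₁, le_max_left _ _, fun m hm ρ hρ w z ⟨y, hy, u, hu, huy⟩ => ?_⟩
  have hm2 : (1:ℝ) / 2 ^ m ≤ s₀ / 73 := by
    refine le_trans ?_ hm₁
    gcongr
    · norm_num
    · exact (le_max_right _ _).trans hm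
  have hmp : (0:ℝ) < 1 / 2 ^ m := by positivity
  refine isTile_of_const (fun y' => by rw [hρ]; exact min_le_right _ _) fun y' hy' => ?_
  rw [hρ]
  refine le_min ?_ le_rfl
  have h1 := hs1 y hy
  have h2 := hs y y'
  have h3 : ‖u - y'‖ ≤ 1 / 2 ^ m := by
    rw [pi_norm_le_iff_of_nonneg hmp.le]
    intro k
    rw [Pi.sub_apply, Real.norm_eq_abs, abs_le]
    have a := hu k
    have b := hy' k
    have e : ((z k : ℝ) + 1) / 2 ^ m = z k / 2 ^ m + 1 / 2 ^ m := by ring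
    rw [e] at a b
    constructor <;> linarith [a.1, a.2, b.1, b.2]
  have h4 : ‖y - y'‖ ≤ 9 / 2 ^ m := by
    have e1 : y - y' = (u - y') - (u - y) := by abel
    rw [e1]
    refine (norm_sub_le _ _).trans ?_
    have e2 : (9:ℝ) / 2 ^ m = 1 / 2 ^ m + 8 / 2 ^ m := by ring
    linarith
  have e3 : (9:ℝ) / 2 ^ m = 9 * (1 / 2 ^ m) := by ring
  rw [e3] at h4
  linarith

/-! ### Deep sets -/

section deep

variable {Λ : Set V} {ρ s : V → ℝ} {w : V} {K : Type*} {V₀ X : Set V} {N : ℕ} {η κ₀ : ℝ}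
  {T : V → V} {c : TI ρ w → V} {Mi : TI ρ w → M3} {bi : TI ρ w → V} {g : ConHomeo Λ Λ}
  {A : K → M3} {b : K → V} {D : K → Set V} {r0 L : K → ℝ} {v : V} {Cg : ℝ} {κ : TI ρ w → K}
  {e : TI ρ w → ℝ} {n : TI ρ w → ℕ} {wd : TI ρ w → Fin 3 → ℤ} {Ξ : TI ρ w → V → V}
  {Tt : ConHomeo Λ Λ}

/-- **[DEEP]**: near a wall (in the directions outside `A`) and in the middle in the directions of
`A`, the map `Tt` keeps the coordinates of `A` and stays near the wall. -/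
theorem TP.deep (S : TP N κ₀ Λ V₀ X T s η c Mi bi g A b D r0 L v Cg κ e n wd Ξ Tt)
    {Ad : Finset (Fin 3)} (hAd : Ad ≠ Finset.univ) {m : ℕ} {z' : Fin 3 → ℤ} {c₁ δ lam : ℝ}
    {E : Set V} (hE : E ⊆ Λ)
    (htile : ∀ z'' : Fin 3 → ℤ, (∀ j, z' j - 2 ≤ z'' j ∧ z'' j ≤ z' j + 1) → IsTile ρ w m z'')
    (hact : ∀ z'' : Fin 3 → ℤ, (∀ j ∈ Ad, z'' j = z' j) →
      (∀ j ∉ Ad, z'' j = z' j ∨ z'' j = z' j - 1) →
      ∃ u ∈ dyc w m z'', ∃ x ∈ X, ‖u - x‖ ≤ 6 / 2 ^ m)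
    (hnear : ∀ y ∈ E, ∀ j ∉ Ad, |g.toFun y j - (w j + z' j / 2 ^ m)| ≤ lam)
    (hmid : ∀ y ∈ E, ∀ j ∈ Ad, w j + (z' j + c₁) / 2 ^ m ≤ g.toFun y j ∧
      g.toFun y j ≤ w j + (z' j + 1 - c₁) / 2 ^ m)
    (hc : 2 * lam ≤ c₁ / 2 ^ m) (hδ : lam ≤ δ / 2 ^ m) (hl : lam ≤ 1 / 32 / 2 ^ m) :
    Deep c₁ δ w ρ (onT ρ w X) Ad m z' (Tt.toFun '' E) ∧
      ∀ y ∈ E, (∀ j ∈ Ad, Tt.toFun y j = g.toFun y j) ∧
        ∀ j ∉ Ad, |Tt.toFun y j - (w j + z' j / 2 ^ m)| ≤ lam := by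
  have hp : (0:ℝ) < 1 / 2 ^ m := by positivity
  have main : ∀ y ∈ E, (∀ j ∈ Ad, Tt.toFun y j = g.toFun y j) ∧
      ∀ j ∉ Ad, |Tt.toFun y j - (w j + z' j / 2 ^ m)| ≤ lam := by
    classical
    intro y hy
    have hyΛ := hE hy
    have hlam : 0 ≤ lam := by
      obtain ⟨j₀, hj₀⟩ : ∃ j, j ∉ Ad := by
        by_contra h
        push Not at h
        exact hAd (Finset.eq_univ_iff_forall.2 h)
      exact (abs_nonneg _).trans (hnear y hy j₀ hj₀)
    obtain ⟨z'', hz''⟩ : ∃ z'' : Fin 3 → ℤ, ∀ j, z'' j =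
        if j ∈ Ad ∨ w j + z' j / 2 ^ m ≤ g.toFun y j then z' j else z' j - 1 := ⟨_, fun _ => rfl⟩
    have hcA : ∀ j ∈ Ad, z'' j = z' j := fun j hj => by rw [hz'', if_pos (Or.inl hj)]
    have hcB : ∀ j, z'' j = z' j ∨ z'' j = z' j - 1 := fun j => by
      rw [hz'']; split_ifs <;> simp
    have ht : IsTile ρ w m z'' := htile z'' fun j => by
      rcases hcB j with h | h <;> rw [h] <;> constructor <;> linarith
    obtain ⟨t, ht1⟩ : ∃ t : TI ρ w, t.1 = (m, z'') := ⟨⟨(m, z''), ht⟩, rfl⟩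
    have hσ : st ρ w t = 1 / 2 * (1 / 2 ^ m) := by unfold st; rw [ht1]; ring
    have hzt : ∀ j, zt ρ w t j = w j + z'' j / 2 ^ m + 1 / 2 * (1 / 2 ^ m) := fun j => by
      have : zt ρ w t j = H73.ctr w t.1.1 t.1.2 j := rfl
      rw [this, ht1]
      unfold H73.ctr
      simp only
      ring
    have hsucc : ∀ a : ℝ, (a - 1) / 2 ^ m = a / 2 ^ m - 1 / 2 ^ m := fun a => by ring
    -- the positions of `g y` in the tile
    have hposA : ∀ j ∈ Ad, |g.toFun y j - zt ρ w t j| ≤ st ρ w t - 2 * lam := by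
      intro j hj
      obtain ⟨h1, h2⟩ := hmid y hy j hj
      rw [hzt, hcA j hj, hσ, abs_le]
      have e1 : ((z' j : ℝ) + c₁) / 2 ^ m = z' j / 2 ^ m + c₁ / 2 ^ m := by ring
      have e2 : ((z' j : ℝ) + 1 - c₁) / 2 ^ m = z' j / 2 ^ m + 1 / 2 ^ m - c₁ / 2 ^ m := by ring
      rw [e1] at h1
      rw [e2] at h2
      constructor <;> linarith
    have hposB : ∀ j ∉ Ad, (z'' j = z' j ∧ w j + z' j / 2 ^ m ≤ g.toFun y j ∧
        g.toFun y j ≤ w j + z' j / 2 ^ m + lam) ∨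
        (z'' j = z' j - 1 ∧ g.toFun y j < w j + z' j / 2 ^ m ∧
        w j + z' j / 2 ^ m - lam ≤ g.toFun y j) := by
      intro j hj
      have h1 := abs_le.1 (hnear y hy j hj)
      by_cases h2 : w j + z' j / 2 ^ m ≤ g.toFun y j
      · left
        refine ⟨by rw [hz'', if_pos (Or.inr h2)], h2, by linarith [h1.2]⟩
      · right
        push Not at h2
        refine ⟨by rw [hz'', if_neg (by rw [not_or, not_le]; exact ⟨hj, h2⟩)], h2, by
          linarith [h1.1]⟩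
    have hposC : ∀ j ∉ Ad, st ρ w t - lam ≤ |g.toFun y j - zt ρ w t j| ∧
        |g.toFun y j - zt ρ w t j| ≤ st ρ w t := by
      intro j hj
      rcases hposB j hj with ⟨h1, h2, h3⟩ | ⟨h1, h2, h3⟩
      · rw [hzt, h1, hσ]
        have e1 : g.toFun y j - (w j + z' j / 2 ^ m + 1 / 2 * (1 / 2 ^ m)) ≤ 0 := by
          have : (1:ℝ) / 32 / 2 ^ m = 1 / 32 * (1 / 2 ^ m) := by ring
          rw [this] at hl
          linarith
        rw [abs_of_nonpos e1]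
        constructor <;> linarith
      · rw [hzt, h1, hσ]
        push_cast
        rw [hsucc]
        have e1 : 0 ≤ g.toFun y j - (w j + (z' j / 2 ^ m - 1 / 2 ^ m) + 1 / 2 * (1 / 2 ^ m)) := by
          have : (1:ℝ) / 32 / 2 ^ m = 1 / 32 * (1 / 2 ^ m) := by ring
          rw [this] at hl
          linarith
        rw [abs_of_nonneg e1]
        constructor <;> linarith
    have hball : g.toFun y ∈ closedBall (zt ρ w t) (st ρ w t) := by
      rw [mem_closedBall, dist_eq_norm, pi_norm_le_iff_of_nonneg (st_pos t).le]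
      intro j
      rw [Pi.sub_apply, Real.norm_eq_abs]
      by_cases hj : j ∈ Ad
      · linarith [hposA j hj]
      · exact (hposC j hj).2
    have hnorm : st ρ w t - lam ≤ ‖g.toFun y - zt ρ w t‖ := by
      obtain ⟨j₀, hj₀⟩ : ∃ j, j ∉ Ad := by
        by_contra h
        push Not at h
        exact hAd (Finset.eq_univ_iff_forall.2 h)
      have h1 := norm_le_pi_norm (g.toFun y - zt ρ w t) j₀
      rw [Pi.sub_apply, Real.norm_eq_abs] at h1
      exact (hposC j₀ hj₀).1.trans h1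
    have h15 : 15 / 16 * st ρ w t ≤ ‖g.toFun y - zt ρ w t‖ := by
      refine le_trans ?_ hnorm
      rw [hσ]
      have : (1:ℝ) / 32 / 2 ^ m = 1 / 32 * (1 / 2 ^ m) := by ring
      rw [this] at hl
      linarith
    have hTball := (S.tt.cube y hyΛ t).2 hball
    refine ⟨fun j hj => S.tt.tang t y hyΛ j h15 hball ?_, fun j hj => ?_⟩
    · have := hposA j hj
      linarith
    · have hgr := S.tt.grow t y hyΛ j h15 hball
      have hT0 : ‖Tt.toFun y - zt ρ w t‖ ≤ st ρ w t := by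
        rwa [mem_closedBall, dist_eq_norm] at hTball
      have hT1 := (norm_le_pi_norm (Tt.toFun y - zt ρ w t) j).trans hT0
      rw [Pi.sub_apply, Real.norm_eq_abs, abs_le] at hT1
      have hl' : lam ≤ 1 / 32 * (1 / 2 ^ m) := by
        have : (1:ℝ) / 32 / 2 ^ m = 1 / 32 * (1 / 2 ^ m) := by ring
        rwa [this] at hl
      rw [hzt, hσ] at hT1
      rw [hzt] at hgr
      rcases hposB j hj with ⟨h1, h2, h3⟩ | ⟨h1, h2, h3⟩
      · rw [h1] at hT1 hgr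
        have h4 := hgr.2 (by linarith)
        rw [abs_le]
        constructor <;> linarith [hT1.1]
      · rw [h1] at hT1 hgr
        push_cast at hT1 hgr
        rw [hsucc] at hT1 hgr
        have h4 := hgr.1 (by linarith)
        rw [abs_le]
        constructor <;> linarith [hT1.2]
  refine ⟨⟨htile, fun z'' h1 h2 => ?_, ?_, ?_⟩, main⟩
  · have ht : IsTile ρ w m z'' := htile z'' fun j => by
      by_cases hj : j ∈ Ad
      · rw [h1 j hj]; constructor <;> linarith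
      · rcases h2 j hj with h | h <;> rw [h] <;> constructor <;> linarith
    exact ⟨ht, hact z'' h1 h2⟩
  · rintro _ ⟨y, hy, rfl⟩ j hj
    exact ((main y hy).2 j hj).trans hδ
  · rintro _ ⟨y, hy, rfl⟩ j hj
    rw [(main y hy).1 j hj]
    exact hmid y hy j hj

end deep

end Vale.Agent.P073.H851
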