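import Vale.Agent.P073.H851.TgtP

/-!
# P073, block B10, [TGT-P5]: the consumer theorems for the target near the plates

* `exists_tgt_gen`: for a general generalised collapse, with a prescribed form of the approximant;
* `exists_tgt_plates`: one finite family of plates (rank two).
-/

open Set Metric Topology Filter WithLp MeasureTheory Matrix
open scoped ENNReal

namespace Vale.Agent.P073.H851

open _root_.P073
open _root_.P073.Net (dyc dyo IsTile SizeFn Adm)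
open Vale.Agent.P073.St (V)
open Vale.Agent.P073.AB (Idx)
open Vale.Agent.P073.H471 (Cubes TI zt st cB_eq B_eq cubes_tiles st_pos)
open Vale.Agent.P073.H726 (LBOn Coll)
open Vale.Agent.P073.H239 (GC AdaptedN Approx Deep PFam fam kks Num bx dd DD fam_off)
open Vale.Agent.P073.H819 (AlignN)
open Vale.Agent.P073.H696 (Tgt)

/-- **[TGT]** for a generalised collapse; the approximant `g` has the prescribed property `P` -/
theorem exists_tgt_gen {B : Type} [Nonempty B] {Λ X : Set V} {T : V → V} {A : B → M3} {b : B → V}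
    {D : B → Set V} {N : ℕ} {C₀ m₀ : ℝ} (hGC : GC N C₀ m₀ Λ (H696.V0 Λ A b D) X T) (hN : 1 ≤ N)
    (hm : m₀ ≤ 2) {N' : ℕ} (hN' : 8 ≤ N') (hκ : 2 * kp N' ≤ 1 / (14 * (N:ℝ)))
    (hA : ∀ k, (A k).det ≠ 0) (hD : ∀ k, IsCompact (D k))
    (hDΛ : ∀ k, (fun x => A k *ᵥ x + b k) '' D k ⊆ Λ)
    (hdis : ∀ k l, k ≠ l → Disjoint ((fun x => A k *ᵥ x + b k) '' D k)
      ((fun x => A l *ᵥ x + b l) '' D l))
    (hlf : ∀ C ⊆ Λ, IsCompact C → {k | ((fun x => A k *ᵥ x + b k) '' D k ∩ C).Nonempty}.Finite)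
    {α W : B → ℝ≥0∞} (hα : ∀ k, α k ≠ ⊤) (hW : ∀ k, W k ≠ ⊤) {δt : V → ℝ} (hδt : LBOn Λ δt)
    {r0 L : M3 → ℝ} (hrL : ConstM r0 L) (v : V) {K : Set V} (hK : IsCompact K) (hKΛ : K ⊆ Λ)
    {ε ε₁ εT εC εs Cg : ℝ} (hε : 0 < ε) (hε₁ : 0 < ε₁) (hεC : 0 < εC) (hεs : 0 < εs)
    (hCg : 2 * (C₀ + ε₁) ≤ Cg) (hCg1 : 1 ≤ Cg) {Zo : Set V} (hZo : Zo ⊆ Λ)
    (hoff : ∀ y ∈ Λ, T y ∉ X → y ∉ Zo →
      ∀ᶠ y' in 𝓝 y, ‖(T y' - T y) - (y' - y)‖ ≤ ε * ‖y' - y‖)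
    (hT1 : ∀ y ∈ Λ, ‖T y - y‖ ≤ εT) (hε2 : εT + ε / 8 ≤ ε)
    (hcost : ∑' k, α k * volume {x | x ∈ D k ∧ A k *ᵥ x + b k ∈
      {y | y ∈ Λ ∧ T y ∈ X} ∪ Zo} + ENNReal.ofReal εC ≤ ENNReal.ofReal ε)
    {Lc : M3 → ℝ} (hLc1 : ∀ k, 28 * 4 ^ N' * Cg * L (A k) ≤ Lc (A k))
    (hLc2 : ∀ k, 2 * 2 ^ N' / r0 (A k) ≤ Lc (A k)) {j : ℕ} (hj : 2 ≤ j) (m₁ : ℕ) :
    ∃ (m : ℕ) (s ρ : V → ℝ), m₁ ≤ m ∧ (∀ y, ρ y = min (s y / 64) (1 / 2 ^ m)) ∧
      (∀ y ∈ Λ, s (T y) ≤ εs ∧ s (T y) ≤ δt y) ∧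
      (∀ z : Fin 3 → ℤ, (∃ y ∈ K, ∃ u ∈ dyc 0 m z, ‖u - y‖ ≤ 8 / 2 ^ m) → IsTile ρ 0 m z) ∧
      ∀ P : ConHomeo Λ Λ → Prop, (∀ (δ' : V → ℝ) (ε' : ℝ), LBOn Λ δ' → 0 < ε' →
          ∃ g, IsApx C₀ Λ X T δ' ε' g ∧ P g) →
        ∃ g, P g ∧ ∃ (c : TI ρ (0 : V) → V) (Mi : TI ρ (0 : V) → M3) (bi : TI ρ (0 : V) → V)
          (κ : TI ρ (0 : V) → B) (e : TI ρ (0 : V) → ℝ) (n : TI ρ (0 : V) → ℕ)
          (wd : TI ρ (0 : V) → Fin 3 → ℤ) (Ξ : TI ρ (0 : V) → V → V) (Tt : ConHomeo Λ Λ),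
          TP N' (1 / (14 * (N:ℝ))) Λ (H696.V0 Λ A b D) X T s (1 / 2 ^ j) c Mi bi g A b D
            (fun k => r0 (A k)) (fun k => L (A k)) v Cg κ e n wd Ξ Tt ∧
          ∃ (κ' : Idx → B) (n' : Idx → ℕ) (w' : Idx → Fin 3 → ℤ),
            Tgt (28 * 2 ^ N' * Cg) Lc Λ ε (1 / 2 ^ j) A b D α W δt v ρ (onT ρ 0 X)
              (nearT ρ 0 X s) κ' n' w' (ActS Λ ρ X s g.toFun ∪ Zo)
              (CoreS Λ ρ X s g.toFun c (kp N'))
              (CoreT Λ ρ X s g.toFun c (1 / (14 * (N:ℝ)))) Tt ∧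
            ∑' k, W k * volume {x | x ∈ D k ∧ A k *ᵥ x + b k ∈
              CoreT Λ ρ X s g.toFun c (1 / (14 * (N:ℝ)))} ≤ ENNReal.ofReal εC := by
  have hη0 : (0:ℝ) < 1 / 2 ^ j := by positivity
  have hη1 : (1:ℝ) / 2 ^ j < 1 / 2 := by
    have : (2:ℝ) ^ 2 ≤ 2 ^ j := pow_le_pow_right₀ (by norm_num) hj
    rw [div_lt_div_iff_of_pos_left one_pos (by positivity) (by norm_num)]
    linarith
  have hεC' : ENNReal.ofReal εC ≠ 0 := by
    rw [ne_eq, ENNReal.ofReal_eq_zero, not_le]; exact hεC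
  have hWα : ∀ k, W k + α k ≠ ⊤ := fun k => ENNReal.add_ne_top.2 ⟨hW k, hα k⟩
  have hδ : LBOn Λ fun y => min (δt y) (min ε εs) :=
    hδt.min (LBOn.of_continuous hGC.opn continuous_const fun _ _ => lt_min hε hεs)
  obtain ⟨s, Ad, hall⟩ := exists_tp_all hGC hN hm hN' hκ hA hD hdis hlf hWα hδ hεC' hrL v
  obtain ⟨m₂, hm₂, hgen⟩ := exists_gen Ad.lip hK (fun y hy => Ad.pos y (hKΛ hy)) m₁
  obtain ⟨ρ, hρ⟩ : ∃ ρ : V → ℝ, ∀ y, ρ y = min (s y / 64) (1 / 2 ^ m₂) := ⟨_, fun _ => rfl⟩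
  have hs1 : ∀ y ∈ Λ, s (T y) ≤ δt y ∧ s (T y) ≤ ε ∧ s (T y) ≤ εs := fun y hy =>
    ⟨(Ad.close y hy).trans (min_le_left _ _),
      (Ad.close y hy).trans ((min_le_right _ _).trans (min_le_left _ _)),
      (Ad.close y hy).trans ((min_le_right _ _).trans (min_le_right _ _))⟩
  refine ⟨m₂, s, ρ, hm₂, hρ, fun y hy => ⟨(hs1 y hy).2.2, (hs1 y hy).1⟩, fun z hz => hgen m₂ le_rfl ρ hρ 0 z hz,
    fun P hP => ?_⟩
  have hm1 : (1:ℝ) / 2 ^ m₂ ≤ 1 := by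
    rw [div_le_one (by positivity)]
    exact one_le_pow₀ (by norm_num)
  obtain ⟨c, Mi, bi, δ₁, hδ₁, hg⟩ := hall (1 / 2 ^ j) ε₁ (1 / 2 ^ m₂) Cg hη0 hη1 hε₁ (by positivity)
    hm1 hCg hCg1 ρ hρ
  obtain ⟨g, hgA, hgP⟩ := hP δ₁ ε₁ hδ₁ hε₁
  obtain ⟨-, κ, e, n, wd, Ξ, Tt, S⟩ := hg g hgA
  have hcostC : ∑' k, W k * volume {x | x ∈ D k ∧ A k *ᵥ x + b k ∈
      CoreT Λ ρ X s g.toFun c (1 / (14 * (N:ℝ)))} ≤ ENNReal.ofReal εC := by
    calc _ ≤ ∑' k, (W k + α k) * volume {x | x ∈ D k ∧ afm (A k) (b k) x ∈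
          {y | y ∈ Λ ∧ T y ∉ X ∧ ∃ x' ∈ X, ‖T y - x'‖ ≤ s (T y)}} := by
          refine ENNReal.tsum_le_tsum fun k => mul_le_mul' le_self_add
            (measure_mono fun x hx => ⟨hx.1, S.coreN_sub hx.2⟩)
      _ ≤ _ := (le_nuS _).trans Ad.vol
  have hc2 : ∑' k, α k * volume {x | x ∈ D k ∧ A k *ᵥ x + b k ∈
      ActS Λ ρ X s g.toFun ∪ Zo} ≤ ENNReal.ofReal ε := by
    refine le_trans ?_ hcost
    have h1 : ∀ k, α k * volume {x | x ∈ D k ∧ A k *ᵥ x + b k ∈ ActS Λ ρ X s g.toFun ∪ Zo} ≤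
        α k * volume {x | x ∈ D k ∧ A k *ᵥ x + b k ∈ {y | y ∈ Λ ∧ T y ∈ X} ∪ Zo} +
        (W k + α k) * volume {x | x ∈ D k ∧ afm (A k) (b k) x ∈
          {y | y ∈ Λ ∧ T y ∉ X ∧ ∃ x' ∈ X, ‖T y - x'‖ ≤ s (T y)}} := by
      intro k
      refine le_trans (mul_le_mul' le_rfl ((measure_mono ?_).trans (measure_union_le _ _)))
        (le_trans (mul_add _ _ _).le (add_le_add le_rfl (mul_le_mul' le_add_self le_rfl)))
      rintro x ⟨hx, hx2⟩
      rcases hx2 with hx2 | hx2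
      · rcases S.act_sub hx2 with h3 | h3
        · exact Or.inl ⟨hx, Or.inl h3⟩
        · exact Or.inr ⟨hx, h3⟩
      · exact Or.inl ⟨hx, Or.inr hx2⟩
    refine (ENNReal.tsum_le_tsum h1).trans ?_
    rw [ENNReal.tsum_add]
    exact add_le_add le_rfl ((le_nuS _).trans Ad.vol)
  obtain ⟨κ', n', w', HT⟩ := S.tgt (ε := ε) (ε₁ := εT) (Zo := Zo) (Lc := Lc) (α := α) (W := W)
    (δt := δt) hA hDΛ hZo hoff hT1 (fun y hy => ⟨(hs1 y hy).1, (hs1 y hy).2.1⟩) hε2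
    (fun k => ⟨hrL.pos _, hrL.le _⟩) hLc1 hLc2 hc2
    (hcostC.trans (le_trans le_add_self hcost))
  exact ⟨g, hgP, c, Mi, bi, κ, e, n, wd, Ξ, Tt, S, κ', n', w', HT, hcostC⟩

/-- the constants of the target theorems for `N'` halvings -/
theorem exists_LcQ {r0 L : M3 → ℝ} (hrL : ConstM r0 L) (N' : ℕ) {Cg : ℝ} (hCg : 1 ≤ Cg) :
    ∃ Lc : M3 → ℝ, (∀ M, 1 ≤ Lc M) ∧ (∀ M, 28 * 4 ^ N' * Cg * L M ≤ Lc M) ∧
      ∀ M, 2 * 2 ^ N' / r0 M ≤ Lc M := by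
  have h4 : (1:ℝ) ≤ 4 ^ N' := one_le_pow₀ (by norm_num)
  have h1 : ∀ M, 1 ≤ 28 * 4 ^ N' * Cg * L M := fun M => by
    have := hrL.one M
    calc (1:ℝ) ≤ 28 * 1 * 1 * 1 := by norm_num
      _ ≤ 28 * 4 ^ N' * Cg * L M := by gcongr
  have h2 : ∀ M, 0 ≤ 2 * 2 ^ N' / r0 M := fun M => by
    have := hrL.pos M
    positivity
  exact ⟨fun M => 28 * 4 ^ N' * Cg * L M + 2 * 2 ^ N' / r0 M, fun M => by
    linarith [h1 M, h2 M], fun M => by linarith [h2 M], fun M => by linarith [h1 M]⟩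

/-- displacement of the collapse of the plates -/
theorem fam0_disp {Λ : Set V} {ι : Type*} {bp : ℝ} {l : ι → Fin 3} {lo hi : ι → V} {R : ι → ℝ}
    (F : PFam Λ bp l lo hi R) {z : ι} {u : V} (hu : u ∈ bx (lo z) (hi z) (R z)) :
    ‖fam l lo hi bp R (fun _ => 0) u - u‖ ≤ 2 * R z := by
  have hR := F.R0 z
  have h1 : fam l lo hi bp R (fun _ => 0) u ∈ bx (lo z) (hi z) (R z) :=
    (F.fam_mem F.num0 z).2 hu
  have h2 : ∀ y : V, y ∈ bx (lo z) (hi z) (R z) → |y (l z) - lo z (l z)| ≤ R z := by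
    intro y hy
    have h3 : DD (lo z) (hi z) y ≤ R z := hy
    rw [H239.DD_eq (F.flat z)] at h3
    exact (le_max_left _ _).trans h3
  rw [pi_norm_le_iff_of_nonneg (by linarith)]
  intro i
  rw [Pi.sub_apply, Real.norm_eq_abs]
  by_cases hi' : i = l z
  · subst hi'
    have a := abs_le.1 (h2 _ h1)
    have b := abs_le.1 (h2 _ hu)
    rw [abs_le]
    constructor <;> linarith [a.1, a.2, b.1, b.2]
  · have h3 : fam l lo hi bp R (fun _ => 0) u i = u i := by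
      rw [F.fam_eq hu]
      exact H239.pm_ne hi' u
    rw [h3, sub_self, abs_zero]
    linarith

/-- **the target near the plates**: the output of `exists_tgt_plates` -/
structure PlOut {B ι : Type} (Cu : ℝ) (Lc : M3 → ℝ) (Λ : Set V) (h ε εC εs ε₁ c₁ δ : ℝ) (j : ℕ)
    (A : B → M3) (b : B → V) (D : B → Set V) (α W : B → ℝ≥0∞) (δt : V → ℝ) (v : V) (T : V → V)
    (bp : ℝ) (l : ι → Fin 3) (lo hi : ι → V) (R : ι → ℝ) (m : ℕ) (ρ : V → ℝ) (J₀ J : Set Idx)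
    (κ : Idx → B) (n : Idx → ℕ) (w : Idx → Fin 3 → ℤ) (Act Core CoreN : Set V)
    (γ Tt : ConHomeo Λ Λ) : Prop where
  tgt : Tgt Cu Lc Λ ε (1 / 2 ^ j) A b D α W δt v ρ J₀ J κ n w Act Core CoreN Tt
  costC : ∑' k, W k * volume {x | x ∈ D k ∧ A k *ᵥ x + b k ∈ CoreN} ≤ ENNReal.ofReal εC
  lip : ∀ y y', ‖toLp 2 (γ.toFun y - γ.toFun y')‖ ≤ (1 + h + ε₁) * ‖toLp 2 (y - y')‖
  near : ∀ y ∈ Λ, ‖γ.toFun y - T y‖ ≤ εs
  close : ∀ y ∈ Λ, ‖Tt.toFun y - fam l lo hi bp R (fun _ => 0) (T y)‖ ≤ εs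
  /-- the tiles near the plates have generation `m` -/
  size : ∀ z'' : Fin 3 → ℤ, (∃ z, ∃ u ∈ bx (lo z) (hi z) (R z), ∃ u' ∈ dyc 0 m z'',
    ‖u' - u‖ ≤ 8 / 2 ^ m) → IsTile ρ 0 m z''
  le_gen : ∀ t : Idx, IsTile ρ 0 t.1 t.2 → m ≤ t.1
  act : ∀ y ∈ Λ, (∃ z, T y ∈ bx (lo z) (hi z) (R z)) → y ∈ Act
  deep : ∀ (z : ι) (E : Set V) (z' : Fin 3 → ℤ), E ⊆ Λ → E.Nonempty →
    lo z (l z) = z' (l z) / 2 ^ m →
    (∀ y ∈ E, |γ.toFun y (l z) - lo z (l z)| ≤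
      bp * (R z - dd (l z) (lo z) (hi z) (γ.toFun y))) →
    (∀ y ∈ E, ∀ i, i ≠ l z → (z' i + c₁) / 2 ^ m ≤ γ.toFun y i ∧
      γ.toFun y i ≤ (z' i + 1 - c₁) / 2 ^ m) →
    Deep c₁ δ 0 ρ J₀ (Finset.univ.erase (l z)) m z' (Tt.toFun '' E) ∧
      ∀ y ∈ E, (∀ i, i ≠ l z → Tt.toFun y i = γ.toFun y i) ∧
        |Tt.toFun y (l z) - lo z (l z)| ≤ δ / 2 ^ m

/-- **[TGT-P]**: rank two -/
theorem exists_tgt_plates :
    ∃ (Cu : ℝ) (Lc : M3 → ℝ), 1 ≤ Cu ∧ (∀ M, 1 ≤ Lc M) ∧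
      ∀ Λ : Set V, St.IsBoundedDomain Λ → ∀ h : ℝ, 0 < h → h ≤ 1 / 8 → ∀ ρT : V → ℝ, LBOn Λ ρT →
      ∃ (τ : V → ℝ) (c : ℝ≥0∞),
        (Continuous τ ∧ (∀ y, 0 ≤ τ y) ∧ (∀ y, 0 < τ y ↔ y ∈ Λ) ∧ c ≠ 0) ∧
        ∀ (B : Type) (A : B → M3) (b : B → V) (D D' : B → Set V) (α W : B → ℝ≥0∞) (v : V),
          (∀ k, (A k).det ≠ 0) →
          (∀ k, IsCompact (D k) ∧ IsCompact (D' k) ∧ D' k ⊆ interior (D k)) →
          (∀ k, (fun x => A k *ᵥ x + b k) '' D k ⊆ Λ) →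
          (∀ k l, k ≠ l → Disjoint ((fun x => A k *ᵥ x + b k) '' D k)
            ((fun x => A l *ᵥ x + b l) '' D l)) →
          (∀ C ⊆ Λ, IsCompact C →
            {k | ((fun x => A k *ᵥ x + b k) '' D k ∩ C).Nonempty}.Finite) →
          ∫⁻ y in Λ \ ⋃ k, (fun x => A k *ᵥ x + b k) '' D' k, ENNReal.ofReal (1 / τ y) ^ 3 ≤ c →
          (∀ k, α k ≠ ⊤) → (∀ k, W k ≠ ⊤) →
          ∃ (T : V → V) (X : Set V), Coll Λ (H696.V0 Λ A b D) X h T ∧
            (∀ y ∈ Λ, ‖T y - y‖ ≤ ρT y) ∧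
            ∀ (ι : Type) (_ : Finite ι) (bp : ℝ) (l : ι → Fin 3) (lo hi : ι → V) (R : ι → ℝ),
              PFam Λ bp l lo hi R → bp ≤ 1 / 4 →
              ∀ (ε εC εs ε₁ c₁ δ : ℝ) (δt : V → ℝ) (j m₁ : ℕ), 0 < εC → 0 < εs → 0 < ε₁ →
                0 < c₁ → 0 < δ → LBOn Λ δt → 2 ≤ j → h ≤ ε → (∀ y ∈ Λ, ρT y ≤ ε / 4) →
                (∀ z, R z ≤ ε / 8) →
                ∑' k, α k * volume (D k) + ENNReal.ofReal εC ≤ ENNReal.ofReal ε →
                ∃ (m : ℕ) (ρ : V → ℝ) (J₀ J : Set Idx) (κ : Idx → B) (n : Idx → ℕ)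
                  (w : Idx → Fin 3 → ℤ) (Act Core CoreN : Set V) (γ Tt : ConHomeo Λ Λ), m₁ ≤ m ∧
                  PlOut Cu Lc Λ h ε εC εs ε₁ c₁ δ j A b D α W δt v T bp l lo hi R m ρ J₀ J κ n w
                    Act Core CoreN γ Tt := by
  obtain ⟨r0, L, hrL⟩ := exists_constM
  obtain ⟨Lc, hLc0, hLc1, hLc2⟩ := exists_LcQ hrL 13 (Cg := 6) (by norm_num)
  refine ⟨28 * 2 ^ 13 * 6, Lc, by norm_num, hLc0, ?_⟩
  intro Λ hΛ h hh0 hh1 ρT hρT
  have hΛo := hΛ.1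
  have hΛb := PK.isBounded_of_domain hΛ
  have hΛne : Λ.Nonempty := hΛ.2.1.nonempty
  obtain ⟨τ, c₀, hc₀, hτ0, hτp, hτc, -, hcoll⟩ := H726.exists_coll hΛo hΛb hh0 hh1 hρT
  obtain ⟨I, hI⟩ : ∃ I, I = ∫⁻ y in Λ, ENNReal.ofReal (1 / τ y) ^ 3 := ⟨_, rfl⟩
  have hI0 : I ≠ 0 := by rw [hI]; exact weight_ne_zero hΛo hΛne hτc hτp
  refine ⟨τ, min (min c₀ 1) (I / 2), ⟨hτc, hτ0, hτp, ?_⟩, ?_⟩
  · exact (lt_min (lt_min (pos_iff_ne_zero.2 hc₀) one_pos) (ENNReal.half_pos hI0)).ne'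
  intro B A b D D' α W v hA hD hDΛ hdis hlf hint hα hW
  have hBne : Nonempty B := by
    by_contra hB
    rw [not_nonempty_iff] at hB
    rw [iUnion_of_empty, sdiff_empty, ← hI] at hint
    have h1 : I ≤ 1 := hint.trans ((min_le_left _ _).trans (min_le_right _ _))
    have h2 : I ≤ I / 2 := hint.trans (min_le_right _ _)
    have h3 : I ≠ ⊤ := (h1.trans_lt ENNReal.one_lt_top).ne
    exact absurd h2 (not_le.2 (ENNReal.half_lt_self hI0 h3))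
  have hDc : ∀ k, IsCompact (D k) := fun k => (hD k).1
  obtain ⟨T, X, hC, hT⟩ := hcoll (Λ \ ⋃ k, (fun x => A k *ᵥ x + b k) '' D' k)
    (H696.V0 Λ A b D)
    (R_open hΛo (fun k => ⟨(hD k).2.1, (hD k).2.2.trans interior_subset⟩) hlf) sdiff_subset
    (hint.trans ((min_le_left _ _).trans (min_le_left _ _))) (V0_closed hΛo hA)
    (fun y hy => ⟨hy.1, fun h => by
      obtain ⟨k, x, hx, hxy⟩ := mem_iUnion.1 h
      exact hy.2 k x ((hD k).2.2 hx) hxy⟩)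
  refine ⟨T, X, hC, hT, ?_⟩
  intro ι hι bp l lo hi R F hbp ε εC εs ε₁ c₁ δ δt j m₁ hεC hεs hε₁ hc₁ hδ hδt hj hhε hρε hRε hcost
  have hbp0 := F.b0
  have hε : 0 < ε := hh0.trans_le hhε
  have hGC := H239.gc_of_coll hC (m := 1 + h) le_rfl
  have hG := hGC.plates F
  set T₀ : V → V := fam l lo hi bp R fun _ => 0 with hT₀
  have hT₀c : Continuous T₀ := F.cont F.num0
  -- the zone of the plates
  obtain ⟨Zo, hZo⟩ : ∃ Zo : Set V, Zo = {y | y ∈ Λ ∧ ∃ z, T y ∈ bx (lo z) (hi z) (R z)} :=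
    ⟨_, rfl⟩
  have hK : IsCompact (⋃ z, bx (lo z) (hi z) (R z)) := isCompact_iUnion fun _ => H239.isCompact_bx
  have hKΛ : (⋃ z, bx (lo z) (hi z) (R z)) ⊆ Λ := iUnion_subset F.sub
  obtain ⟨m, s, ρ, hm, hρ, hsT, hsize, hmain⟩ := exists_tgt_gen (N' := 13) (r0 := r0) (L := L)
    (Lc := Lc) (j := j) (α := α) (W := W) (δt := δt) (Zo := Zo) (ε := ε) (ε₁ := 1)
    (εT := ε / 2) (εC := εC) (εs := εs / 4) (Cg := 6) hG (by norm_num)
    (by nlinarith) (by norm_num) (by unfold kp; norm_num) hA hDc hDΛ hdis hlf hα hW hδt hrL v hK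
    hKΛ hε one_pos hεC (by positivity) (by nlinarith) (by norm_num)
    (by rw [hZo]; exact fun y hy => hy.1)
    (fun y hy hX hyZ => by
      rw [hZo] at hyZ
      have hno : ∀ z, T y ∉ bx (lo z) (hi z) (R z) := fun z hz => hyZ ⟨hy, z, hz⟩
      have hTX : T y ∉ X := fun h1 => hX (Or.inl ⟨T y, h1, rfl⟩)
      obtain ⟨w, hw⟩ := hC.aff {T y} (by
        rintro _ rfl
        exact ⟨hC.maps hy, hTX⟩) isPreconnected_singleton
      have h2 := hw y rfl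
      have h3 : ∀ᶠ y' in 𝓝 y, ∀ z, T y' ∉ bx (lo z) (hi z) (R z) :=
        hC.continuous.continuousAt.eventually ((PFam.open_off lo hi R).mem_nhds hno)
      filter_upwards [h2, h3] with y' h4 h5
      rw [hT₀, fam_off h5, fam_off hno, h4, h2.self_of_nhds]
      have e1 : ((1 + h) • y' - w) - ((1 + h) • y - w) - (y' - y) = h • (y' - y) := by module
      rw [e1, norm_smul, Real.norm_of_nonneg hC.h0]
      gcongr)
    (fun y hy => by
      have h1 := hT y hy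
      have h2 := hρε y hy
      by_cases hz : ∃ z, T y ∈ bx (lo z) (hi z) (R z)
      · obtain ⟨z, hz⟩ := hz
        have h3 := fam0_disp F hz
        have h4 := hRε z
        have e1 : T₀ (T y) - y = (T₀ (T y) - T y) + (T y - y) := by abel
        show ‖T₀ (T y) - y‖ ≤ _
        rw [e1]
        refine (norm_add_le _ _).trans ?_
        linarith
      · push Not at hz
        rw [hT₀, fam_off hz]
        linarith)
    (by linarith)
    (by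
      refine le_trans (add_le_add ?_ le_rfl) hcost
      exact ENNReal.tsum_le_tsum fun k => mul_le_mul' le_rfl (measure_mono fun x hx => hx.1))
    (fun k => hLc1 _) (fun k => hLc2 _) hj m₁
  -- the squeeze
  obtain ⟨lam, hlam0, hlam1, hlam2, hlam3⟩ : ∃ lam : ℝ, 0 < lam ∧ 2 * lam ≤ c₁ / 2 ^ m ∧
      lam ≤ δ / 2 ^ m ∧ lam ≤ 1 / 32 / 2 ^ m := by
    refine ⟨min (min (c₁ / 2) δ) (1 / 32) / 2 ^ m, by positivity, ?_, ?_, ?_⟩
    · calc 2 * (min (min (c₁ / 2) δ) (1 / 32) / 2 ^ m) ≤ 2 * (c₁ / 2 / 2 ^ m) := by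
            gcongr; exact (min_le_left _ _).trans (min_le_left _ _)
        _ = c₁ / 2 ^ m := by ring
    · gcongr
      exact (min_le_left _ _).trans (min_le_right _ _)
    · gcongr
      exact min_le_right _ _
  obtain ⟨g, ⟨κp, γ, hκp, hgγ, hγ⟩, c, Mi, bi, κ, e, n, wd, Ξ, Tt, S, κ', n', w', HT, hcC⟩ :=
    hmain (fun g => ∃ (κp : ι → ℝ) (γ : ConHomeo Λ Λ),
      (∀ z, Num bp (R z) (κp z) ∧ 0 < κp z ∧ κp z * R z ≤ lam) ∧
      (∀ y, g.toFun y = fam l lo hi bp R κp (γ.toFun y)) ∧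
      IsApx (1 + h) Λ X T (fun _ => εs) ε₁ γ) (fun δ' ε' hδ' hε' => by
        obtain ⟨κp, δ₂, ε₂, h1, h2, h3, h4⟩ := apx_plates hGC F hδ' hε' hlam0
        obtain ⟨γ, hγ⟩ := exists_isApx hGC.approx
          (h2.min (LBOn.of_continuous hΛo (continuous_const (y := εs)) fun _ _ => hεs))
          (lt_min h3 hε₁)
        obtain ⟨g, hg1, hg2⟩ := h4 γ (hγ.mono hC.maps (fun y _ => min_le_left _ _)
          (min_le_left _ _))
        exact ⟨g, hg2, κp, γ, h1, hg1, hγ.mono hC.maps (fun y _ => min_le_right _ _)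
          (min_le_right _ _)⟩)
  refine ⟨m, ρ, _, _, κ', n', w', _, _, _, γ, Tt, hm,
    { tgt := HT
      costC := hcC
      lip := hγ.lip
      near := hγ.close
      close := fun y hy => ?_
      size := ?_
      le_gen := ?_
      act := ?_
      deep := ?_ }⟩
  · -- close
    refine (S.close hy).trans ?_
    have := (hsT y hy).1
    linarith
  · rintro z'' ⟨z, u, hu, u', hu', huu⟩
    exact hsize z'' ⟨u, mem_iUnion.2 ⟨z, hu⟩, u', hu', huu⟩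
  · -- generation
    rintro ⟨m', z'⟩ ⟨h1, -⟩
    have hne : (fun k => (0:V) k + z' k / 2 ^ m' : V) ∈ dyc 0 m' z' := fun k => ⟨le_rfl, by
      have : (z' k : ℝ) / 2 ^ m' ≤ (z' k + 1) / 2 ^ m' := by gcongr; linarith
      linarith⟩
    have h2 := (h1 _ hne).trans (le_of_eq (hρ _))
    have h3 := h2.trans (min_le_right _ _)
    rw [div_le_div_iff_of_pos_left one_pos (by positivity) (by positivity)] at h3
    exact (pow_le_pow_iff_right₀ (by norm_num : (1:ℝ) < 2)).1 h3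
  · rintro y hy ⟨z, hz⟩
    exact Or.inr (by rw [hZo]; exact ⟨hy, z, hz⟩)
  · -- deep
    intro z E z' hE hEne hlo hfull hmid
    have hκ' : ∀ z, Num bp (R z) (κp z) := fun z => (hκp z).1
    have hcore := fun y (hy : y ∈ E) => fam_core F hκ' (hfull y hy)
    have hgl : ∀ y ∈ E, |g.toFun y (l z) - lo z (l z)| ≤ lam := fun y hy => by
      rw [hgγ]
      exact (hcore y hy).2.2.trans (hκp z).2.2
    have hgt : ∀ y ∈ E, ∀ i, i ≠ l z → g.toFun y i = γ.toFun y i := fun y hy i hi' => by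
      rw [hgγ]
      exact (hcore y hy).2.1 i hi'
    obtain ⟨y₀, hy₀⟩ := hEne
    have hp : (0:ℝ) < 1 / 2 ^ m := by positivity
    have hgb : g.toFun y₀ ∈ bx (lo z) (hi z) (R z) := by
      rw [hgγ]
      exact (F.fam_mem hκ' z).2 (hcore y₀ hy₀).1
    have hc₁' : 0 ≤ c₁ / 2 ^ m := by positivity
    have hl' : lam ≤ 1 / 32 * (1 / 2 ^ m) := by
      have : (1:ℝ) / 32 / 2 ^ m = 1 / 32 * (1 / 2 ^ m) := by ring
      rwa [this] at hlam3
    obtain ⟨hDeep, hcoord⟩ := S.deep (Ad := Finset.univ.erase (l z)) (m := m) (z' := z')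
      (c₁ := c₁) (δ := δ) (lam := lam) (E := E)
      (fun h1 => by
        have := Finset.mem_univ (l z)
        rw [← h1] at this
        exact Finset.notMem_erase _ _ this) hE
      (fun z'' hz'' => hsize z'' ⟨g.toFun y₀, mem_iUnion.2 ⟨z, hgb⟩,
        fun k => (0:V) k + z'' k / 2 ^ m, fun k => ⟨le_rfl, by
          have : (z'' k : ℝ) / 2 ^ m ≤ (z'' k + 1) / 2 ^ m := by gcongr; linarith
          linarith⟩, by
          rw [pi_norm_le_iff_of_nonneg (by positivity)]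
          intro i
          rw [Pi.sub_apply, Real.norm_eq_abs, Pi.zero_apply, zero_add]
          obtain ⟨ha, hb⟩ := hz'' i
          have ha' : ((z' i : ℝ) - 2) / 2 ^ m ≤ z'' i / 2 ^ m := by
            gcongr; exact_mod_cast ha
          have hb' : (z'' i : ℝ) / 2 ^ m ≤ (z' i + 1) / 2 ^ m := by
            gcongr; exact_mod_cast hb
          have e1 : ((z' i : ℝ) - 2) / 2 ^ m = z' i / 2 ^ m - 2 * (1 / 2 ^ m) := by ring
          have e2 : ((z' i : ℝ) + 1) / 2 ^ m = z' i / 2 ^ m + 1 / 2 ^ m := by ring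
          have e3 : (8:ℝ) / 2 ^ m = 8 * (1 / 2 ^ m) := by ring
          rw [e1] at ha'
          rw [e2] at hb'
          rw [e3, abs_le]
          by_cases hil : i = l z
          · subst hil
            have h1 := abs_le.1 (hgl y₀ hy₀)
            rw [hlo] at h1
            constructor <;> linarith [h1.1, h1.2]
          · rw [hgt y₀ hy₀ i hil]
            obtain ⟨h1, h2⟩ := hmid y₀ hy₀ i hil
            have e4 : ((z' i : ℝ) + c₁) / 2 ^ m = z' i / 2 ^ m + c₁ / 2 ^ m := by ring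
            have e5 : ((z' i : ℝ) + 1 - c₁) / 2 ^ m =
                z' i / 2 ^ m + 1 / 2 ^ m - c₁ / 2 ^ m := by ring
            rw [e4] at h1
            rw [e5] at h2
            constructor <;> linarith⟩)
      (fun z'' h1 h2 => by
        have hx := (F.proj_kk (hcore y₀ hy₀).1).1
        refine ⟨_, fun i => ?_, _, Or.inr (mem_iUnion.2 ⟨z, hx⟩), by rw [sub_self, norm_zero]; positivity⟩
        rw [Pi.zero_apply, zero_add, zero_add]
        by_cases hil : i = l z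
        · subst hil
          rw [Function.update_self, hlo]
          rcases h2 (l z) (Finset.notMem_erase _ _) with h3 | h3
          · rw [h3]
            exact ⟨le_rfl, by gcongr; linarith⟩
          · rw [h3]
            push_cast
            exact ⟨by gcongr; linarith, by gcongr; linarith⟩
        · rw [Function.update_of_ne hil]
          rw [h1 i (Finset.mem_erase.2 ⟨hil, Finset.mem_univ _⟩)]
          obtain ⟨h3, h4⟩ := hmid y₀ hy₀ i hil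
          refine ⟨le_trans ?_ h3, h4.trans ?_⟩
          · gcongr; linarith
          · gcongr; linarith)
      (fun y hy i hi' => by
        have hil : i = l z := by
          by_contra hne
          exact hi' (Finset.mem_erase.2 ⟨hne, Finset.mem_univ _⟩)
        subst hil
        rw [Pi.zero_apply, zero_add, ← hlo]
        exact hgl y hy)
      (fun y hy i hi' => by
        have hil : i ≠ l z := (Finset.mem_erase.1 hi').1
        rw [Pi.zero_apply, zero_add, zero_add, hgt y hy i hil]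
        exact hmid y hy i hil)
      hlam1 hlam2 hlam3
    refine ⟨hDeep, fun y hy => ⟨fun i hil => ?_, ?_⟩⟩
    · rw [(hcoord y hy).1 i (Finset.mem_erase.2 ⟨hil, Finset.mem_univ _⟩), hgt y hy i hil]
    · have h1 := (hcoord y hy).2 (l z) (Finset.notMem_erase _ _)
      rw [Pi.zero_apply, zero_add, ← hlo] at h1
      exact h1.trans hlam2

end Vale.Agent.P073.H851
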