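import Vale.Agent.P073.H851.LocLin
import Vale.Agent.P073.H471.Cell
import Vale.Agent.P073.H471.Exp

/-!
# P073, [XI]: the affine core of a target cube is straightened and blown up to the middle cube

`kp N = 8/7 · 2^{-N}` is the relative radius of the core (`kp 8 = 1/224`).
-/

open Set Metric Topology Filter Matrix

namespace Vale.Agent.P073.H851

open _root_.P073 _root_.P073.Net
open Vale.Agent.P073.St (V)
open Vale.Agent.P073.H471 (ff ff_toFun fk fk_small fk_lip fk_sub_le fk_of_ge lt_norm_fk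
  norm_fk_small exists_kap norm_inv_smul)

/-- relative radius of the cores -/
noncomputable def kp (N : ℕ) : ℝ := 8 / 7 / 2 ^ N

theorem kp_pos (N : ℕ) : 0 < kp N := by unfold kp; positivity

theorem kp_eight : kp 8 = 1 / 224 := by unfold kp; norm_num

theorem kp_le {N : ℕ} (hN : 8 ≤ N) : kp N ≤ 1 / 224 := by
  rw [← kp_eight]
  unfold kp
  gcongr
  norm_num

theorem kp_pow (N : ℕ) : 2 ^ N * kp N = 8 / 7 := by unfold kp; field_simp

theorem exists_kp {κ : ℝ} (hκ : 0 < κ) : ∃ N, 8 ≤ N ∧ kp N ≤ κ := by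
  have h : Tendsto (fun N : ℕ => (8 / 7 : ℝ) * (1 / 2) ^ N) atTop (𝓝 (8 / 7 * 0)) :=
    (tendsto_pow_atTop_nhds_zero_of_lt_one (by norm_num) (by norm_num)).const_mul _
  rw [mul_zero] at h
  obtain ⟨N, h1, h2⟩ := ((h.eventually (gt_mem_nhds hκ)).and (eventually_ge_atTop 8)).exists
  refine ⟨N, h2, ?_⟩
  have e : kp N = (8 / 7 : ℝ) * (1 / 2) ^ N := by
    unfold kp; rw [div_pow, one_pow]; ring
  rw [e]; exact h1.le

section cj

variable {c : V} {s L : ℝ} {hs : 0 < s} {Ψ : ConHomeo (univ : Set V) (univ : Set V)}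

theorem LH.cj_off (h : LH L Ψ) {y : V} (hy : s ≤ ‖y - c‖) : (cj c s hs Ψ).toFun y = y := by
  rw [cj_apply, h.off, smul_smul, mul_inv_cancel₀ hs.ne', one_smul, sub_add_cancel]
  rwa [norm_inv_smul _ hs, le_div_iff₀ hs, one_mul]

theorem cj_lip_of (h : ∀ x y, ‖Ψ.toFun x - Ψ.toFun y‖ ≤ L * ‖x - y‖) (x y : V) :
    ‖(cj c s hs Ψ).toFun x - (cj c s hs Ψ).toFun y‖ ≤ L * ‖x - y‖ := by
  rw [cj_apply, cj_apply, add_sub_add_right_eq_sub, ← smul_sub, norm_smul,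
    Real.norm_of_nonneg hs.le]
  have h1 := h (s⁻¹ • (x - c)) (s⁻¹ • (y - c))
  rw [← smul_sub, sub_sub_sub_cancel_right, norm_inv_smul _ hs] at h1
  calc _ ≤ s * (L * (‖x - y‖ / s)) := by gcongr
    _ = L * ‖x - y‖ := by field_simp

theorem LH.cj_lip (h : LH L Ψ) (x y : V) :
    ‖(cj c s hs Ψ).toFun x - (cj c s hs Ψ).toFun y‖ ≤ L * ‖x - y‖ := cj_lip_of h.lip x y

theorem cj_add_smul (y : V) : (cj c s hs Ψ).toFun (c + s • y) = c + s • Ψ.toFun y := by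
  rw [cj_apply, add_sub_cancel_left, smul_smul, inv_mul_cancel₀ hs.ne', one_smul, add_comm]

/-- conjugation by a contraction of the ball -/
theorem LH.cj_LH (h : LH L Ψ) (hs1 : s ≤ 1) : LH L (cj 0 s hs Ψ) := by
  refine ⟨h.one_le, fun y hy => h.cj_off (by rw [sub_zero]; linarith), h.cj_lip,
    fun x y => ?_⟩
  rw [cj_apply, cj_apply, add_sub_add_right_eq_sub, ← smul_sub, norm_smul,
    Real.norm_of_nonneg hs.le]
  have h1 := h.lip' (s⁻¹ • (x - 0)) (s⁻¹ • (y - 0))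
  rw [← smul_sub, sub_sub_sub_cancel_right, norm_inv_smul _ hs, div_le_iff₀ hs] at h1
  linarith

end cj

/-- an exact translation of a small ball to the centre, supported in the ball of radius `7/8` -/
theorem exists_tr {c : V} (hc : ‖c‖ ≤ 1 / 2) : ∃ τ : ConHomeo (univ : Set V) univ, LH 8 τ ∧
    (∀ y, 7 / 8 ≤ ‖y‖ → τ.toFun y = y) ∧ ∀ y, ‖y - c‖ ≤ 1 / 224 → τ.toFun y = y - c := by
  obtain ⟨Ψ₀, hΨ₀, h0⟩ := exists_nid (F := fun _ : V => -((8 / 21 : ℝ) • c)) (fun x y => by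
    rw [sub_self, norm_zero]; positivity) (conicalOn_const _ (IsOpen.conicalSet isOpen_univ))
  have h78 : (0:ℝ) < 7 / 8 := by norm_num
  obtain ⟨Ψ, hΨe⟩ : ∃ Ψ, Ψ = cj 0 (7 / 8) h78 Ψ₀ := ⟨_, rfl⟩
  have hΨ : LH 2 Ψ := by rw [hΨe]; exact hΨ₀.cj_LH (by norm_num)
  have hoff : ∀ y, 7 / 8 ≤ ‖y‖ → Ψ.toFun y = y := by
    intro y hy
    rw [hΨe]
    exact hΨ₀.cj_off (by rwa [sub_zero])
  have hw : ‖-((8 / 21 : ℝ) • c)‖ ≤ 4 / 21 := by
    rw [norm_neg, norm_smul, Real.norm_of_nonneg (by norm_num)]; linarith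
  have key : ∀ y : V, ‖y‖ ≤ 1 / 2 + 1 / 224 → Ψ.toFun y = y - (1 / 3 : ℝ) • c := by
    intro y hy
    have h1 : ‖(7 / 8 : ℝ)⁻¹ • (y - 0)‖ ≤ 8 / 7 * (1 / 2 + 1 / 224) := by
      rw [sub_zero, norm_smul, norm_inv, Real.norm_of_nonneg h78.le]
      have : (7 / 8 : ℝ)⁻¹ = 8 / 7 := by norm_num
      rw [this]; gcongr
    rw [hΨe, cj_apply, h0 _ (hw.trans (by norm_num; norm_num at h1; linarith)), sub_zero,
      smul_add, smul_smul, mul_inv_cancel₀ h78.ne', one_smul, add_zero, smul_neg, smul_smul]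
    norm_num
    rw [sub_eq_add_neg]
  refine ⟨(Ψ.trans Ψ).trans Ψ, ((hΨ.trans hΨ).trans hΨ).mono (by norm_num), fun y hy => ?_,
    fun y hy => ?_⟩
  · show Ψ.toFun (Ψ.toFun (Ψ.toFun y)) = _
    rw [hoff y hy, hoff y hy, hoff y hy]
  show Ψ.toFun (Ψ.toFun (Ψ.toFun y)) = _
  have hy1 : ‖y‖ ≤ 1 / 2 + 1 / 224 := by
    have e : y = c + (y - c) := by abel
    rw [e]; exact (norm_add_le _ _).trans (by linarith)
  have hy2 : ‖y - (1 / 3 : ℝ) • c‖ ≤ 1 / 2 + 1 / 224 := by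
    have e : y - (1 / 3 : ℝ) • c = (2 / 3 : ℝ) • c + (y - c) := by module
    rw [e]
    refine (norm_add_le _ _).trans ?_
    rw [norm_smul, Real.norm_of_nonneg (by norm_num)]; linarith [norm_nonneg c]
  have hy3 : ‖y - (1 / 3 : ℝ) • c - (1 / 3 : ℝ) • c‖ ≤ 1 / 2 + 1 / 224 := by
    have e : y - (1 / 3 : ℝ) • c - (1 / 3 : ℝ) • c = (1 / 3 : ℝ) • c + (y - c) := by module
    rw [e]
    refine (norm_add_le _ _).trans ?_
    rw [norm_smul, Real.norm_of_nonneg (by norm_num)]; linarith [norm_nonneg c]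
  rw [key y hy1, key _ hy2, key _ hy3]
  module

/-- the product of [XI]: what is known about the blow up map of one target cube -/
structure IsXi (N : ℕ) (z c : V) (σ k L r : ℝ) (B : M3) (q : V)
    (Ξ : ConHomeo (univ : Set V) (univ : Set V)) : Prop where
  off : ∀ y, σ ≤ ‖y - z‖ → Ξ.toFun y = y
  shell : ∀ y, kp N * σ < ‖y - c‖ → (1 - k) * σ < ‖Ξ.toFun y - z‖
  diag : ∀ y : V, ‖y‖ ≤ 7 / 8 → Ξ.toFun (c + (kp N * σ) • (r • (B *ᵥ y) + q)) =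
    z + ((1 - k) * (8 / 7) * σ) • y
  tang : ∀ y j, 15 / 16 * σ ≤ ‖y - z‖ → |y j - z j| ≤ 2 * ‖y - z‖ - σ → Ξ.toFun y j = y j
  grow : ∀ y j, 15 / 16 * σ ≤ ‖y - z‖ → (z j ≤ y j → y j ≤ Ξ.toFun y j) ∧
    (y j ≤ z j → Ξ.toFun y j ≤ y j)
  lip0 : ∀ y y', kp N * σ ≤ ‖y - c‖ → kp N * σ ≤ ‖y' - c‖ →
    ‖Ξ.toFun y - Ξ.toFun y'‖ ≤ 28 * 2 ^ N * ‖y - y'‖
  lip : ∀ y y', ‖Ξ.toFun y - Ξ.toFun y'‖ ≤ 8 * 4 ^ N * L * ‖y - y'‖

/-- **[XI]** -/
theorem exists_xi {N : ℕ} (hN : 8 ≤ N) {L r : ℝ} {δ : ConHomeo (univ : Set V) (univ : Set V)}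
    (hδ : LH L δ) {B : M3} {q : V} (hδ1 : ∀ y : V, ‖y‖ ≤ 7 / 8 → δ.toFun y = r • (B *ᵥ y) + q)
    {z c : V} {σ k : ℝ} (hσ : 0 < σ) (hk : 0 < k) (hk1 : k < 1 / 2) (hc : ‖c - z‖ ≤ σ / 2) :
    ∃ Ξ : ConHomeo (univ : Set V) (univ : Set V), IsXi N z c σ k L r B q Ξ := by
  obtain ⟨κ, hκ, hκ1, hκk⟩ := exists_kap hk hk1 (m := N) (by omega)
  obtain ⟨τ, hτ, hτo, hτ1⟩ := exists_tr (c := σ⁻¹ • (c - z)) (by
    rw [norm_inv_smul _ hσ, div_le_iff₀ hσ]; linarith)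
  have hp := kp_pos N
  have hp1 := kp_le hN
  have hpN := kp_pow N
  have h2N : (0:ℝ) < 2 ^ N := by positivity
  have hs : 0 < kp N * σ := by positivity
  have hsσ : kp N * σ ≤ σ / 224 := by
    calc kp N * σ ≤ 1 / 224 * σ := by gcongr
      _ = σ / 224 := by ring
  have hhalf : (1 / 2 : ℝ) ^ N = 7 / 8 * kp N := by
    rw [div_pow, one_pow, div_eq_iff h2N.ne']
    linarith
  -- the three factors
  obtain ⟨Γ, hΓ⟩ : ∃ Γ, Γ = cj c (kp N * σ) hs δ.symm := ⟨_, rfl⟩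
  obtain ⟨Tr, hTr⟩ : ∃ Tr, Tr = cj z σ hσ τ := ⟨_, rfl⟩
  obtain ⟨FF, hFF⟩ : ∃ FF, FF = cj z σ hσ (ff κ hκ hκ1 N) := ⟨_, rfl⟩
  have g1 : ∀ y, kp N * σ ≤ ‖y - c‖ → Γ.toFun y = y := by
    intro y hy; rw [hΓ]; exact hδ.symm.cj_off hy
  have g2 : ∀ x y, ‖Γ.toFun x - Γ.toFun y‖ ≤ L * ‖x - y‖ := by
    intro x y; rw [hΓ]; exact hδ.symm.cj_lip x y
  have g3 : ∀ y : V, ‖y‖ ≤ 7 / 8 →
      Γ.toFun (c + (kp N * σ) • (r • (B *ᵥ y) + q)) = c + (kp N * σ) • y := by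
    intro y hy
    rw [hΓ, cj_add_smul]
    congr 2
    rw [← hδ1 y hy]
    exact δ.left_inv (mem_univ y)
  have t0 : ∀ y, 7 / 8 * σ ≤ ‖y - z‖ → Tr.toFun y = y := by
    intro y hy
    rw [hTr, cj_apply, hτo, smul_smul, mul_inv_cancel₀ hσ.ne', one_smul, sub_add_cancel]
    rwa [norm_inv_smul _ hσ, le_div_iff₀ hσ]
  have t2 : ∀ x y, ‖Tr.toFun x - Tr.toFun y‖ ≤ 8 * ‖x - y‖ := by
    intro x y; rw [hTr]; exact hτ.cj_lip x y
  have t3 : ∀ y, ‖y - c‖ ≤ σ / 224 → Tr.toFun y = z + (y - c) := by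
    intro y hy
    have e : y = z + σ • (σ⁻¹ • (y - z)) := by
      rw [smul_smul, mul_inv_cancel₀ hσ.ne', one_smul]; abel
    rw [hTr]
    nth_rw 1 [e]
    rw [cj_add_smul, hτ1, smul_sub, smul_smul, smul_smul, mul_inv_cancel₀ hσ.ne', one_smul,
      one_smul]
    · abel
    · rw [← smul_sub, sub_sub_sub_cancel_right, norm_inv_smul _ hσ, div_le_iff₀ hσ]
      linarith
  have t4 : ∀ y, kp N * σ < ‖y - c‖ → kp N * σ < ‖Tr.toFun y - z‖ := by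
    intro y hy
    by_contra hn
    push Not at hn
    have h1 : Tr.toFun (c + (Tr.toFun y - z)) = Tr.toFun y := by
      rw [t3, add_sub_cancel_left]
      · abel
      · rw [add_sub_cancel_left]; exact hn.trans hsσ
    have h2 := Tr.injOn (mem_univ _) (mem_univ _) h1
    rw [← h2, add_sub_cancel_left] at hy
    linarith
  have t5 : ∀ y, kp N * σ ≤ ‖y - c‖ → kp N * σ ≤ ‖Tr.toFun y - z‖ := by
    intro y hy
    rcases hy.eq_or_lt with h | h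
    · rw [t3 y (h.ge.trans hsσ), add_sub_cancel_left]; exact h.le
    · exact (t4 y h).le
  have f1 : ∀ y, σ ≤ ‖y - z‖ → FF.toFun y = y := by
    intro y hy
    rw [hFF, cj_apply, ff_toFun, fk_of_ge, smul_smul, mul_inv_cancel₀ hσ.ne', one_smul,
      sub_add_cancel]
    rwa [norm_inv_smul _ hσ, le_div_iff₀ hσ, one_mul]
  have f2 : ∀ y, kp N * σ < ‖y - z‖ → (1 - k) * σ < ‖FF.toFun y - z‖ := by
    intro y hy
    rw [hFF, cj_apply, ff_toFun, add_sub_cancel_right, norm_smul, Real.norm_of_nonneg hσ.le,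
      mul_comm σ, ← hκk]
    refine mul_lt_mul_of_pos_right (lt_norm_fk hκ hκ1 ?_) hσ
    rw [norm_inv_smul _ hσ, lt_div_iff₀ hσ, hhalf]
    nlinarith
  have f3 : ∀ y, ‖y - z‖ ≤ 7 / 8 * kp N * σ → FF.toFun y = z + (2 ^ N * (1 - k)) • (y - z) := by
    intro y hy
    rw [hFF, cj_apply, ff_toFun, fk_small hκ.le hκ1, smul_smul, smul_smul, mul_pow, hκk,
      add_comm]
    · congr 2
      rw [mul_comm σ, mul_assoc, mul_inv_cancel₀ hσ.ne', mul_one]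
    · rw [norm_inv_smul _ hσ, div_le_iff₀ hσ, hhalf]
      exact hy
  have f4 : ∀ x y, ‖FF.toFun x - FF.toFun y‖ ≤ 4 ^ N * ‖x - y‖ := by
    intro x y
    rw [hFF]
    exact cj_lip_of (fun x y => by rw [ff_toFun]; exact fk_lip hκ.le hκ1 N x y) x y
  have f5 : ∀ x y, kp N * σ ≤ ‖x - z‖ → kp N * σ ≤ ‖y - z‖ →
      ‖FF.toFun x - FF.toFun y‖ ≤ 7 / 2 * 2 ^ N * ‖x - y‖ := by
    intro x y hx hy
    rw [hFF, cj_apply, cj_apply, ff_toFun, add_sub_add_right_eq_sub, ← smul_sub, norm_smul,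
      Real.norm_of_nonneg hσ.le]
    have h1 := fk_sub_le (m := N) hκ.le hκ1 (r := kp N) hp (by linarith)
      (y := σ⁻¹ • (x - z)) (z := σ⁻¹ • (y - z))
      (by rw [norm_inv_smul _ hσ, le_div_iff₀ hσ]; linarith)
      (by rw [norm_inv_smul _ hσ, le_div_iff₀ hσ]; linarith)
    rw [← smul_sub, sub_sub_sub_cancel_right, norm_inv_smul _ hσ] at h1
    have h4 : 4 / kp N = 7 / 2 * 2 ^ N := by
      rw [div_eq_iff hp.ne']
      linarith
    calc _ ≤ σ * (4 / kp N * (‖x - y‖ / σ)) := by gcongr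
      _ = 4 / kp N * ‖x - y‖ := by field_simp
      _ = 7 / 2 * 2 ^ N * ‖x - y‖ := by rw [h4]
  have f6 : ∀ y j, 15 / 16 * σ ≤ ‖y - z‖ → |y j - z j| ≤ 2 * ‖y - z‖ - σ →
      FF.toFun y j = y j := by
    intro y j hy hj
    obtain ⟨N', rfl⟩ : ∃ N', N = N' + 1 := ⟨N - 1, by omega⟩
    have h1 : 15 / 16 ≤ ‖σ⁻¹ • (y - z)‖ := by
      rwa [norm_inv_smul _ hσ, le_div_iff₀ hσ]
    rw [hFF, cj_apply, ff_toFun, H471.fk_succ_of_ge (by linarith)]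
    show σ • H471.tt κ (σ⁻¹ • (y - z)) j + z j = y j
    have h2 : |(σ⁻¹ • (y - z)) j| ≤ H471.th ‖σ⁻¹ • (y - z)‖ := by
      rw [H471.th_of_ge (by linarith), norm_inv_smul _ hσ, Pi.smul_apply, Pi.sub_apply,
        smul_eq_mul, abs_mul, abs_inv, abs_of_pos hσ, inv_mul_eq_div, div_le_iff₀ hσ]
      have e : (2 * (‖y - z‖ / σ) - 1) * σ = 2 * ‖y - z‖ - σ := by field_simp
      rw [e]; exact hj
    rw [H471.tt_apply, clamp_of_abs_le h2, Pi.smul_apply, Pi.sub_apply, smul_eq_mul,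
      smul_eq_mul]
    field_simp
    ring
  have f7 : ∀ y j, 15 / 16 * σ ≤ ‖y - z‖ → (z j ≤ y j → y j ≤ FF.toFun y j) ∧
      (y j ≤ z j → FF.toFun y j ≤ y j) := by
    intro y j hy
    obtain ⟨N', rfl⟩ : ∃ N', N = N' + 1 := ⟨N - 1, by omega⟩
    have h1 : 15 / 16 ≤ ‖σ⁻¹ • (y - z)‖ := by
      rwa [norm_inv_smul _ hσ, le_div_iff₀ hσ]
    have h2 := H471.tt_grow (y := σ⁻¹ • (y - z)) hκ1 j
    have h3 : FF.toFun y j = σ * H471.tt κ (σ⁻¹ • (y - z)) j + z j := by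
      rw [hFF, cj_apply, ff_toFun, H471.fk_succ_of_ge (by linarith)]
      rfl
    have h4 : y j - z j = σ * (σ⁻¹ • (y - z)) j := by
      rw [Pi.smul_apply, Pi.sub_apply, smul_eq_mul]
      field_simp
    have hσi : 0 < σ⁻¹ := inv_pos.2 hσ
    have h5 : (σ⁻¹ • (y - z)) j = σ⁻¹ * (y j - z j) := rfl
    constructor
    · intro h
      have h6 := h2.1 (by rw [h5]; exact mul_nonneg hσi.le (by linarith))
      rw [h3]
      nlinarith
    · intro h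
      have h6 := h2.2 (by rw [h5]; exact mul_nonpos_of_nonneg_of_nonpos hσi.le (by linarith))
      rw [h3]
      nlinarith
  have hL := hδ.one_le
  -- near the boundary of the cube the first two factors are the identity
  have hcz : ∀ y, 7 / 8 * σ ≤ ‖y - z‖ → kp N * σ < ‖y - c‖ := by
    intro y hy
    have h1 : ‖y - z‖ ≤ ‖y - c‖ + ‖c - z‖ := by
      have e : y - z = (y - c) + (c - z) := by abel
      rw [e]; exact norm_add_le _ _
    linarith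
  refine ⟨(Γ.trans Tr).trans FF, ⟨fun y hy => ?_, fun y hy => ?_, fun y hy => ?_,
    fun y j hy hj => ?_, fun y j hy => ?_, fun y y' hy hy' => ?_, fun y y' => ?_⟩⟩
  · show FF.toFun (Tr.toFun (Γ.toFun y)) = y
    have h78 : 7 / 8 * σ ≤ ‖y - z‖ := by linarith
    rw [g1 y (hcz y h78).le, t0 y h78, f1 y hy]
  · show _ < ‖FF.toFun (Tr.toFun (Γ.toFun y)) - z‖
    rw [g1 y hy.le]
    exact f2 _ (t4 y hy)
  · show FF.toFun (Tr.toFun (Γ.toFun _)) = _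
    have h0 : ‖(kp N * σ) • y‖ ≤ 7 / 8 * kp N * σ := by
      rw [norm_smul, Real.norm_of_nonneg hs.le]
      calc kp N * σ * ‖y‖ ≤ kp N * σ * (7 / 8) := by gcongr
        _ = 7 / 8 * kp N * σ := by ring
    rw [g3 y hy, t3, f3, add_sub_cancel_left, add_sub_cancel_left, smul_smul]
    · congr 2
      calc 2 ^ N * (1 - k) * (kp N * σ) = (2 ^ N * kp N) * (1 - k) * σ := by ring
        _ = (1 - k) * (8 / 7) * σ := by rw [hpN]; ring
    · rw [add_sub_cancel_left, add_sub_cancel_left]; exact h0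
    · rw [add_sub_cancel_left]
      refine h0.trans (le_trans ?_ hsσ)
      nlinarith
  · show FF.toFun (Tr.toFun (Γ.toFun y)) j = y j
    have h78 : 7 / 8 * σ ≤ ‖y - z‖ := by linarith
    rw [g1 y (hcz y h78).le, t0 y h78, f6 y j hy hj]
  · show (_ → _ ≤ FF.toFun (Tr.toFun (Γ.toFun y)) j) ∧ (_ → FF.toFun (Tr.toFun (Γ.toFun y)) j ≤ _)
    have h78 : 7 / 8 * σ ≤ ‖y - z‖ := by linarith
    rw [g1 y (hcz y h78).le, t0 y h78]
    exact f7 y j hy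
  · show ‖FF.toFun (Tr.toFun (Γ.toFun y)) - FF.toFun (Tr.toFun (Γ.toFun y'))‖ ≤ _
    rw [g1 y hy, g1 y' hy']
    refine (f5 _ _ (t5 y hy) (t5 y' hy')).trans ?_
    calc 7 / 2 * 2 ^ N * ‖Tr.toFun y - Tr.toFun y'‖ ≤ 7 / 2 * 2 ^ N * (8 * ‖y - y'‖) := by
          gcongr; exact t2 y y'
      _ = 28 * 2 ^ N * ‖y - y'‖ := by ring
  · show ‖FF.toFun (Tr.toFun (Γ.toFun y)) - FF.toFun (Tr.toFun (Γ.toFun y'))‖ ≤ _
    calc _ ≤ 4 ^ N * ‖Tr.toFun (Γ.toFun y) - Tr.toFun (Γ.toFun y')‖ := f4 _ _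
      _ ≤ 4 ^ N * (8 * (L * ‖y - y'‖)) := by
        have h1 := t2 (Γ.toFun y) (Γ.toFun y')
        have h2 := g2 y y'
        gcongr
        exact h1.trans (by gcongr)
      _ = 8 * 4 ^ N * L * ‖y - y'‖ := by ring

end Vale.Agent.P073.H851
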